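import Mathlib

set_option autoImplicit false
open scoped ContDiff
open MeasureTheory intervalIntegral

namespace Crest.Agent.BF

/-- approximants of the transition function -/
noncomputable def sg : ℕ → ℝ → ℝ
  | 0 => fun x => max 0 (min 1 (x + 1 / 2))
  | (n + 1) => fun x => (1 / 2) * ∫ u in (2 * x - 1)..(2 * x + 1), sg n u

lemma sg_cont (n : ℕ) : Continuous (sg n) := by
  induction n with
  | zero => unfold sg; fun_prop
  | succ n ih =>
    have h : ∀ x, sg (n+1) x = (1/2) * ((∫ u in (0:ℝ)..(2 * x + 1), sg n u) -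
        ∫ u in (0:ℝ)..(2 * x - 1), sg n u) := by
      intro x
      rw [intervalIntegral.integral_interval_sub_left (ih.intervalIntegrable _ _)
        (ih.intervalIntegrable _ _)]
      rfl
    have h2 : Continuous (fun y : ℝ => ∫ u in (0:ℝ)..y, sg n u) :=
      intervalIntegral.continuous_primitive (fun a b => ih.intervalIntegrable a b) 0
    have : sg (n+1) = fun x => (1/2) * ((∫ u in (0:ℝ)..(2 * x + 1), sg n u) -
        ∫ u in (0:ℝ)..(2 * x - 1), sg n u) := funext h
    rw [this]
    fun_prop

lemma sg_int (n : ℕ) (a b : ℝ) : IntervalIntegrable (sg n) volume a b :=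
  (sg_cont n).intervalIntegrable a b

lemma sg_nonneg (n : ℕ) (x : ℝ) : 0 ≤ sg n x := by
  induction n generalizing x with
  | zero => unfold sg; positivity
  | succ n ih =>
    unfold sg
    apply mul_nonneg (by norm_num)
    apply intervalIntegral.integral_nonneg (by linarith)
    intro u _; exact ih u

lemma sg_le_one (n : ℕ) (x : ℝ) : sg n x ≤ 1 := by
  induction n generalizing x with
  | zero => unfold sg; simp
  | succ n ih =>
    unfold sg
    have : (∫ u in (2 * x - 1)..(2 * x + 1), sg n u) ≤ ∫ u in (2 * x - 1)..(2 * x + 1), (1:ℝ) := by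
      apply intervalIntegral.integral_mono_on (by linarith) (sg_int n _ _) (by simp)
      intro u _; exact ih u
    rw [intervalIntegral.integral_const] at this
    simp at this
    linarith

lemma sg_left (n : ℕ) (x : ℝ) (hx : x ≤ -1) : sg n x = 0 := by
  induction n generalizing x with
  | zero =>
    unfold sg
    rw [max_eq_left]
    exact (min_le_right _ _).trans (by linarith)
  | succ n ih =>
    unfold sg
    have : (∫ u in (2 * x - 1)..(2 * x + 1), sg n u) = ∫ u in (2 * x - 1)..(2 * x + 1), (0:ℝ) := by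
      apply intervalIntegral.integral_congr
      intro u hu
      rw [Set.uIcc_of_le (by linarith)] at hu
      exact ih u (by linarith [hu.2])
    rw [this]; simp

lemma sg_symm (n : ℕ) (x : ℝ) : sg n (-x) = 1 - sg n x := by
  induction n generalizing x with
  | zero =>
    unfold sg
    rcases le_total (x + 1/2) 0 with h | h
    · rw [min_eq_left (by linarith), min_eq_right (by linarith), max_eq_right (by norm_num),
        max_eq_left h]; norm_num
    · rcases le_total (x + 1/2) 1 with h' | h'
      · rw [min_eq_right (by linarith), min_eq_right (by linarith), max_eq_right (by linarith),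
        max_eq_right h]; ring
      · rw [min_eq_right (by linarith), min_eq_left (by linarith), max_eq_left (by linarith),
        max_eq_right (by norm_num)]; ring
  | succ n ih =>
    unfold sg
    have h1 : (∫ u in (2 * (-x) - 1)..(2 * (-x) + 1), sg n u) =
        ∫ u in (2 * x - 1)..(2 * x + 1), sg n (-u) := by
      rw [intervalIntegral.integral_comp_neg (fun u => sg n u)]
      congr 1 <;> ring
    have h2 : (∫ u in (2 * x - 1)..(2 * x + 1), sg n (-u)) =
        ∫ u in (2 * x - 1)..(2 * x + 1), (1 - sg n u) := by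
      apply intervalIntegral.integral_congr
      intro u _; exact ih u
    rw [h1, h2, intervalIntegral.integral_sub (by simp) (sg_int n _ _)]
    simp
    ring

lemma sg_right (n : ℕ) (x : ℝ) (hx : 1 ≤ x) : sg n x = 1 := by
  have h1 := sg_symm n x
  have h2 := sg_left n (-x) (by linarith)
  linarith

/-- key contraction lemma -/
lemma odd_int_bound (g : ℝ → ℝ) (hg : Continuous g) (G : ℝ) (hG : ∀ x, |g x| ≤ G)
    (hodd : ∀ x, g (-x) = - g x) (hs : ∀ x, 1 ≤ x → g x = 0) (x : ℝ) :
    |∫ u in (2 * x - 1)..(2 * x + 1), g u| ≤ G := by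
  have hG0 : 0 ≤ G := (abs_nonneg _).trans (hG 0)
  have hint : ∀ a b, IntervalIntegrable g volume a b := fun a b => hg.intervalIntegrable a b
  have hsym : ∀ a : ℝ, ∫ u in (-a)..a, g u = 0 := by
    intro a
    have h1 : (∫ u in (-a)..a, g (-u)) = ∫ u in (-a)..a, g u := by
      rw [intervalIntegral.integral_comp_neg (fun u => g u)]; simp
    have h2 : (∫ u in (-a)..a, g (-u)) = - ∫ u in (-a)..a, g u := by
      rw [← intervalIntegral.integral_neg]
      apply intervalIntegral.integral_congr
      intro u _; exact hodd u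
    linarith
  have hzero : ∀ a b : ℝ, 1 ≤ a → 1 ≤ b → ∫ u in a..b, g u = 0 := by
    intro a b ha hb
    have : (∫ u in a..b, g u) = ∫ u in a..b, (0:ℝ) := by
      apply intervalIntegral.integral_congr
      intro u hu
      have : 1 ≤ u := by
        have h1 := hu.1
        exact le_trans (le_inf ha hb) h1
      exact hs u this
    rw [this]; simp
  -- main claim for x ≥ 0
  have main : ∀ x : ℝ, 0 ≤ x → |∫ u in (2 * x - 1)..(2 * x + 1), g u| ≤ G := by
    intro x hx
    have e1 : (∫ u in (2 * x - 1)..(2 * x + 1), g u) = ∫ u in (2 * x - 1)..1, g u := by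
      rw [← intervalIntegral.integral_add_adjacent_intervals (hint (2*x-1) 1) (hint 1 (2*x+1)),
        hzero 1 (2*x+1) le_rfl (by linarith), add_zero]
    rw [e1]
    rcases le_total 1 (2 * x - 1) with h | h
    · rw [hzero _ _ h le_rfl]; simpa using hG0
    · -- |2x-1| ≤ 1
      rcases le_total 0 (2 * x - 1) with h0 | h0
      · have := intervalIntegral.norm_integral_le_of_norm_le_const (a := 2*x-1) (b := 1) (C := G)
          (f := g) (fun u _ => hG u)
        rw [Real.norm_eq_abs] at this
        refine this.trans ?_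
        rw [abs_of_nonneg (by linarith)]
        nlinarith
      · have e2 : (∫ u in (2 * x - 1)..1, g u) = ∫ u in (1 - 2 * x)..1, g u := by
          rw [← intervalIntegral.integral_add_adjacent_intervals (hint (2*x-1) (1-2*x))
            (hint (1-2*x) 1)]
          have := hsym (1 - 2 * x)
          rw [show -(1 - 2*x) = 2 * x - 1 by ring] at this
          rw [this, zero_add]
        rw [e2]
        have := intervalIntegral.norm_integral_le_of_norm_le_const (a := 1-2*x) (b := 1) (C := G)
          (f := g) (fun u _ => hG u)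
        rw [Real.norm_eq_abs] at this
        refine this.trans ?_
        rw [abs_of_nonneg (by linarith)]
        nlinarith
  rcases le_total 0 x with h | h
  · exact main x h
  · have := main (-x) (by linarith)
    have e : (∫ u in (2 * (-x) - 1)..(2 * (-x) + 1), g u) =
        - ∫ u in (2 * x - 1)..(2 * x + 1), g u := by
      have h1 : (∫ u in (2 * x - 1)..(2 * x + 1), g (-u)) =
          ∫ u in (2 * (-x) - 1)..(2 * (-x) + 1), g u := by
        rw [intervalIntegral.integral_comp_neg (fun u => g u)]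
        congr 1 <;> ring
      rw [← h1, ← intervalIntegral.integral_neg]
      apply intervalIntegral.integral_congr
      intro u _; exact hodd u
    rw [e, abs_neg] at this
    exact this

lemma sg_diff (n : ℕ) (x : ℝ) : |sg (n+1) x - sg n x| ≤ (1/2 : ℝ)^n := by
  induction n generalizing x with
  | zero =>
    have := sg_nonneg 0 x; have := sg_nonneg 1 x; have := sg_le_one 0 x; have := sg_le_one 1 x
    rw [abs_le]; constructor <;> simp <;> linarith
  | succ n ih =>
    have e : sg (n+1+1) x - sg (n+1) x = (1/2) * ∫ u in (2 * x - 1)..(2 * x + 1),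
        (sg (n+1) u - sg n u) := by
      rw [intervalIntegral.integral_sub (sg_int _ _ _) (sg_int _ _ _)]
      have e1 : sg (n+1+1) x = (1/2) * ∫ u in (2 * x - 1)..(2 * x + 1), sg (n+1) u := rfl
      have e2 : sg (n+1) x = (1/2) * ∫ u in (2 * x - 1)..(2 * x + 1), sg n u := rfl
      rw [e1, e2]
      ring
    rw [e, abs_mul, abs_of_nonneg (by norm_num : (0:ℝ) ≤ 1/2)]
    have := odd_int_bound (fun u => sg (n+1) u - sg n u) ((sg_cont _).sub (sg_cont _)) _ ih
      (by intro x; simp only [sg_symm]; ring)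
      (by intro x hx; simp [sg_right _ x hx]) x
    calc (1/2 : ℝ) * |∫ u in (2 * x - 1)..(2 * x + 1), (sg (n+1) u - sg n u)|
        ≤ (1/2) * (1/2)^n := by gcongr
      _ = (1/2)^(n+1) := by rw [pow_succ]; ring

lemma sg_dist (n : ℕ) (x : ℝ) : dist (sg n x) (sg (n+1) x) ≤ 1 * (1/2 : ℝ)^n := by
  rw [dist_comm, Real.dist_eq, one_mul]; exact sg_diff n x

lemma sg_cauchy (x : ℝ) : CauchySeq (fun n => sg n x) :=
  cauchySeq_of_le_geometric (1/2) 1 (by norm_num) (fun n => sg_dist n x)

/-- the transition function -/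
noncomputable def sig (x : ℝ) : ℝ := (cauchySeq_tendsto_of_complete (sg_cauchy x)).choose

lemma sig_tendsto (x : ℝ) : Filter.Tendsto (fun n => sg n x) Filter.atTop (nhds (sig x)) :=
  (cauchySeq_tendsto_of_complete (sg_cauchy x)).choose_spec

lemma sg_sig (n : ℕ) (x : ℝ) : |sg n x - sig x| ≤ 2 * (1/2 : ℝ)^n := by
  have := dist_le_of_le_geometric_of_tendsto (1/2) 1 (by norm_num) (fun n => sg_dist n x)
    (sig_tendsto x) n
  rw [Real.dist_eq] at this
  refine this.trans ?_
  norm_num
  linarith [pow_pos (by norm_num : (0:ℝ) < 1/2) n]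

lemma sig_cont : Continuous sig := by
  have : TendstoUniformly sg sig Filter.atTop := by
    rw [Metric.tendstoUniformly_iff]
    intro ε hε
    have h : Filter.Tendsto (fun n : ℕ => 2 * (1/2 : ℝ)^n) Filter.atTop (nhds 0) := by
      have := (tendsto_pow_atTop_nhds_zero_of_lt_one (by norm_num : (0:ℝ) ≤ 1/2)
        (by norm_num)).const_mul 2
      simpa using this
    filter_upwards [h.eventually (gt_mem_nhds hε)] with n hn x
    rw [dist_comm, Real.dist_eq]
    exact (sg_sig n x).trans_lt hn
  exact this.continuous (Filter.Eventually.of_forall sg_cont).frequently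

lemma sig_nonneg (x : ℝ) : 0 ≤ sig x := ge_of_tendsto' (sig_tendsto x) (fun n => sg_nonneg n x)

lemma sig_le_one (x : ℝ) : sig x ≤ 1 := le_of_tendsto' (sig_tendsto x) (fun n => sg_le_one n x)

lemma sig_left (x : ℝ) (hx : x ≤ -1) : sig x = 0 := by
  have h := sig_tendsto x
  simp only [sg_left _ x hx] at h
  exact tendsto_nhds_unique h tendsto_const_nhds |>.trans rfl

lemma sig_right (x : ℝ) (hx : 1 ≤ x) : sig x = 1 := by
  have h := sig_tendsto x
  simp only [sg_right _ x hx] at h
  exact tendsto_nhds_unique h tendsto_const_nhds |>.trans rfl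

lemma sig_eq (x : ℝ) : sig x = (1/2) * ∫ u in (2 * x - 1)..(2 * x + 1), sig u := by
  have hint : IntervalIntegrable sig volume (2*x-1) (2*x+1) := sig_cont.intervalIntegrable _ _
  have key : Filter.Tendsto (fun n => sg (n+1) x) Filter.atTop
      (nhds ((1/2) * ∫ u in (2 * x - 1)..(2 * x + 1), sig u)) := by
    rw [tendsto_iff_dist_tendsto_zero]
    have hb : ∀ n : ℕ, dist (sg (n+1) x) ((1/2) * ∫ u in (2 * x - 1)..(2 * x + 1), sig u) ≤
        2 * (1/2 : ℝ)^n := by
      intro n
      rw [Real.dist_eq]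
      have e : sg (n+1) x - (1/2) * ∫ u in (2 * x - 1)..(2 * x + 1), sig u =
          (1/2) * ∫ u in (2 * x - 1)..(2 * x + 1), (sg n u - sig u) := by
        rw [intervalIntegral.integral_sub (sg_int _ _ _) hint]
        conv_lhs => rw [show sg (n+1) x = (1/2) * ∫ u in (2 * x - 1)..(2 * x + 1), sg n u from rfl]
        ring
      rw [e, abs_mul, abs_of_nonneg (by norm_num : (0:ℝ) ≤ 1/2)]
      have := intervalIntegral.norm_integral_le_of_norm_le_const (a := 2*x-1) (b := 2*x+1)
        (C := 2 * (1/2 : ℝ)^n) (f := fun u => sg n u - sig u) (fun u _ => sg_sig n u)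
      rw [Real.norm_eq_abs] at this
      have h2 : |2 * x + 1 - (2 * x - 1)| = 2 := by rw [show 2*x+1-(2*x-1) = (2:ℝ) by ring]; norm_num
      rw [h2] at this
      linarith
    have h : Filter.Tendsto (fun n : ℕ => 2 * (1/2 : ℝ)^n) Filter.atTop (nhds 0) := by
      have := (tendsto_pow_atTop_nhds_zero_of_lt_one (by norm_num : (0:ℝ) ≤ 1/2)
        (by norm_num)).const_mul 2
      simpa using this
    exact squeeze_zero (fun n => dist_nonneg) hb h
  exact tendsto_nhds_unique ((Filter.tendsto_add_atTop_iff_nat 1).2 (sig_tendsto x)) key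

lemma sig_deriv (x : ℝ) : HasDerivAt sig (sig (2 * x + 1) - sig (2 * x - 1)) x := by
  have hP : ∀ y : ℝ, HasDerivAt (fun y => ∫ u in (0:ℝ)..y, sig u) (sig y) y := fun y =>
    intervalIntegral.integral_hasDerivAt_right (sig_cont.intervalIntegrable _ _)
      (sig_cont.stronglyMeasurableAtFilter _ _) sig_cont.continuousAt
  have e : sig = fun x => (1/2) * ((∫ u in (0:ℝ)..(2 * x + 1), sig u) -
      ∫ u in (0:ℝ)..(2 * x - 1), sig u) := by
    funext x
    rw [intervalIntegral.integral_interval_sub_left (sig_cont.intervalIntegrable _ _)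
        (sig_cont.intervalIntegrable _ _)]
    exact sig_eq x
  have h1 : HasDerivAt (fun x : ℝ => 2 * x + 1) 2 x := by
    simpa using ((hasDerivAt_id x).const_mul 2).add_const 1
  have h2 : HasDerivAt (fun x : ℝ => 2 * x - 1) 2 x := by
    simpa using ((hasDerivAt_id x).const_mul 2).sub_const 1
  have h3 := (hP (2*x+1)).comp x h1
  have h4 := (hP (2*x-1)).comp x h2
  have h5 := (h3.sub h4).const_mul (1/2)
  have h6 : HasDerivAt (fun x => (1/2) * ((∫ u in (0:ℝ)..(2 * x + 1), sig u) -
      ∫ u in (0:ℝ)..(2 * x - 1), sig u)) (1 / 2 * (sig (2 * x + 1) * 2 - sig (2 * x - 1) * 2)) x := h5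
  rw [← e] at h6
  have h7 : (1 / 2 * (sig (2 * x + 1) * 2 - sig (2 * x - 1) * 2)) =
      sig (2 * x + 1) - sig (2 * x - 1) := by ring
  rwa [h7] at h6

lemma sig_contDiff_nat (n : ℕ) : ContDiff ℝ n sig := by
  induction n with
  | zero => exact contDiff_zero.2 sig_cont
  | succ n ih =>
    have hd : deriv sig = fun x => sig (2 * x + 1) - sig (2 * x - 1) :=
      funext fun x => (sig_deriv x).deriv
    push_cast
    rw [contDiff_succ_iff_deriv]
    refine ⟨fun x => (sig_deriv x).differentiableAt, by simp, ?_⟩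
    rw [hd]
    exact (ih.comp (by fun_prop)).sub (ih.comp (by fun_prop))

lemma sig_contDiff : ContDiff ℝ ∞ sig := contDiff_infty.2 sig_contDiff_nat


/-! ### Discretised approximants -/

lemma sg_mono_int (n : ℕ) (a b : ℝ) (h : a ≤ b) :
    0 ≤ (∫ u in a..b, sg n u) ∧ (∫ u in a..b, sg n u) ≤ b - a := by
  constructor
  · apply intervalIntegral.integral_nonneg h
    intro u _; exact sg_nonneg n u
  · have : (∫ u in a..b, sg n u) ≤ ∫ u in a..b, (1:ℝ) := by
      apply intervalIntegral.integral_mono_on h (sg_int n _ _) (by simp)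
      intro u _; exact sg_le_one n u
    simpa using this

lemma sg_lip_aux (n : ℕ) (x y : ℝ) (h : y ≤ x) : |sg n x - sg n y| ≤ x - y := by
  cases n with
  | zero =>
    unfold sg
    rw [abs_le]
    constructor
    · have : max 0 (min 1 (y + 1/2)) ≤ max 0 (min 1 (x + 1/2)) := by gcongr
      linarith
    · have : max 0 (min 1 (x + 1/2)) ≤ max 0 (min 1 (y + 1/2)) + (x - y) := by
        apply max_le
        · have := le_max_left 0 (min 1 (y + 1/2)); linarith
        · rcases le_total (y + 1/2) 1 with h1 | h1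
          · rw [min_eq_right h1]
            have := le_max_right 0 (y + 1/2)
            have := min_le_right 1 (x + 1/2)
            linarith
          · rw [min_eq_left h1]
            have := le_max_right (0:ℝ) 1
            have := min_le_left 1 (x + 1/2)
            linarith
      linarith
  | succ n =>
    have e : sg (n+1) x - sg (n+1) y = (1/2) * ((∫ u in (2*y+1)..(2*x+1), sg n u) -
        ∫ u in (2*y-1)..(2*x-1), sg n u) := by
      have e1 : sg (n+1) x = (1/2) * ∫ u in (2 * x - 1)..(2 * x + 1), sg n u := rfl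
      have e2 : sg (n+1) y = (1/2) * ∫ u in (2 * y - 1)..(2 * y + 1), sg n u := rfl
      rw [e1, e2]
      have h1 := intervalIntegral.integral_add_adjacent_intervals (sg_int n (2*y-1) (2*x-1))
        (sg_int n (2*x-1) (2*x+1))
      have h2 := intervalIntegral.integral_add_adjacent_intervals (sg_int n (2*y-1) (2*y+1))
        (sg_int n (2*y+1) (2*x+1))
      linarith
    rw [e]
    have h1 := sg_mono_int n (2*y+1) (2*x+1) (by linarith)
    have h2 := sg_mono_int n (2*y-1) (2*x-1) (by linarith)
    rw [abs_le]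
    constructor <;> linarith [h1.1, h1.2, h2.1, h2.2]

lemma sg_lip (n : ℕ) (x y : ℝ) : |sg n x - sg n y| ≤ |x - y| := by
  rcases le_total y x with h | h
  · rw [abs_of_nonneg (sub_nonneg.2 h)]; exact sg_lip_aux n x y h
  · rw [abs_sub_comm, abs_sub_comm x y, abs_of_nonneg (sub_nonneg.2 h)]; exact sg_lip_aux n y x h

/-- discretised approximants -/
noncomputable def gR (R : ℕ) : ℕ → ℝ → ℝ
  | 0 => fun x => max 0 (min 1 (x + 1 / 2))
  | (n + 1) => fun x => (1 / (R:ℝ)) * ∑ r ∈ Finset.range R, gR R n (2 * x - 1 + (2 * r + 1) / R)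

lemma gR_nonneg (R n : ℕ) (x : ℝ) : 0 ≤ gR R n x := by
  induction n generalizing x with
  | zero => unfold gR; positivity
  | succ n ih =>
    unfold gR
    apply mul_nonneg (by positivity)
    apply Finset.sum_nonneg
    intro r _; exact ih _

lemma gR_le_one (R n : ℕ) (x : ℝ) : gR R n x ≤ 1 := by
  induction n generalizing x with
  | zero => unfold gR; simp
  | succ n ih =>
    unfold gR
    rcases Nat.eq_zero_or_pos R with h | h
    · subst h; simp
    have : ∑ r ∈ Finset.range R, gR R n (2 * x - 1 + (2 * r + 1) / R) ≤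
        ∑ r ∈ Finset.range R, (1:ℝ) := Finset.sum_le_sum (fun r _ => ih _)
    simp at this
    have hR : (0:ℝ) < R := by exact_mod_cast h
    calc (1 / (R:ℝ)) * ∑ r ∈ Finset.range R, gR R n (2 * x - 1 + (2 * r + 1) / R)
        ≤ (1 / (R:ℝ)) * R := by gcongr
      _ = 1 := by field_simp

lemma midpoint_err (n : ℕ) (a h : ℝ) (hh : 0 < h) :
    |(1/2) * (∫ u in a..(a + 2 * h), sg n u) - h * sg n (a + h)| ≤ h * h := by
  have e : (1/2) * (∫ u in a..(a + 2 * h), sg n u) - h * sg n (a + h) =
      (1/2) * ∫ u in a..(a + 2 * h), (sg n u - sg n (a + h)) := by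
    rw [intervalIntegral.integral_sub (sg_int _ _ _) (by simp)]
    simp
    ring
  rw [e, abs_mul, abs_of_nonneg (by norm_num : (0:ℝ) ≤ 1/2)]
  have := intervalIntegral.norm_integral_le_of_norm_le_const (a := a) (b := a + 2 * h)
    (C := h) (f := fun u => sg n u - sg n (a + h)) (by
      intro u hu
      rw [Set.uIoc_of_le (by linarith)] at hu
      refine (sg_lip n u (a+h)).trans ?_
      rw [abs_le]; constructor <;> linarith [hu.1, hu.2])
  rw [Real.norm_eq_abs] at this
  have h2 : |a + 2 * h - a| = 2 * h := by rw [show a + 2*h - a = 2 * h by ring]; exact abs_of_pos (by linarith)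
  rw [h2] at this
  nlinarith

lemma gR_sg (R : ℕ) (hR : 0 < R) (n : ℕ) (x : ℝ) : |gR R n x - sg n x| ≤ n / R := by
  have hR' : (0:ℝ) < R := by exact_mod_cast hR
  induction n generalizing x with
  | zero => simp [gR, sg]
  | succ n ih =>
    have e1 : sg (n+1) x = ∑ r ∈ Finset.range R, (1/2) *
        ∫ u in (2 * x - 1 + 2 * r * (1/R))..(2 * x - 1 + 2 * (r+1:ℕ) * (1/R)), sg n u := by
      rw [← Finset.mul_sum, intervalIntegral.sum_integral_adjacent_intervals
        (a := fun r : ℕ => 2 * x - 1 + 2 * r * (1/(R:ℝ))) (fun k _ => sg_int n _ _)]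
      have : (2 * x - 1 + 2 * (R:ℝ) * (1 / R)) = 2 * x + 1 := by field_simp; ring
      rw [this]
      have e0 : (2 * x - 1 + 2 * ((0:ℕ):ℝ) * (1 / (R:ℝ))) = 2 * x - 1 := by simp
      rw [e0]
      rfl
    have e2 : gR R (n+1) x = ∑ r ∈ Finset.range R, (1/(R:ℝ)) * gR R n (2 * x - 1 + (2 * r + 1) / R) := by
      rw [← Finset.mul_sum]; rfl
    rw [e1, e2, ← Finset.sum_sub_distrib]
    have hterm : ∀ r ∈ Finset.range R, |(1/(R:ℝ)) * gR R n (2 * x - 1 + (2 * r + 1) / R) -
        (1/2) * ∫ u in (2 * x - 1 + 2 * r * (1/R))..(2 * x - 1 + 2 * (r+1:ℕ) * (1/R)), sg n u| ≤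
        (1/(R:ℝ)) * (n / R) + (1/R) * (1/R) := by
      intro r _
      have h1 := ih (2 * x - 1 + (2 * r + 1) / R)
      have h2 := midpoint_err n (2 * x - 1 + 2 * r * (1/R)) (1/R) (by positivity)
      have h3 : (2 * x - 1 + 2 * (r:ℝ) * (1/R)) + 2 * (1/R) = 2 * x - 1 + 2 * (r+1:ℕ) * (1/R) := by
        push_cast; ring
      have h4 : (2 * x - 1 + 2 * (r:ℝ) * (1/R)) + (1/R) = 2 * x - 1 + (2 * r + 1) / R := by
        field_simp; ring
      rw [h3, h4] at h2
      set A := gR R n (2 * x - 1 + (2 * r + 1) / R)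
      set B := sg n (2 * x - 1 + (2 * r + 1) / R)
      set C := ∫ u in (2 * x - 1 + 2 * (r:ℝ) * (1/R))..(2 * x - 1 + 2 * (r+1:ℕ) * (1/R)), sg n u
      have : (1/(R:ℝ)) * A - (1/2) * C = (1/R) * (A - B) - ((1/2) * C - (1/R) * B) := by ring
      rw [this]
      refine (abs_sub _ _).trans ?_
      rw [abs_mul, abs_of_pos (by positivity : (0:ℝ) < 1/R)]
      gcongr
    refine (Finset.abs_sum_le_sum_abs _ _).trans ?_
    refine (Finset.sum_le_sum hterm).trans ?_
    rw [Finset.sum_const, Finset.card_range, nsmul_eq_mul]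
    apply le_of_eq
    push_cast
    field_simp

/-- overall approximation of `sig` -/
lemma gR_sig (K : ℕ) (x : ℝ) :
    |gR (2 * (K + 2) * (K + 1)) (K + 2) x - sig x| ≤ 1 / ((K:ℝ) + 1) := by
  have h1 := gR_sg (2 * (K + 2) * (K + 1)) (by positivity) (K+2) x
  have h2 := sg_sig (K+2) x
  have h3 : ((K + 2 : ℕ) : ℝ) / ((2 * (K + 2) * (K + 1) : ℕ) : ℝ) = 1 / (2 * ((K:ℝ) + 1)) := by
    push_cast; field_simp
  have h4 : 2 * (1/2 : ℝ)^(K+2) ≤ 1 / (2 * ((K:ℝ) + 1)) := by
    have h5 : ((K:ℝ) + 1) ≤ 2^K := by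
      have : K + 1 ≤ 2^K := Nat.lt_two_pow_self
      exact_mod_cast this
    have h6 : (1/2 : ℝ)^(K+2) = 1 / (4 * 2^K) := by
      rw [div_pow, one_pow, pow_add]; ring
    rw [h6]
    have : 2 * (1 / (4 * (2:ℝ)^K)) = 1 / (2 * 2^K) := by field_simp; norm_num
    rw [this]
    apply one_div_le_one_div_of_le (by positivity)
    linarith
  calc |gR (2 * (K + 2) * (K + 1)) (K + 2) x - sig x|
      ≤ |gR (2 * (K + 2) * (K + 1)) (K + 2) x - sg (K+2) x| + |sg (K+2) x - sig x| := abs_sub_le _ _ _
    _ ≤ 1 / (2 * ((K:ℝ) + 1)) + 1 / (2 * ((K:ℝ) + 1)) := by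
        rw [h3] at h1; linarith
    _ = 1 / ((K:ℝ) + 1) := by field_simp; norm_num

end Crest.Agent.BF
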