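import Mathlib
import Crest.Agent.BFSigma

set_option autoImplicit false

namespace Crest.Agent.BF

/-! ### Primitive recursion helpers -/

section helpers
variable {α β σ : Type*} [Primcodable α] [Primcodable β] [Primcodable σ]

theorem pAdd {f g : α → ℕ} (hf : Primrec f) (hg : Primrec g) : Primrec fun a => f a + g a :=
  Primrec.nat_add.comp hf hg
theorem pMul {f g : α → ℕ} (hf : Primrec f) (hg : Primrec g) : Primrec fun a => f a * g a :=
  Primrec.nat_mul.comp hf hg
theorem pSub {f g : α → ℕ} (hf : Primrec f) (hg : Primrec g) : Primrec fun a => f a - g a :=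
  Primrec.nat_sub.comp hf hg
theorem pMin {f g : α → ℕ} (hf : Primrec f) (hg : Primrec g) : Primrec fun a => min (f a) (g a) :=
  Primrec.nat_min.comp hf hg
theorem pPair {f : α → β} {g : α → σ} (hf : Primrec f) (hg : Primrec g) :
    Primrec fun a => (f a, g a) := Primrec.pair hf hg
theorem pFst {f : α → β × σ} (hf : Primrec f) : Primrec fun a => (f a).1 := Primrec.fst.comp hf
theorem pSnd {f : α → β × σ} (hf : Primrec f) : Primrec fun a => (f a).2 := Primrec.snd.comp hf
theorem pPow {f g : α → ℕ} (hf : Primrec f) (hg : Primrec g) : Primrec fun a => f a ^ g a := by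
  have h : Primrec₂ (fun a b : ℕ => a ^ b) := Primrec₂.unpaired'.1 Nat.Primrec.pow
  exact h.comp hf hg
theorem pRange {f : α → ℕ} (hf : Primrec f) : Primrec fun a => List.range (f a) :=
  Primrec.list_range.comp hf
theorem pSucc {f : α → ℕ} (hf : Primrec f) : Primrec fun a => f a + 1 :=
  Primrec.succ.comp hf

theorem list_sum_eq_foldr (l : List ℕ) : l.sum = l.foldr (fun b s => b + s) 0 := rfl

theorem pSum {f : α → List ℕ} (hf : Primrec f) : Primrec fun a => (f a).sum := by
  have h2 : Primrec₂ (fun (_ : α) (p : ℕ × ℕ) => p.1 + p.2) :=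
    (pAdd (pFst Primrec.snd) (pSnd Primrec.snd) : Primrec fun q : α × (ℕ × ℕ) => q.2.1 + q.2.2)
  have : Primrec fun a => (f a).foldr (fun b s => (fun (_ : α) (p : ℕ × ℕ) => p.1 + p.2) a (b, s)) 0 :=
    Primrec.list_foldr hf (Primrec.const 0) h2
  exact this

end helpers

/-- closes goals `Primrec (fun a => nat expression)` -/
macro "prim" : tactic => `(tactic| with_reducible repeat' first
  | assumption | exact Primrec.const _ | exact Primrec.id
  | exact Primrec.fst | exact Primrec.snd | apply pFst | apply pSnd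
  | apply pAdd | apply pMul | apply pSub | apply pMin | apply pPow
  | apply pPair)

/-- signed fractions `(P, N, D)` meaning `(P - N) / (D + 1)` -/
abbrev Q3 : Type := ℕ × ℕ × ℕ

/-- value as a rational -/
def qv (a : Q3) : ℚ := ((a.1 : ℚ) - a.2.1) / (a.2.2 + 1)

def qadd (a b : Q3) : Q3 :=
  (a.1 * (b.2.2 + 1) + b.1 * (a.2.2 + 1), a.2.1 * (b.2.2 + 1) + b.2.1 * (a.2.2 + 1),
    a.2.2 * b.2.2 + a.2.2 + b.2.2)

def qmul (a b : Q3) : Q3 :=
  (a.1 * b.1 + a.2.1 * b.2.1, a.1 * b.2.1 + a.2.1 * b.1,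
    a.2.2 * b.2.2 + a.2.2 + b.2.2)

def qneg (a : Q3) : Q3 := (a.2.1, a.1, a.2.2)

lemma qv_add (a b : Q3) : qv (qadd a b) = qv a + qv b := by
  unfold qv qadd
  have h1 : ((a.2.2 : ℚ) + 1) ≠ 0 := by positivity
  have h2 : ((b.2.2 : ℚ) + 1) ≠ 0 := by positivity
  have h3 : ((a.2.2 : ℚ) * b.2.2 + a.2.2 + b.2.2 + 1) = (a.2.2 + 1) * (b.2.2 + 1) := by ring
  push_cast
  rw [h3]
  field_simp
  ring

lemma qv_mul (a b : Q3) : qv (qmul a b) = qv a * qv b := by
  unfold qv qmul
  have h1 : ((a.2.2 : ℚ) + 1) ≠ 0 := by positivity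
  have h2 : ((b.2.2 : ℚ) + 1) ≠ 0 := by positivity
  have h3 : ((a.2.2 : ℚ) * b.2.2 + a.2.2 + b.2.2 + 1) = (a.2.2 + 1) * (b.2.2 + 1) := by ring
  push_cast
  rw [h3]
  field_simp
  ring

lemma qv_neg (a : Q3) : qv (qneg a) = - qv a := by
  unfold qv qneg
  ring

lemma qv_surj (q : ℚ) : ∃ a : Q3, qv a = q := by
  refine ⟨(q.num.toNat, (-q.num).toNat, q.den - 1), ?_⟩
  unfold qv
  have h1 : ((q.num.toNat : ℕ) : ℚ) - ((-q.num).toNat : ℕ) = q.num := by
    have : ((q.num.toNat : ℕ) : ℤ) - ((-q.num).toNat : ℕ) = q.num := by omega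
    exact_mod_cast this
  have h2 : ((q.den - 1 : ℕ) : ℚ) + 1 = q.den := by
    have : 1 ≤ q.den := q.pos
    have h : (q.den - 1) + 1 = q.den := Nat.sub_add_cancel this
    exact_mod_cast h
  simp only
  rw [h1, h2]
  exact Rat.num_div_den q

section prim
variable {α : Type*} [Primcodable α]

theorem pQadd {f g : α → Q3} (hf : Primrec f) (hg : Primrec g) :
    Primrec fun a => qadd (f a) (g a) := by
  unfold qadd; prim
theorem pQmul {f g : α → Q3} (hf : Primrec f) (hg : Primrec g) :
    Primrec fun a => qmul (f a) (g a) := by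
  unfold qmul; prim
theorem pQneg {f : α → Q3} (hf : Primrec f) :
    Primrec fun a => qneg (f a) := by
  unfold qneg; prim
end prim

/-- power -/
def qpow (a : Q3) (n : ℕ) : Q3 := Nat.rec (1, 0, 0) (fun _ ih => qmul a ih) n

lemma qv_pow (a : Q3) (n : ℕ) : qv (qpow a n) = qv a ^ n := by
  induction n with
  | zero => simp [qpow, qv]
  | succ n ih =>
    have : qpow a (n+1) = qmul a (qpow a n) := rfl
    rw [this, qv_mul, ih, pow_succ]; ring

theorem pQpow {α : Type*} [Primcodable α] {f : α → Q3} {g : α → ℕ} (hf : Primrec f)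
    (hg : Primrec g) : Primrec fun a => qpow (f a) (g a) := by
  unfold qpow
  exact Primrec.nat_rec' (f := g) (g := fun _ => ((1,0,0) : Q3))
    (h := fun a p => qmul (f a) p.2) hg (Primrec.const _)
    (pQmul (hf.comp Primrec.fst) (pSnd Primrec.snd))

/-- one refinement step: list of numerators, subtracted constant -/
def stp (d R : ℕ) (s : List ℕ × ℕ) : List ℕ × ℕ :=
  (s.1.flatMap (fun P => (List.range R).map (fun r => 2 * P + (2 * r + 1) * d)), 2 * s.2 + d * R)

def stpn (d R n : ℕ) (s : List ℕ × ℕ) : List ℕ × ℕ := Nat.rec s (fun _ ih => stp d R ih) n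

lemma stpn_succ (d R n : ℕ) (s : List ℕ × ℕ) : stpn d R (n+1) s = stpn d R n (stp d R s) := by
  induction n with
  | zero => rfl
  | succ n ih =>
    change stp d R (stpn d R (n+1) s) = stp d R (stpn d R n (stp d R s))
    rw [ih]

def sm (D : ℕ) (s : List ℕ × ℕ) : ℕ :=
  (s.1.map (fun P => min (2 * D) ((2 * P + D) - 2 * s.2))).sum

lemma clampD (D P N : ℕ) (hD : 0 < D) :
    max 0 (min 1 (((P:ℝ) - N) / D + 1 / 2)) * (2 * D) = (min (2 * D) ((2 * P + D) - 2 * N) : ℕ) := by
  have hD' : (0:ℝ) < D := by exact_mod_cast hD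
  have e : ((P:ℝ) - N) / D + 1 / 2 = ((2 * P + D) - 2 * N) / (2 * D) := by field_simp; ring
  rw [e]
  rcases le_total (2 * N) (2 * P + D) with h | h
  · have hc : (((2 * P + D) - 2 * N : ℕ) : ℝ) = (2 * P + D) - 2 * N := by
      rw [Nat.cast_sub h]; push_cast; ring
    have h' : (2:ℝ) * N ≤ 2 * P + D := by exact_mod_cast h
    rcases le_total (2 * D) ((2 * P + D) - 2 * N) with h1 | h1
    · rw [min_eq_left h1]
      have h1' : (2:ℝ) * D ≤ (2 * P + D) - 2 * N := by rw [← hc]; exact_mod_cast h1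
      rw [min_eq_left (by rw [le_div_iff₀ (by positivity)]; linarith), max_eq_right (by norm_num)]
      push_cast; ring
    · rw [min_eq_right h1, hc]
      have h1' : ((2:ℝ) * P + D) - 2 * N ≤ 2 * D := by rw [← hc]; exact_mod_cast h1
      rw [min_eq_right (by rw [div_le_iff₀ (by positivity)]; linarith),
        max_eq_right (by apply div_nonneg <;> linarith)]
      field_simp
  · have h' : (2:ℝ) * P + D ≤ 2 * N := by exact_mod_cast h
    have : (2 * P + D) - 2 * N = 0 := Nat.sub_eq_zero_of_le h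
    rw [this, max_eq_left]
    · simp
    · refine (min_le_right _ _).trans ?_
      apply div_nonpos_of_nonpos_of_nonneg <;> linarith

lemma flatMap_map_sum {A B : Type*} (l : List A) (f : A → List B) (g : B → ℝ) :
    ((l.flatMap f).map g).sum = (l.map (fun a => ((f a).map g).sum)).sum := by
  induction l with
  | nil => simp
  | cons a l ih => simp [List.flatMap_cons, ih]

lemma list_sum_congr {A : Type*} (l : List A) (f g : A → ℝ) (h : ∀ a, f a = g a) :
    (l.map f).sum = (l.map g).sum := by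
  congr 1; exact List.map_congr_left (fun a _ => h a)

lemma range_map_sum (R : ℕ) (f : ℕ → ℝ) : ((List.range R).map f).sum = ∑ r ∈ Finset.range R, f r := by
  induction R with
  | zero => simp
  | succ n ih => simp [List.range_succ, Finset.sum_range_succ, ih]

lemma list_sum_mul {A : Type*} (l : List A) (f : A → ℝ) (c : ℝ) :
    (l.map f).sum * c = (l.map (fun a => f a * c)).sum := by
  induction l with
  | nil => simp
  | cons a l ih => simp [add_mul, ih]

lemma sm_spec (d R n : ℕ) (hd : 0 < d) (hR : 0 < R) (s : List ℕ × ℕ) :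
    (s.1.map (fun P : ℕ => gR R n (((P:ℝ) - s.2) / (d * R : ℕ)))).sum * (2 * (d * R : ℕ) * R ^ n) =
      (sm (d * R) (stpn d R n s) : ℕ) := by
  have hd' : (0:ℝ) < d := by exact_mod_cast hd
  have hR' : (0:ℝ) < R := by exact_mod_cast hR
  induction n generalizing s with
  | zero =>
    change _ = ((sm (d * R) s : ℕ) : ℝ)
    unfold sm
    rw [list_sum_mul]
    have : (((s.1.map (fun P => min (2 * (d * R)) ((2 * P + d * R) - 2 * s.2))).sum : ℕ) : ℝ) =
        (s.1.map (fun P => ((min (2 * (d * R)) ((2 * P + d * R) - 2 * s.2) : ℕ) : ℝ))).sum := by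
      rw [Nat.cast_list_sum, List.map_map]; rfl
    rw [this]
    apply list_sum_congr
    intro P
    rw [← clampD (d * R) P s.2 (by positivity)]
    simp [gR]
  | succ n ih =>
    rw [stpn_succ, ← ih (stp d R s)]
    unfold stp
    simp only
    rw [flatMap_map_sum, list_sum_mul, list_sum_mul]
    apply list_sum_congr
    intro P
    rw [List.map_map, range_map_sum]
    change (1 / (R:ℝ)) * (∑ r ∈ Finset.range R,
      gR R n (2 * (((P:ℝ) - s.2) / (d * R : ℕ)) - 1 + (2 * r + 1) / R)) * _ = _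
    have : ∀ r : ℕ, 2 * (((P:ℝ) - s.2) / (d * R : ℕ)) - 1 + (2 * r + 1) / R =
        (((2 * P + (2 * r + 1) * d : ℕ) : ℝ) - ((2 * s.2 + d * R : ℕ) : ℝ)) / (d * R : ℕ) := by
      intro r
      push_cast
      field_simp
      ring
    simp only [this, Function.comp]
    rw [pow_succ]
    field_simp

/-- approximation of `sig` at a fraction with precision `K` -/
def sApx (x : Q3) (K : ℕ) : Q3 :=
  let d := x.2.2 + 1
  let R := 2 * (K + 2) * (K + 1)
  (sm (d * R) (stpn d R (K + 2) ([x.1 * R], x.2.1 * R)), 0, 2 * (d * R) * R ^ (K + 2) - 1)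

lemma sApx_val (x : Q3) (K : ℕ) :
    ((qv (sApx x K) : ℚ) : ℝ) = gR (2 * (K + 2) * (K + 1)) (K + 2) ((qv x : ℚ) : ℝ) := by
  have hR : 0 < 2 * (K + 2) * (K + 1) := by positivity
  have := sm_spec (x.2.2 + 1) (2 * (K + 2) * (K + 1)) (K + 2) (by positivity) hR
    ([x.1 * (2 * (K + 2) * (K + 1))], x.2.1 * (2 * (K + 2) * (K + 1)))
  unfold sApx qv
  simp only
  set R := 2 * (K + 2) * (K + 1)
  have hR' : (0:ℝ) < R := by exact_mod_cast hR
  have hpos : 0 < 2 * ((x.2.2 + 1) * R) * R ^ (K + 2) := by positivity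
  have e1 : (((2 * ((x.2.2 + 1) * R) * R ^ (K + 2) - 1 : ℕ) : ℚ) + 1) =
      ((2 * ((x.2.2 + 1) * R) * R ^ (K + 2) : ℕ) : ℚ) := by
    have h := Nat.sub_add_cancel hpos
    exact_mod_cast h
  rw [e1]
  simp only [List.map_cons, List.map_nil, List.sum_cons, List.sum_nil, add_zero] at this
  push_cast at this ⊢
  rw [← this]
  have e2 : ((x.1:ℝ) * R - x.2.1 * R) / ((x.2.2 + 1) * R) = ((x.1:ℝ) - x.2.1) / (x.2.2 + 1) := by
    field_simp
  rw [e2]
  field_simp
  ring

lemma sApx_err (x : Q3) (K : ℕ) :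
    |((qv (sApx x K) : ℚ) : ℝ) - sig ((qv x : ℚ) : ℝ)| ≤ 1 / ((K:ℝ) + 1) := by
  rw [sApx_val]; exact gR_sig K _

lemma sApx_nonneg (x : Q3) (K : ℕ) : 0 ≤ ((qv (sApx x K) : ℚ) : ℝ) := by
  rw [sApx_val]; exact gR_nonneg _ _ _

lemma sApx_le_one (x : Q3) (K : ℕ) : ((qv (sApx x K) : ℚ) : ℝ) ≤ 1 := by
  rw [sApx_val]; exact gR_le_one _ _ _

theorem pStp {α : Type*} [Primcodable α] {d R : α → ℕ} {s : α → List ℕ × ℕ} (hd : Primrec d)
    (hR : Primrec R) (hs : Primrec s) : Primrec fun a => stp (d a) (R a) (s a) := by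
  unfold stp
  apply pPair
  · refine Primrec.list_flatMap (f := fun a => (s a).1)
      (g := fun a P => (List.range (R a)).map (fun r => 2 * P + (2 * r + 1) * d a)) (pFst hs) ?_
    refine Primrec.list_map (f := fun q : α × ℕ => List.range (R q.1))
      (g := fun (q : α × ℕ) (r : ℕ) => 2 * q.2 + (2 * r + 1) * d q.1) ?_ ?_
    · exact pRange (hR.comp Primrec.fst)
    · have h1 : Primrec fun q : (α × ℕ) × ℕ => d q.1.1 := hd.comp (pFst Primrec.fst)
      show Primrec fun q : (α × ℕ) × ℕ => 2 * q.1.2 + (2 * q.2 + 1) * d q.1.1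
      prim
  · prim

theorem pStpn {α : Type*} [Primcodable α] {d R n : α → ℕ} {s : α → List ℕ × ℕ} (hd : Primrec d)
    (hR : Primrec R) (hn : Primrec n) (hs : Primrec s) :
    Primrec fun a => stpn (d a) (R a) (n a) (s a) := by
  unfold stpn
  exact Primrec.nat_rec' (f := n) (g := s) (h := fun a p => stp (d a) (R a) p.2) hn hs
    (pStp (hd.comp Primrec.fst) (hR.comp Primrec.fst) (pSnd Primrec.snd))

theorem pSm {α : Type*} [Primcodable α] {D : α → ℕ} {s : α → List ℕ × ℕ} (hD : Primrec D)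
    (hs : Primrec s) : Primrec fun a => sm (D a) (s a) := by
  unfold sm
  apply pSum
  refine Primrec.list_map (f := fun a => (s a).1)
    (g := fun a P => min (2 * D a) ((2 * P + D a) - 2 * (s a).2)) (pFst hs) ?_
  have h1 : Primrec fun q : α × ℕ => D q.1 := hD.comp Primrec.fst
  have h2 : Primrec fun q : α × ℕ => (s q.1).2 := pSnd (hs.comp Primrec.fst)
  show Primrec fun q : α × ℕ => min (2 * D q.1) ((2 * q.2 + D q.1) - 2 * (s q.1).2)
  prim

theorem pSApx {α : Type*} [Primcodable α] {x : α → Q3} {K : α → ℕ} (hx : Primrec x)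
    (hK : Primrec K) : Primrec fun a => sApx (x a) (K a) := by
  unfold sApx
  have hd : Primrec fun a => (x a).2.2 + 1 := by prim
  have hR : Primrec fun a => 2 * (K a + 2) * (K a + 1) := by prim
  simp only
  apply pPair
  · apply pSm (by prim)
    apply pStpn hd hR (by prim)
    apply pPair
    · exact Primrec.list_cons.comp (by prim) (Primrec.const [])
    · prim
  · prim

end Crest.Agent.BF
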