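import Mathlib
import Crest.Prelude.Def_BoxFlow
import Crest.Agent.BFCore

set_option autoImplicit false
open scoped ContDiff
open Crest.AnalysisR.BoxFlow

namespace Crest.Agent.BF

abbrev Fac : Type := ℕ × Q3 × Q3
abbrev Atom : Type := Q3 × (Fin 4 → Fac)
abbrev STp : Type := ℝ × (Fin 3 → ℝ)

noncomputable def facVal (v : Fac) (x : ℝ) : ℝ :=
  x ^ v.1 * sig (((qv v.2.1 : ℚ) : ℝ) * x + ((qv v.2.2 : ℚ) : ℝ))

def co (i : Fin 4) (p : STp) : ℝ := if h : i = 0 then p.1 else p.2 (i.pred h)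

noncomputable def aVal (a : Atom) (p : STp) : ℝ :=
  ((qv a.1 : ℚ) : ℝ) * ∏ i, facVal (a.2 i) (co i p)

noncomputable def lVal (L : List Atom) (p : STp) : ℝ := (L.map (fun a => aVal a p)).sum

def upd (f : Fin 4 → Fac) (d : Fin 4) (v : Fac) : Fin 4 → Fac := fun i => if i = d then v else f i

def dAtom (d : Fin 4) (a : Atom) : List Atom :=
  [ (qmul ((a.2 d).1, 0, 0) a.1, upd a.2 d ((a.2 d).1 - 1, (a.2 d).2)),
    (qmul a.1 (a.2 d).2.1, upd a.2 d ((a.2 d).1, qmul (2, 0, 0) (a.2 d).2.1,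
      qadd (qmul (2, 0, 0) (a.2 d).2.2) (1, 0, 0))),
    (qneg (qmul a.1 (a.2 d).2.1), upd a.2 d ((a.2 d).1, qmul (2, 0, 0) (a.2 d).2.1,
      qadd (qmul (2, 0, 0) (a.2 d).2.2) (0, 1, 0))) ]

def dList (ds : List (Fin 4)) (L : List Atom) : List Atom :=
  ds.foldr (fun d L => L.flatMap (dAtom d)) L

/-! ### smoothness -/

lemma co_smooth (i : Fin 4) : ContDiff ℝ ∞ (co i) := by
  unfold co
  by_cases h : i = 0
  · simp only [h, dite_true]; exact contDiff_fst
  · simp only [h, dite_false]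
    exact (contDiff_apply ℝ ℝ (i.pred h)).comp contDiff_snd

lemma facVal_smooth (v : Fac) : ContDiff ℝ ∞ (facVal v) := by
  unfold facVal
  exact (contDiff_id.pow _).mul (sig_contDiff.comp (by fun_prop))

lemma aVal_smooth (a : Atom) : ContDiff ℝ ∞ (aVal a) := by
  unfold aVal
  refine contDiff_const.mul ?_
  exact contDiff_prod (fun i _ => (facVal_smooth (a.2 i)).comp (co_smooth i))

lemma lVal_smooth (L : List Atom) : ContDiff ℝ ∞ (lVal L) := by
  induction L with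
  | nil => unfold lVal; simp; exact contDiff_const
  | cons a L ih =>
    have : lVal (a :: L) = fun p => aVal a p + lVal L p := by
      funext p; simp [lVal]
    rw [this]
    exact (aVal_smooth a).add ih

lemma lVal_nil : lVal [] = fun _ => 0 := by funext p; simp [lVal]

lemma lVal_cons (a : Atom) (L : List Atom) (p : STp) : lVal (a :: L) p = aVal a p + lVal L p := by
  simp [lVal]

lemma lVal_append (L L' : List Atom) (p : STp) : lVal (L ++ L') p = lVal L p + lVal L' p := by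
  simp [lVal]

/-! ### derivative formulas -/

lemma facVal_deriv (v : Fac) (x : ℝ) :
    HasDerivAt (facVal v)
      ((v.1 : ℝ) * facVal (v.1 - 1, v.2) x +
        ((qv v.2.1 : ℚ) : ℝ) * facVal (v.1, qmul (2,0,0) v.2.1, qadd (qmul (2,0,0) v.2.2) (1,0,0)) x +
        - ((qv v.2.1 : ℚ) : ℝ) * facVal (v.1, qmul (2,0,0) v.2.1, qadd (qmul (2,0,0) v.2.2) (0,1,0)) x) x := by
  have h1 : HasDerivAt (fun x : ℝ => ((qv v.2.1 : ℚ) : ℝ) * x + ((qv v.2.2 : ℚ) : ℝ))
      ((qv v.2.1 : ℚ) : ℝ) x := by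
    simpa using ((hasDerivAt_id x).const_mul ((qv v.2.1 : ℚ) : ℝ)).add_const ((qv v.2.2 : ℚ) : ℝ)
  have h2 := (sig_deriv (((qv v.2.1 : ℚ) : ℝ) * x + ((qv v.2.2 : ℚ) : ℝ))).comp x h1
  have h3 := (hasDerivAt_pow v.1 x).mul h2
  have e2 : qv ((2, 0, 0) : Q3) = 2 := by simp [qv]
  have e1 : qv ((1, 0, 0) : Q3) = 1 := by simp [qv]
  have em : qv ((0, 1, 0) : Q3) = -1 := by simp [qv]
  have h4 : facVal v = (fun x => x ^ v.1) * (sig ∘ fun x =>
      ((qv v.2.1 : ℚ) : ℝ) * x + ((qv v.2.2 : ℚ) : ℝ)) := by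
    funext y; simp [facVal]
  rw [h4]
  refine h3.congr_deriv ?_
  unfold facVal
  simp only [qv_add, qv_mul, e1, e2, em, Function.comp]
  push_cast
  have a1 : 2 * ((qv v.2.1 : ℚ) : ℝ) * x + (2 * ((qv v.2.2 : ℚ) : ℝ) + 1) =
    2 * (((qv v.2.1 : ℚ) : ℝ) * x + ((qv v.2.2 : ℚ) : ℝ)) + 1 := by ring
  have a2 : 2 * ((qv v.2.1 : ℚ) : ℝ) * x + (2 * ((qv v.2.2 : ℚ) : ℝ) + -1) =
    2 * (((qv v.2.1 : ℚ) : ℝ) * x + ((qv v.2.2 : ℚ) : ℝ)) - 1 := by ring
  rw [a1, a2]
  ring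

lemma prod_upd (f : Fin 4 → Fac) (d : Fin 4) (v : Fac) (p : STp) :
    ∏ i, facVal (upd f d v i) (co i p) =
      facVal v (co d p) * ∏ i ∈ Finset.univ.erase d, facVal (f i) (co i p) := by
  rw [← Finset.mul_prod_erase Finset.univ _ (Finset.mem_univ d)]
  congr 1
  · simp [upd]
  · apply Finset.prod_congr rfl
    intro i hi
    have : i ≠ d := (Finset.mem_erase.1 hi).1
    simp [upd, this]

lemma co_line (i d : Fin 4) (p : STp) (s : ℝ) :
    co i (p + s • direction d) = co i p + if i = d then s else 0 := by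
  unfold co direction
  by_cases hi : i = 0
  · by_cases hd : d = 0
    · simp [hi, hd]
    · have : ¬ (i = d) := by rw [hi]; exact fun h => hd h.symm
      have h0 : ¬ (0 = d) := fun h => hd h.symm
      simp [hi, hd, h0]
  · by_cases hd : d = 0
    · subst hd
      simp [hi]
    · simp only [hi, hd, dite_false]
      by_cases hid : i = d
      · subst hid; simp
      · have : i.pred hi ≠ d.pred hd := fun h => hid (Fin.pred_inj.1 h)
        simp [hid, this]

lemma aVal_lineDeriv (a : Atom) (d : Fin 4) (p : STp) :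
    fderiv ℝ (aVal a) p (direction d) = lVal (dAtom d a) p := by
  have hdiff : DifferentiableAt ℝ (aVal a) p := (aVal_smooth a).differentiable (by simp) p
  rw [← hdiff.lineDeriv_eq_fderiv]
  apply HasLineDerivAt.lineDeriv
  unfold HasLineDerivAt
  set C := ∏ i ∈ Finset.univ.erase d, facVal (a.2 i) (co i p) with hC
  have e : (fun s : ℝ => aVal a (p + s • direction d)) =
      fun s => ((qv a.1 : ℚ) : ℝ) * (facVal (a.2 d) (co d p + s) * C) := by
    funext s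
    unfold aVal
    rw [← Finset.mul_prod_erase Finset.univ _ (Finset.mem_univ d), co_line]
    simp only [if_true]
    congr 2
    rw [hC]
    apply Finset.prod_congr rfl
    intro i hi
    have : i ≠ d := (Finset.mem_erase.1 hi).1
    rw [co_line]; simp [this]
  rw [e]
  have h1 : HasDerivAt (fun s : ℝ => co d p + s) 1 0 := by
    simpa using (hasDerivAt_id (0:ℝ)).const_add (co d p)
  have h2 := (facVal_deriv (a.2 d) (co d p + 0)).comp (0:ℝ) h1
  have h3 := (h2.mul_const C).const_mul ((qv a.1 : ℚ) : ℝ)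
  refine h3.congr_deriv ?_
  have ep : ((qv ((a.2 d).1, 0, 0) : ℚ) : ℝ) = (a.2 d).1 := by simp [qv]
  simp only [dAtom, lVal, List.map_cons, List.map_nil, List.sum_cons, List.sum_nil, aVal, prod_upd,
    qv_mul, qv_neg, ← hC, add_zero]
  push_cast
  rw [ep]
  ring

lemma lVal_fderiv (L : List Atom) (d : Fin 4) (p : STp) :
    fderiv ℝ (lVal L) p (direction d) = lVal (L.flatMap (dAtom d)) p := by
  induction L with
  | nil => simp [lVal_nil]
  | cons a L ih =>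
    have : lVal (a :: L) = aVal a + lVal L := by funext p; simp [lVal]
    rw [this, fderiv_add ((aVal_smooth a).differentiable (by simp) p)
      ((lVal_smooth L).differentiable (by simp) p)]
    simp only [List.flatMap_cons, lVal_append, ContinuousLinearMap.add_apply]
    rw [aVal_lineDeriv, ih]

/-- a field given by three lists of atoms -/
def AtomField (U : Field) : Prop := ∃ L : Fin 3 → List Atom, ∀ p j, U p j = lVal (L j) p

noncomputable def mkField (L : Fin 3 → List Atom) : Field := fun p j => lVal (L j) p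

lemma mkField_smooth (L : Fin 3 → List Atom) : ContDiff ℝ ∞ (mkField L) :=
  contDiff_pi.2 (fun j => lVal_smooth (L j))

lemma mixedDeriv_mk (L : Fin 3 → List Atom) (ds : List (Fin 4)) :
    mixedDeriv ds (mkField L) = mkField (fun j => dList ds (L j)) := by
  induction ds with
  | nil => rfl
  | cons d ds ih =>
    funext p j
    change fderiv ℝ (mixedDeriv ds (mkField L)) p (direction d) j = lVal (dList (d :: ds) (L j)) p
    rw [ih]
    have h1 : DifferentiableAt ℝ (mkField (fun j => dList ds (L j))) p :=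
      (mkField_smooth _).differentiable (by simp) p
    have h2 : fderiv ℝ (mkField (fun j => dList ds (L j))) p (direction d) j =
        fderiv ℝ (fun p => mkField (fun j => dList ds (L j)) p j) p (direction d) := by
      rw [fderiv_apply h1]
      rfl
    rw [h2]
    change fderiv ℝ (lVal (dList ds (L j))) p (direction d) = _
    rw [lVal_fderiv]
    rfl

/-! ### bounds -/

def cB (c : Q3) : ℕ := c.1 + c.2.1

lemma qv_abs (c : Q3) : |((qv c : ℚ) : ℝ)| ≤ cB c := by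
  unfold qv cB
  push_cast
  rw [abs_div, abs_of_pos (by positivity : (0:ℝ) < (c.2.2:ℝ) + 1), div_le_iff₀ (by positivity)]
  have h1 : |(c.1:ℝ) - c.2.1| ≤ c.1 + c.2.1 := by
    rw [abs_le]; constructor <;> linarith [(Nat.cast_nonneg c.1 : (0:ℝ) ≤ c.1),
      (Nat.cast_nonneg c.2.1 : (0:ℝ) ≤ c.2.1)]
  have h2 : (0:ℝ) ≤ (c.1:ℝ) + c.2.1 := by positivity
  nlinarith [(Nat.cast_nonneg c.2.2 : (0:ℝ) ≤ c.2.2)]

/-- bound for an atom at point with coordinate bounds -/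
def aB (a : Atom) (x : Fin 4 → ℕ) : ℕ := cB a.1 * ((x 0) ^ (a.2 0).1 * (x 1) ^ (a.2 1).1 *
  (x 2) ^ (a.2 2).1 * (x 3) ^ (a.2 3).1)

def lB (L : List Atom) (x : Fin 4 → ℕ) : ℕ := (L.map (fun a => aB a x)).sum

lemma facVal_abs (v : Fac) (x : ℝ) (b : ℕ) (hx : |x| ≤ b) : |facVal v x| ≤ (b:ℝ) ^ v.1 := by
  unfold facVal
  rw [abs_mul, abs_pow]
  have h1 : |sig (((qv v.2.1 : ℚ) : ℝ) * x + ((qv v.2.2 : ℚ) : ℝ))| ≤ 1 := by
    rw [abs_of_nonneg (sig_nonneg _)]; exact sig_le_one _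
  have h2 : |x| ^ v.1 ≤ (b:ℝ) ^ v.1 := by gcongr
  calc |x| ^ v.1 * |sig (((qv v.2.1 : ℚ) : ℝ) * x + ((qv v.2.2 : ℚ) : ℝ))| ≤ (b:ℝ)^v.1 * 1 := by
        gcongr
    _ = _ := mul_one _

lemma aVal_abs (a : Atom) (p : STp) (x : Fin 4 → ℕ) (hx : ∀ i, |co i p| ≤ x i) :
    |aVal a p| ≤ aB a x := by
  unfold aVal aB
  rw [abs_mul, Fin.prod_univ_four]
  simp only [abs_mul]
  push_cast
  have h := fun i => facVal_abs (a.2 i) (co i p) (x i) (hx i)
  gcongr
  · exact qv_abs a.1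
  · exact h 0
  · exact h 1
  · exact h 2
  · exact h 3

lemma lVal_abs (L : List Atom) (p : STp) (x : Fin 4 → ℕ) (hx : ∀ i, |co i p| ≤ x i) :
    |lVal L p| ≤ lB L x := by
  induction L with
  | nil => simp [lVal, lB]
  | cons a L ih =>
    have h2 : lB (a :: L) x = aB a x + lB L x := by simp [lB]
    rw [lVal_cons, h2]
    push_cast
    exact (abs_add_le _ _).trans (add_le_add (aVal_abs a p x hx) ih)

/-! ### approximations -/

/-- approximate value of an atom at a rational point -/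
def aApx (a : Atom) (x : Fin 4 → Q3) (K : ℕ) : Q3 :=
  qmul a.1 (qmul
    (qmul (qmul (qpow (x 0) (a.2 0).1) (sApx (qadd (qmul (a.2 0).2.1 (x 0)) (a.2 0).2.2) K))
      (qmul (qpow (x 1) (a.2 1).1) (sApx (qadd (qmul (a.2 1).2.1 (x 1)) (a.2 1).2.2) K)))
    (qmul (qmul (qpow (x 2) (a.2 2).1) (sApx (qadd (qmul (a.2 2).2.1 (x 2)) (a.2 2).2.2) K))
      (qmul (qpow (x 3) (a.2 3).1) (sApx (qadd (qmul (a.2 3).2.1 (x 3)) (a.2 3).2.2) K))))

def lApx (L : List Atom) (x : Fin 4 → Q3) (K : ℕ) : Q3 :=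
  L.foldr (fun a s => qadd (aApx a x K) s) (0, 0, 0)

lemma prod4_err (a b c d a' b' c' d' e : ℝ) (ha : |a| ≤ 1) (hb : |b| ≤ 1) (hc : |c| ≤ 1)
    (_hd : |d| ≤ 1) (_ha' : |a'| ≤ 1) (hb' : |b'| ≤ 1) (hc' : |c'| ≤ 1) (hd' : |d'| ≤ 1)
    (h1 : |a - a'| ≤ e) (h2 : |b - b'| ≤ e) (h3 : |c - c'| ≤ e) (h4 : |d - d'| ≤ e) :
    |a * b * (c * d) - a' * b' * (c' * d')| ≤ 4 * e := by
  have key : a * b * (c * d) - a' * b' * (c' * d') =
      (a - a') * b' * c' * d' + a * (b - b') * c' * d' + a * b * (c - c') * d' +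
        a * b * c * (d - d') := by ring
  have he : 0 ≤ e := (abs_nonneg _).trans h1
  have t1 : |(a - a') * b' * c' * d'| ≤ e := by
    rw [abs_mul, abs_mul, abs_mul]
    calc |a - a'| * |b'| * |c'| * |d'| ≤ e * 1 * 1 * 1 := by gcongr
      _ = e := by ring
  have t2 : |a * (b - b') * c' * d'| ≤ e := by
    rw [abs_mul, abs_mul, abs_mul]
    calc |a| * |b - b'| * |c'| * |d'| ≤ 1 * e * 1 * 1 := by gcongr
      _ = e := by ring
  have t3 : |a * b * (c - c') * d'| ≤ e := by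
    rw [abs_mul, abs_mul, abs_mul]
    calc |a| * |b| * |c - c'| * |d'| ≤ 1 * 1 * e * 1 := by gcongr
      _ = e := by ring
  have t4 : |a * b * c * (d - d')| ≤ e := by
    rw [abs_mul, abs_mul, abs_mul]
    calc |a| * |b| * |c| * |d - d'| ≤ 1 * 1 * 1 * e := by gcongr
      _ = e := by ring
  rw [key]
  refine (abs_add_le _ _).trans ?_
  have := (abs_add_le ((a - a') * b' * c' * d' + a * (b - b') * c' * d') (a * b * (c - c') * d'))
  have := (abs_add_le ((a - a') * b' * c' * d') (a * (b - b') * c' * d'))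
  linarith

lemma aApx_err (a : Atom) (p : STp) (x : Fin 4 → Q3) (K : ℕ)
    (hx : ∀ i, co i p = ((qv (x i) : ℚ) : ℝ)) :
    |aVal a p - ((qv (aApx a x K) : ℚ) : ℝ)| ≤ (aB a (fun i => cB (x i)) : ℕ) * (4 * (1 / ((K:ℝ) + 1))) := by
  have hS : ∀ i, facVal (a.2 i) (co i p) = ((qv (x i) : ℚ) : ℝ) ^ (a.2 i).1 *
      sig ((qv (qadd (qmul (a.2 i).2.1 (x i)) (a.2 i).2.2) : ℚ) : ℝ) := by
    intro i
    unfold facVal
    rw [hx i, qv_add, qv_mul]
    push_cast
    rfl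
  unfold aVal aApx
  rw [Fin.prod_univ_four, hS 0, hS 1, hS 2, hS 3]
  simp only [qv_mul, qv_pow, Rat.cast_mul, Rat.cast_pow]
  have ee := fun i => sApx_err (qadd (qmul (a.2 i).2.1 (x i)) (a.2 i).2.2) K
  have en := fun i => sApx_nonneg (qadd (qmul (a.2 i).2.1 (x i)) (a.2 i).2.2) K
  have eo := fun i => sApx_le_one (qadd (qmul (a.2 i).2.1 (x i)) (a.2 i).2.2) K
  set S := fun i => ((qv (sApx (qadd (qmul (a.2 i).2.1 (x i)) (a.2 i).2.2) K) : ℚ) : ℝ) with hSdef
  set T := fun i => sig ((qv (qadd (qmul (a.2 i).2.1 (x i)) (a.2 i).2.2) : ℚ) : ℝ) with hTdef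
  have hT0 : ∀ i, 0 ≤ T i := fun i => sig_nonneg _
  have hT1 : ∀ i, T i ≤ 1 := fun i => sig_le_one _
  have hS1 : ∀ i, |S i| ≤ 1 := fun i => by rw [abs_of_nonneg (en i)]; exact eo i
  have hT1' : ∀ i, |T i| ≤ 1 := fun i => by rw [abs_of_nonneg (hT0 i)]; exact hT1 i
  have hST : ∀ i, |T i - S i| ≤ 1 / ((K:ℝ) + 1) := fun i => by rw [abs_sub_comm]; exact ee i
  have key := prod4_err (T 0) (T 1) (T 2) (T 3) (S 0) (S 1) (S 2) (S 3) _ (hT1' 0) (hT1' 1)
    (hT1' 2) (hT1' 3) (hS1 0) (hS1 1) (hS1 2) (hS1 3) (hST 0) (hST 1) (hST 2) (hST 3)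
  set X := fun i => ((qv (x i) : ℚ) : ℝ) ^ (a.2 i).1 with hX
  have e : ((qv a.1 : ℚ) : ℝ) * (X 0 * T 0 * (X 1 * T 1) * (X 2 * T 2) * (X 3 * T 3)) -
      ((qv a.1 : ℚ) : ℝ) * (X 0 * S 0 * (X 1 * S 1) * (X 2 * S 2 * (X 3 * S 3))) =
      (((qv a.1 : ℚ) : ℝ) * (X 0 * X 1 * X 2 * X 3)) *
        (T 0 * T 1 * (T 2 * T 3) - S 0 * S 1 * (S 2 * S 3)) := by ring
  change |((qv a.1 : ℚ) : ℝ) * (X 0 * T 0 * (X 1 * T 1) * (X 2 * T 2) * (X 3 * T 3)) -
      ((qv a.1 : ℚ) : ℝ) * (X 0 * S 0 * (X 1 * S 1) * (X 2 * S 2 * (X 3 * S 3)))| ≤ _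
  rw [e, abs_mul]
  have hXa : ∀ i, |X i| ≤ (cB (x i) : ℝ) ^ (a.2 i).1 := by
    intro i
    rw [hX]
    simp only [abs_pow]
    gcongr
    exact qv_abs (x i)
  have hB : |((qv a.1 : ℚ) : ℝ) * (X 0 * X 1 * X 2 * X 3)| ≤ (aB a (fun i => cB (x i)) : ℕ) := by
    unfold aB
    simp only [abs_mul]
    push_cast
    gcongr
    · exact qv_abs a.1
    · exact hXa 0
    · exact hXa 1
    · exact hXa 2
    · exact hXa 3
  gcongr

lemma lApx_err (L : List Atom) (p : STp) (x : Fin 4 → Q3) (K : ℕ)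
    (hx : ∀ i, co i p = ((qv (x i) : ℚ) : ℝ)) :
    |lVal L p - ((qv (lApx L x K) : ℚ) : ℝ)| ≤ (lB L (fun i => cB (x i)) : ℕ) * (4 * (1 / ((K:ℝ) + 1))) := by
  induction L with
  | nil => simp [lVal, lB, lApx, qv]
  | cons a L ih =>
    have h2 : lB (a :: L) (fun i => cB (x i)) = aB a (fun i => cB (x i)) + lB L (fun i => cB (x i)) := by
      simp [lB]
    have h3 : lApx (a :: L) x K = qadd (aApx a x K) (lApx L x K) := rfl
    rw [lVal_cons, h2, h3, qv_add]
    push_cast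
    have h4 := aApx_err a p x K hx
    have e : aVal a p + lVal L p - (((qv (aApx a x K) : ℚ) : ℝ) + ((qv (lApx L x K) : ℚ) : ℝ)) =
      (aVal a p - ((qv (aApx a x K) : ℚ) : ℝ)) + (lVal L p - ((qv (lApx L x K) : ℚ) : ℝ)) := by ring
    rw [e, add_mul]
    exact (abs_add_le _ _).trans (add_le_add h4 ih)

/-- approximation with precision `1/(n+1)` -/
def lEval (L : List Atom) (x : Fin 4 → Q3) (n : ℕ) : Q3 :=
  lApx L x (4 * lB L (fun i => cB (x i)) * (n + 1))

lemma lEval_err (L : List Atom) (p : STp) (x : Fin 4 → Q3) (n : ℕ)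
    (hx : ∀ i, co i p = ((qv (x i) : ℚ) : ℝ)) :
    |lVal L p - ((qv (lEval L x n) : ℚ) : ℝ)| ≤ 1 / ((n:ℝ) + 1) := by
  have := lApx_err L p x (4 * lB L (fun i => cB (x i)) * (n + 1)) hx
  refine this.trans ?_
  set B := lB L (fun i => cB (x i))
  push_cast
  rw [← mul_assoc, mul_one_div]
  rw [div_le_div_iff₀ (by positivity) (by positivity)]
  have : (0:ℝ) ≤ B := Nat.cast_nonneg _
  nlinarith [(Nat.cast_nonneg n : (0:ℝ) ≤ n)]

end Crest.Agent.BF
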