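import Mathlib
import Crest.Agent.BFAtoms

set_option autoImplicit false

namespace Crest.Agent.BF

section
variable {α β σ : Type*} [Primcodable α] [Primcodable β] [Primcodable σ]

theorem pApp {n : ℕ} {f : α → Fin n → β} {i : α → Fin n} (hf : Primrec f) (hi : Primrec i) :
    Primrec fun a => f a (i a) := Primrec.fin_app.comp hf hi

theorem pUpd {f : α → Fin 4 → Fac} {d : α → Fin 4} {v : α → Fac} (hf : Primrec f) (hd : Primrec d)
    (hv : Primrec v) : Primrec fun a => upd (f a) (d a) (v a) := by
  unfold upd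
  apply Primrec.fin_curry.2
  show Primrec fun q : α × Fin 4 => if q.2 = d q.1 then v q.1 else f q.1 q.2
  apply Primrec.ite
  · exact Primrec.eq.comp Primrec.snd (hd.comp Primrec.fst)
  · exact hv.comp Primrec.fst
  · exact pApp (hf.comp Primrec.fst) Primrec.snd

theorem pCons {f : α → β} {g : α → List β} (hf : Primrec f) (hg : Primrec g) :
    Primrec fun a => f a :: g a := Primrec.list_cons.comp hf hg

theorem pdAtom {d : α → Fin 4} {a : α → Atom} (hd : Primrec d) (ha : Primrec a) :
    Primrec fun x => dAtom (d x) (a x) := by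
  unfold dAtom
  have h1 : Primrec fun x => (a x).1 := pFst ha
  have h2 : Primrec fun x => (a x).2 := pSnd ha
  have h3 : Primrec fun x => (a x).2 (d x) := pApp h2 hd
  have h4 : Primrec fun x => ((a x).2 (d x)).1 := pFst h3
  have h5 : Primrec fun x => ((a x).2 (d x)).2 := pSnd h3
  have h6 : Primrec fun x => ((a x).2 (d x)).2.1 := pFst h5
  have h7 : Primrec fun x => ((a x).2 (d x)).2.2 := pSnd h5
  have c2 : Primrec fun _ : α => ((2,0,0) : Q3) := Primrec.const _
  have c1 : Primrec fun _ : α => ((1,0,0) : Q3) := Primrec.const _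
  have cm : Primrec fun _ : α => ((0,1,0) : Q3) := Primrec.const _
  apply pCons
  · apply pPair
    · apply pQmul _ h1
      exact pPair h4 (Primrec.const _)
    · apply pUpd h2 hd
      exact pPair (pSub h4 (Primrec.const _)) h5
  · apply pCons
    · apply pPair
      · exact pQmul h1 h6
      · apply pUpd h2 hd
        exact pPair h4 (pPair (pQmul c2 h6) (pQadd (pQmul c2 h7) c1))
    · apply pCons
      · apply pPair
        · exact pQneg (pQmul h1 h6)
        · apply pUpd h2 hd
          exact pPair h4 (pPair (pQmul c2 h6) (pQadd (pQmul c2 h7) cm))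
      · exact Primrec.const _

theorem pdList {ds : α → List (Fin 4)} {L : α → List Atom} (hds : Primrec ds) (hL : Primrec L) :
    Primrec fun x => dList (ds x) (L x) := by
  unfold dList
  have hh : Primrec₂ (fun (_ : α) (p : Fin 4 × List Atom) => p.2.flatMap (dAtom p.1)) := by
    show Primrec fun q : α × (Fin 4 × List Atom) => q.2.2.flatMap (dAtom q.2.1)
    refine Primrec.list_flatMap (f := fun q : α × (Fin 4 × List Atom) => q.2.2)
      (g := fun q a => dAtom q.2.1 a) (pSnd Primrec.snd) ?_
    show Primrec fun q : (α × (Fin 4 × List Atom)) × Atom => dAtom q.1.2.1 q.2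
    exact pdAtom (pFst (pSnd Primrec.fst)) Primrec.snd
  exact Primrec.list_foldr hds hL hh

theorem pcB {c : α → Q3} (hc : Primrec c) : Primrec fun x => cB (c x) := by
  unfold cB; exact pAdd (pFst hc) (pFst (pSnd hc))

theorem paB {a : α → Atom} {x : α → Fin 4 → ℕ} (ha : Primrec a) (hx : Primrec x) :
    Primrec fun q => aB (a q) (x q) := by
  unfold aB
  have h2 : Primrec fun q => (a q).2 := pSnd ha
  have hf : ∀ i : Fin 4, Primrec fun q => (x q i) ^ ((a q).2 i).1 := fun i =>
    pPow (pApp hx (Primrec.const i)) (pFst (pApp h2 (Primrec.const i)))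
  exact pMul (pcB (pFst ha)) (pMul (pMul (pMul (hf 0) (hf 1)) (hf 2)) (hf 3))

theorem plB {L : α → List Atom} {x : α → Fin 4 → ℕ} (hL : Primrec L) (hx : Primrec x) :
    Primrec fun q => lB (L q) (x q) := by
  unfold lB
  apply pSum
  refine Primrec.list_map (f := L) (g := fun q a => aB a (x q)) hL ?_
  show Primrec fun q : α × Atom => aB q.2 (x q.1)
  exact paB Primrec.snd (hx.comp Primrec.fst)

theorem paApx {a : α → Atom} {x : α → Fin 4 → Q3} {K : α → ℕ} (ha : Primrec a) (hx : Primrec x)
    (hK : Primrec K) : Primrec fun q => aApx (a q) (x q) (K q) := by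
  unfold aApx
  have h2 : Primrec fun q => (a q).2 := pSnd ha
  have hX : ∀ i : Fin 4, Primrec fun q => x q i := fun i => pApp hx (Primrec.const i)
  have hA : ∀ i : Fin 4, Primrec fun q => (a q).2 i := fun i => pApp h2 (Primrec.const i)
  have hF : ∀ i : Fin 4, Primrec fun q => qmul (qpow (x q i) ((a q).2 i).1)
      (sApx (qadd (qmul ((a q).2 i).2.1 (x q i)) ((a q).2 i).2.2) (K q)) := fun i =>
    pQmul (pQpow (hX i) (pFst (hA i))) (pSApx (pQadd (pQmul (pFst (pSnd (hA i))) (hX i))
      (pSnd (pSnd (hA i)))) hK)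
  exact pQmul (pFst ha) (pQmul (pQmul (hF 0) (hF 1)) (pQmul (hF 2) (hF 3)))

theorem plApx {L : α → List Atom} {x : α → Fin 4 → Q3} {K : α → ℕ} (hL : Primrec L)
    (hx : Primrec x) (hK : Primrec K) : Primrec fun q => lApx (L q) (x q) (K q) := by
  unfold lApx
  have hh : Primrec₂ (fun (q : α) (p : Atom × Q3) => qadd (aApx p.1 (x q) (K q)) p.2) := by
    show Primrec fun r : α × (Atom × Q3) => qadd (aApx r.2.1 (x r.1) (K r.1)) r.2.2
    exact pQadd (paApx (pFst Primrec.snd) (hx.comp Primrec.fst) (hK.comp Primrec.fst))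
      (pSnd Primrec.snd)
  exact Primrec.list_foldr hL (Primrec.const _) hh

theorem plEval {L : α → List Atom} {x : α → Fin 4 → Q3} {n : α → ℕ} (hL : Primrec L)
    (hx : Primrec x) (hn : Primrec n) : Primrec fun q => lEval (L q) (x q) (n q) := by
  unfold lEval
  have hc : Primrec fun q => (fun i => cB (x q i)) := by
    apply Primrec.fin_curry.2
    show Primrec fun r : α × Fin 4 => cB (x r.1 r.2)
    exact pcB (pApp (hx.comp Primrec.fst) Primrec.snd)
  exact plApx hL hx (pMul (pMul (Primrec.const _) (plB hL hc)) (pAdd hn (Primrec.const _)))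

end

end Crest.Agent.BF
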