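import Mathlib
import Crest.Agent.BFPrim

set_option autoImplicit false

namespace Crest.Agent.BF

open Encodable Denumerable

theorem computable_find {α : Type*} [Primcodable α] {p : α → ℕ → Bool} (hp : Computable₂ p)
    (h : ∀ a, ∃ n, p a n = true) : Computable fun a => Nat.find (h a) := by
  have h1 : Partrec fun a => Nat.rfind (fun n => Part.some (p a n)) := Partrec.rfind hp.partrec₂
  refine h1.of_eq (fun a => ?_)
  apply Part.eq_some_iff.2
  rw [Nat.mem_rfind]
  constructor
  · exact Part.mem_some_iff.2 (Nat.find_spec (h a)).symm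
  · intro m hm
    have := Nat.find_min (h a) hm
    apply Part.mem_some_iff.2
    simpa using this

/-- the set of codes of rationals for the standard encoding -/
def sR : Set ℕ := Set.range (@encode ℚ Rat.instEncodable)

lemma int_encode_nat (z : ℤ) : (encode z : ℕ) = if 0 ≤ z then 2 * z.natAbs else 2 * z.natAbs - 1 := by
  cases z with
  | ofNat n =>
    have : (encode (Int.ofNat n) : ℕ) = 2 * n := rfl
    rw [this]; simp
  | negSucc n =>
    have : (encode (Int.negSucc n) : ℕ) = 2 * n + 1 := rfl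
    rw [this]
    have h : ¬ (0 ≤ Int.negSucc n) := by simp
    rw [if_neg h]
    simp
    omega

lemma rat_encode (q : ℚ) : @encode ℚ Rat.instEncodable q = Nat.pair (encode q.num) q.den := rfl

lemma mem_sR (x : ℕ) : x ∈ sR ↔ 0 < (Nat.unpair x).2 ∧
    Nat.Coprime (((Nat.unpair x).1 + 1) / 2) (Nat.unpair x).2 := by
  constructor
  · rintro ⟨q, rfl⟩
    rw [rat_encode, Nat.unpair_pair]
    refine ⟨q.pos, ?_⟩
    simp only
    have : (encode q.num + 1) / 2 = q.num.natAbs := by
      rw [int_encode_nat]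
      split_ifs with h
      · omega
      · omega
    rw [this]; exact q.reduced
  · rintro ⟨h1, h2⟩
    set a := (Nat.unpair x).1
    set b := (Nat.unpair x).2
    let z : ℤ := if a % 2 = 0 then (a / 2 : ℕ) else -(((a + 1) / 2 : ℕ) : ℤ)
    have hz : z.natAbs = (a + 1) / 2 := by
      simp only [z]
      split_ifs with h
      · rw [Int.natAbs_natCast]; omega
      · rw [Int.natAbs_neg, Int.natAbs_natCast]
    have hz' : (encode z : ℕ) = a := by
      rw [int_encode_nat, hz]
      simp only [z]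
      split_ifs with h h' h'
      · omega
      · exfalso; apply h'; positivity
      · exfalso
        have : (0:ℤ) < (((a + 1) / 2 : ℕ) : ℤ) := by
          have : 0 < (a+1)/2 := by omega
          exact_mod_cast this
        omega
      · omega
    refine ⟨⟨z, b, Nat.pos_iff_ne_zero.1 h1, by rw [hz]; exact h2⟩, ?_⟩
    rw [rat_encode]
    simp only
    rw [hz']
    exact Nat.pair_unpair x

lemma cop_iff (a b : ℕ) (hb : 0 < b) : Nat.Coprime a b ↔ ∀ d < b + 1, a % d = 0 → b % d = 0 → d ≤ 1 := by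
  constructor
  · intro h d _ h1 h2
    have : d ∣ Nat.gcd a b := Nat.dvd_gcd (Nat.dvd_of_mod_eq_zero h1) (Nat.dvd_of_mod_eq_zero h2)
    rw [h] at this
    exact Nat.le_of_dvd one_pos this
  · intro h
    have hg : Nat.gcd a b ∣ b := Nat.gcd_dvd_right a b
    have hg' : Nat.gcd a b ∣ a := Nat.gcd_dvd_left a b
    have := h (Nat.gcd a b) (Nat.lt_succ_of_le (Nat.le_of_dvd hb hg)) (Nat.mod_eq_zero_of_dvd hg')
      (Nat.mod_eq_zero_of_dvd hg)
    have h0 : 0 < Nat.gcd a b := Nat.gcd_pos_of_pos_right a hb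
    show Nat.gcd a b = 1
    omega

theorem prim_sR : PrimrecPred (fun x => x ∈ sR) := by
  have hR : PrimrecRel (fun (d x : ℕ) => ¬ (((Nat.unpair x).1 + 1) / 2 % d = 0 ∧
      (Nat.unpair x).2 % d = 0 ∧ ¬ (d ≤ 1))) := by
    have u1 : Primrec fun q : ℕ × ℕ => (Nat.unpair q.2).1 := pFst (Primrec.unpair.comp Primrec.snd)
    have u2 : Primrec fun q : ℕ × ℕ => (Nat.unpair q.2).2 := pSnd (Primrec.unpair.comp Primrec.snd)
    have d1 : Primrec fun q : ℕ × ℕ => q.1 := Primrec.fst
    have e1 : Primrec fun q : ℕ × ℕ => ((Nat.unpair q.2).1 + 1) / 2 % q.1 :=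
      Primrec.nat_mod.comp (Primrec.nat_div.comp (pSucc u1) (Primrec.const 2)) d1
    have e2 : Primrec fun q : ℕ × ℕ => (Nat.unpair q.2).2 % q.1 := Primrec.nat_mod.comp u2 d1
    have p1 : PrimrecPred fun q : ℕ × ℕ => ((Nat.unpair q.2).1 + 1) / 2 % q.1 = 0 :=
      Primrec.eq.comp e1 (Primrec.const 0)
    have p2 : PrimrecPred fun q : ℕ × ℕ => (Nat.unpair q.2).2 % q.1 = 0 :=
      Primrec.eq.comp e2 (Primrec.const 0)
    have p3 : PrimrecPred fun q : ℕ × ℕ => q.1 ≤ 1 := Primrec.nat_le.comp d1 (Primrec.const 1)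
    exact (p1.and (p2.and p3.not)).not
  have hA := hR.forall_lt
  have u2 : Primrec fun x : ℕ => (Nat.unpair x).2 := pSnd Primrec.unpair
  have hB : PrimrecPred fun x : ℕ => ∀ d < (Nat.unpair x).2 + 1,
      ¬ (((Nat.unpair x).1 + 1) / 2 % d = 0 ∧ (Nat.unpair x).2 % d = 0 ∧ ¬ (d ≤ 1)) :=
    hA.comp (pSucc u2) Primrec.id
  have hC : PrimrecPred fun x : ℕ => 0 < (Nat.unpair x).2 := Primrec.nat_lt.comp (Primrec.const 0) u2
  refine (hC.and hB).of_eq (fun x => ?_)
  rw [mem_sR]
  constructor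
  · rintro ⟨h1, h2⟩
    refine ⟨h1, (cop_iff _ _ h1).2 ?_⟩
    intro d hd h3 h4
    by_contra h5
    exact h2 d hd ⟨h3, h4, h5⟩
  · rintro ⟨h1, h2⟩
    refine ⟨h1, ?_⟩
    intro d hd ⟨h3, h4, h5⟩
    exact h5 ((cop_iff _ _ h1).1 h2 d hd h3 h4)

/-- code of the `n`-th rational for the standard encoding -/
def cR (n : ℕ) : ℕ := @encode ℚ Rat.instEncodable (Denumerable.ofNat ℚ n)

lemma exists_next (x : ℕ) : ∃ m, x + m + 1 ∈ sR := by
  have hi : (Set.range (@encode ℚ Rat.instEncodable)).Infinite :=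
    Set.infinite_range_of_injective (@encode_injective ℚ Rat.instEncodable)
  obtain ⟨y, hy, hxy⟩ := hi.exists_gt x
  exact ⟨y - x - 1, by
    have : x + (y - x - 1) + 1 = y := by omega
    rw [this]; exact hy⟩

noncomputable instance : DecidablePred (· ∈ sR) := Classical.decPred _

lemma cR_succ (n : ℕ) : cR (n + 1) = cR n + Nat.find (exists_next (cR n)) + 1 := by
  let _ := @decidableRangeEncode ℚ Rat.instEncodable
  have : Infinite (Set.range (@encode ℚ Rat.instEncodable)) :=
    Infinite.of_injective _ (Equiv.ofInjective _ (@encode_injective ℚ Rat.instEncodable)).injective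
  have key : ∀ k, cR k = ((Nat.Subtype.ofNat (Set.range (@encode ℚ Rat.instEncodable)) k : Set.range (@encode ℚ Rat.instEncodable)) : ℕ) := by
    intro k
    unfold cR
    have h1 : Denumerable.ofNat ℚ k = (@Encodable.equivRangeEncode ℚ Rat.instEncodable).symm
        (Nat.Subtype.ofNat (Set.range (@encode ℚ Rat.instEncodable)) k) := rfl
    rw [h1]
    have h2 := (@Encodable.equivRangeEncode ℚ Rat.instEncodable).apply_symm_apply
        (Nat.Subtype.ofNat (Set.range (@encode ℚ Rat.instEncodable)) k)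
    have h3 := congrArg Subtype.val h2
    exact h3
  rw [key (n+1), key n]
  have h4 : Nat.Subtype.ofNat (Set.range (@encode ℚ Rat.instEncodable)) (n+1) =
    Nat.Subtype.succ (Nat.Subtype.ofNat (Set.range (@encode ℚ Rat.instEncodable)) n) := rfl
  rw [h4]
  unfold Nat.Subtype.succ
  simp only
  congr 1
  congr 1
  convert rfl
  rfl

theorem comp_cR : Computable cR := by
  have hp : Computable₂ (fun (x m : ℕ) => decide (x + m + 1 ∈ sR)) := by
    have h := prim_sR.decide
    have h2 : Primrec fun q : ℕ × ℕ => decide (q.1 + q.2 + 1 ∈ sR) :=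
      h.comp (pSucc (pAdd Primrec.fst Primrec.snd))
    exact h2.to_comp
  have hex : ∀ x : ℕ, ∃ m, decide (x + m + 1 ∈ sR) = true := by
    intro x; obtain ⟨m, hm⟩ := exists_next x; exact ⟨m, decide_eq_true hm⟩
  have hstep : Computable fun x : ℕ => x + Nat.find (hex x) + 1 := by
    have h1 := computable_find hp hex
    have h2 : Computable₂ (fun a b : ℕ => a + b + 1) := by
      have : Primrec fun q : ℕ × ℕ => q.1 + q.2 + 1 := pSucc (pAdd Primrec.fst Primrec.snd)
      exact this.to_comp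
    exact h2.comp Computable.id h1
  have hrec : Computable fun n : ℕ => Nat.rec (motive := fun _ => ℕ) (cR 0)
      (fun _ ih => ih + Nat.find (hex ih) + 1) n := by
    have := Computable.nat_rec (α := ℕ) (σ := ℕ) (f := fun n => n) (g := fun _ => cR 0)
      (h := fun _ p => p.2 + Nat.find (hex p.2) + 1) Computable.id (Computable.const _)
      (by
        show Computable fun q : ℕ × (ℕ × ℕ) => q.2.2 + Nat.find (hex q.2.2) + 1
        exact hstep.comp (Computable.snd.comp Computable.snd))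
    exact this
  refine hrec.of_eq (fun n => ?_)
  induction n with
  | zero => rfl
  | succ n ih =>
    rw [cR_succ]
    simp only at ih ⊢
    rw [ih]
    congr 2
    apply Nat.find_congr' 
    intro m
    simp

/-- conversion from the standard code to a fraction -/
def toQ3 (x : ℕ) : Q3 :=
  ((1 - (Nat.unpair x).1 % 2) * ((Nat.unpair x).1 / 2),
    ((Nat.unpair x).1 % 2) * (((Nat.unpair x).1 + 1) / 2), (Nat.unpair x).2 - 1)

lemma prim_toQ3 : Primrec toQ3 := by
  unfold toQ3
  have u1 : Primrec fun x : ℕ => (Nat.unpair x).1 := pFst Primrec.unpair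
  have u2 : Primrec fun x : ℕ => (Nat.unpair x).2 := pSnd Primrec.unpair
  have m2 : Primrec fun x : ℕ => (Nat.unpair x).1 % 2 := Primrec.nat_mod.comp u1 (Primrec.const 2)
  exact pPair (pMul (pSub (Primrec.const 1) m2) (Primrec.nat_div.comp u1 (Primrec.const 2)))
    (pPair (pMul m2 (Primrec.nat_div.comp (pSucc u1) (Primrec.const 2)))
      (pSub u2 (Primrec.const 1)))

lemma toQ3_val (q : ℚ) : qv (toQ3 (@encode ℚ Rat.instEncodable q)) = q := by
  rw [rat_encode]
  unfold toQ3 qv
  simp only [Nat.unpair_pair]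
  have hd : ((q.den - 1 : ℕ) : ℚ) + 1 = q.den := by
    have : 1 ≤ q.den := q.pos
    have h : (q.den - 1) + 1 = q.den := Nat.sub_add_cancel this
    exact_mod_cast h
  rw [hd]
  have hn : (((1 - (encode q.num) % 2) * ((encode q.num) / 2) : ℕ) : ℚ) -
      (((encode q.num) % 2 * ((encode q.num + 1) / 2) : ℕ) : ℚ) = q.num := by
    have : (((1 - (encode q.num) % 2) * ((encode q.num) / 2) : ℕ) : ℤ) -
      (((encode q.num) % 2 * ((encode q.num + 1) / 2) : ℕ) : ℤ) = q.num := by
      rw [int_encode_nat]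
      split_ifs with h
      · have e1 : (2 * q.num.natAbs) % 2 = 0 := by omega
        have e2 : (2 * q.num.natAbs) / 2 = q.num.natAbs := by omega
        rw [e1, e2]
        simp only [Nat.sub_zero, one_mul, zero_mul]
        omega
      · have hpos : 0 < q.num.natAbs := by omega
        have e1 : (2 * q.num.natAbs - 1) % 2 = 1 := by omega
        have e2 : (2 * q.num.natAbs - 1 + 1) / 2 = q.num.natAbs := by omega
        rw [e1, e2]
        simp only [Nat.sub_self, one_mul, zero_mul]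
        omega
    exact_mod_cast this
  rw [hn]
  exact Rat.num_div_den q

/-- input conversion -/
def inq (q : ℚ) : Q3 := toQ3 (@encode ℚ Rat.instEncodable q)

lemma inq_val (q : ℚ) : qv (inq q) = q := toQ3_val q

theorem comp_inq : Computable inq := by
  have h1 : Computable fun n : ℕ => toQ3 (cR n) := prim_toQ3.to_comp.comp comp_cR
  have h2 : Computable fun q : ℚ => toQ3 (cR (@encode ℚ Primcodable.toEncodable q)) :=
    h1.comp Computable.encode
  refine h2.of_eq (fun q => ?_)
  unfold cR inq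
  rw [Denumerable.ofNat_encode]

lemma qv_eq_iff (a b : Q3) : qv a = qv b ↔
    a.1 * (b.2.2 + 1) + b.2.1 * (a.2.2 + 1) = b.1 * (a.2.2 + 1) + a.2.1 * (b.2.2 + 1) := by
  unfold qv
  rw [div_eq_div_iff (by positivity) (by positivity)]
  constructor
  · intro h
    have : ((a.1 * (b.2.2 + 1) + b.2.1 * (a.2.2 + 1) : ℕ) : ℚ) =
      ((b.1 * (a.2.2 + 1) + a.2.1 * (b.2.2 + 1) : ℕ) : ℚ) := by
      push_cast; linarith
    exact_mod_cast this
  · intro h
    have : ((a.1 * (b.2.2 + 1) + b.2.1 * (a.2.2 + 1) : ℕ) : ℚ) =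
      ((b.1 * (a.2.2 + 1) + a.2.1 * (b.2.2 + 1) : ℕ) : ℚ) := by
      exact_mod_cast congrArg (Nat.cast : ℕ → ℚ) h
    push_cast at this
    linarith

/-- boolean equality test of values -/
def qeqb (a b : Q3) : Bool := decide (a.1 * (b.2.2 + 1) +
      b.2.1 * (a.2.2 + 1) = b.1 * (a.2.2 + 1) + a.2.1 * (b.2.2 + 1))

lemma qeqb_iff (a b : Q3) : qeqb a b = true ↔ qv a = qv b := by
  unfold qeqb
  rw [decide_eq_true_iff, qv_eq_iff]

theorem pQeqb : Primrec₂ qeqb := by
  have a1 : Primrec fun q : Q3 × Q3 => q.1 := Primrec.fst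
  have a2 : Primrec fun q : Q3 × Q3 => q.2 := Primrec.snd
  have hL : Primrec fun q : Q3 × Q3 => q.1.1 * (q.2.2.2 + 1) + q.2.2.1 * (q.1.2.2 + 1) :=
    pAdd (pMul (pFst a1) (pSucc (pSnd (pSnd a2)))) (pMul (pFst (pSnd a2)) (pSucc (pSnd (pSnd a1))))
  have hR : Primrec fun q : Q3 × Q3 => q.2.1 * (q.1.2.2 + 1) + q.1.2.1 * (q.2.2.2 + 1) :=
    pAdd (pMul (pFst a2) (pSucc (pSnd (pSnd a1)))) (pMul (pFst (pSnd a1)) (pSucc (pSnd (pSnd a2))))
  have hp : PrimrecPred fun q : Q3 × Q3 => q.1.1 * (q.2.2.2 + 1) +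
    q.2.2.1 * (q.1.2.2 + 1) = q.2.1 * (q.1.2.2 + 1) + q.1.2.1 * (q.2.2.2 + 1) :=
    Primrec.eq.comp hL hR
  exact hp.decide

theorem comp_qv : Computable qv := by
  have hp : Computable₂ (fun (a : Q3) (n : ℕ) => qeqb a (toQ3 (cR n))) := by
    have h1 : Computable fun n : ℕ => toQ3 (cR n) := prim_toQ3.to_comp.comp comp_cR
    exact pQeqb.to_comp.comp Computable.fst (h1.comp Computable.snd)
  have hex : ∀ a : Q3, ∃ n, qeqb a (toQ3 (cR n)) = true := by
    intro a
    refine ⟨@encode ℚ Primcodable.toEncodable (qv a), ?_⟩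
    rw [qeqb_iff]
    unfold cR
    rw [Denumerable.ofNat_encode, toQ3_val]
  have h1 := computable_find hp hex
  have h2 : Computable fun a => Denumerable.ofNat ℚ (Nat.find (hex a)) :=
    (Computable.ofNat ℚ).comp h1
  refine h2.of_eq (fun a => ?_)
  have h3 := (qeqb_iff _ _).1 (Nat.find_spec (hex a))
  rw [h3]
  unfold cR
  rw [toQ3_val]

end Crest.Agent.BF
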