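import Mathlib
import Crest.Agent.BFCodec

set_option autoImplicit false
open scoped ContDiff Topology
open Crest.AnalysisR.BoxFlow

namespace Crest.Agent.BF

/-- rational space-time point as fractions -/
def ptQ (a : ℚ × (Fin 3 → ℚ)) : Fin 4 → Q3 :=
  ![inq a.1, inq (a.2 0), inq (a.2 1), inq (a.2 2)]

lemma ptQ_val (a : ℚ × (Fin 3 → ℚ)) (i : Fin 4) :
    co i ((a.1 : ℝ), ratPoint a.2) = ((qv (ptQ a i) : ℚ) : ℝ) := by
  fin_cases i
  · simp [co, ptQ, inq_val]
  · simp [co, ptQ, inq_val, ratPoint]
  · simp [co, ptQ, inq_val, ratPoint]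
  · simp [co, ptQ, inq_val, ratPoint]

theorem comp_pi {α σ : Type*} [Primcodable α] [Primcodable σ] {n : ℕ} {f : α → Fin n → σ}
    (h : ∀ i, Computable fun a => f a i) : Computable f := by
  have h1 : Computable fun a => List.Vector.ofFn fun i => f a i := Computable.vector_ofFn h
  have h2 : Computable (@List.Vector.get σ n) := Primrec.vector_get'.to_comp
  refine (h2.comp h1).of_eq (fun a => ?_)
  funext i
  simp

theorem comp_ptQ : Computable ptQ := by
  apply comp_pi
  have hq : ∀ i : Fin 3, Computable fun a : ℚ × (Fin 3 → ℚ) => inq (a.2 i) := fun i =>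
    comp_inq.comp (Computable.fin_app.comp Computable.snd (Computable.const i))
  intro i
  fin_cases i
  · exact comp_inq.comp Computable.fst
  · exact hq 0
  · exact hq 1
  · exact hq 2

def evF (M : List Atom) (b : List (Fin 4) × (Fin 4 → Q3) × ℕ) : Q3 :=
  lEval (dList b.1 M) b.2.1 b.2.2

theorem pEvF (M : List Atom) : Primrec (evF M) := by
  unfold evF
  exact plEval (pdList Primrec.fst (Primrec.const _)) (pFst Primrec.snd) (pSnd Primrec.snd)

def inP (a : List (Fin 4) × (ℚ × (Fin 3 → ℚ)) × ℕ) : List (Fin 4) × (Fin 4 → Q3) × ℕ :=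
  (a.1, ptQ a.2.1, a.2.2)

theorem comp_inP : Computable inP := by
  unfold inP
  exact Computable.pair Computable.fst (Computable.pair
      (comp_ptQ.comp (Computable.fst.comp Computable.snd)) (Computable.snd.comp Computable.snd))

noncomputable def theE (L : Fin 3 → List Atom) (a : List (Fin 4) × (ℚ × (Fin 3 → ℚ)) × ℕ) :
    Fin 3 → ℚ := fun j => qv (evF (L j) (inP a))

theorem comp_theE (L : Fin 3 → List Atom) : Computable (theE L) := by
  apply comp_pi
  intro j
  show Computable fun a => qv (evF (L j) (inP a))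
  have h1 := (pEvF (L j)).to_comp.comp comp_inP
  exact comp_qv.comp h1

lemma mixedDeriv_zero_near (U : Field) (p : STp) (h : U =ᶠ[𝓝 p] 0) (ds : List (Fin 4)) :
    mixedDeriv ds U =ᶠ[𝓝 p] 0 := by
  induction ds with
  | nil => exact h
  | cons d ds ih =>
    have h1 := ih.fderiv (𝕜 := ℝ)
    filter_upwards [h1] with q hq
    change fderiv ℝ (mixedDeriv ds U) q (direction d) = 0
    rw [hq]
    have : fderiv ℝ (0 : STp → (Fin 3 → ℝ)) q = 0 := by
      rw [show (0 : STp → (Fin 3 → ℝ)) = fun _ => 0 from rfl]; simp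
    rw [this]; simp

lemma co_abs_le (i : Fin 4) (p : STp) : |co i p| ≤ ‖p‖ := by
  unfold co
  by_cases h : i = 0
  · simp only [h, dite_true]
    exact norm_fst_le p
  · simp only [h, dite_false]
    exact (norm_le_pi_norm p.2 (i.pred h)).trans (norm_snd_le p)

theorem effective_mk (L : Fin 3 → List Atom) (hc : HasCompactSupport (mkField L)) :
    Effective (mkField L) := by
  obtain ⟨R, hR⟩ := hc.isCompact.isBounded.exists_norm_le
  obtain ⟨N, hN⟩ := exists_nat_ge R
  refine ⟨theE L, fun ds => lB (dList ds (L 0)) (fun _ => N) + lB (dList ds (L 1)) (fun _ => N) +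
    lB (dList ds (L 2)) (fun _ => N), comp_theE L, ?_, ?_, ?_⟩
  · have hj : ∀ j, Primrec fun ds : List (Fin 4) => lB (dList ds (L j)) (fun _ => N) := fun j =>
      plB (pdList Primrec.id (Primrec.const _)) (Primrec.const _)
    exact (pAdd (pAdd (hj 0) (hj 1)) (hj 2)).to_comp
  · intro ds t q n j
    rw [mixedDeriv_mk]
    exact lEval_err _ _ _ n (fun i => ptQ_val (t, q) i)
  · intro ds p j
    by_cases hp : p ∈ tsupport (mkField L)
    · rw [mixedDeriv_mk]
      have h1 : |mkField (fun j => dList ds (L j)) p j| ≤ (lB (dList ds (L j)) (fun _ => N) : ℕ) :=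
        lVal_abs _ _ _ (fun i => (co_abs_le i p).trans ((hR p hp).trans hN))
      refine h1.trans ?_
      push_cast
      have h0 : (0:ℝ) ≤ (lB (dList ds (L 0)) (fun _ => N) : ℕ) := Nat.cast_nonneg _
      have h1 : (0:ℝ) ≤ (lB (dList ds (L 1)) (fun _ => N) : ℕ) := Nat.cast_nonneg _
      have h2 : (0:ℝ) ≤ (lB (dList ds (L 2)) (fun _ => N) : ℕ) := Nat.cast_nonneg _
      fin_cases j
      · simp only [Fin.zero_eta]; linarith
      · simp only [Fin.mk_one]; linarith
      · simp only [Fin.reduceFinMk]; linarith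
    · have h1 : mkField L =ᶠ[𝓝 p] 0 := notMem_tsupport_iff_eventuallyEq.1 hp
      have h2 := (mixedDeriv_zero_near _ p h1 ds).self_of_nhds
      rw [h2]
      simp only [Pi.zero_apply, abs_zero]
      exact Nat.cast_nonneg _

lemma AtomField.exists_eq {U : Field} (h : AtomField U) : ∃ L, U = mkField L := by
  obtain ⟨L, hL⟩ := h
  exact ⟨L, by funext p j; exact hL p j⟩

theorem AtomField.effective {U : Field} (h : AtomField U) (hc : HasCompactSupport U) :
    Effective U := by
  obtain ⟨L, rfl⟩ := h.exists_eq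
  exact effective_mk L hc

theorem AtomField.contDiff {U : Field} (h : AtomField U) : ContDiff ℝ ∞ U := by
  obtain ⟨L, rfl⟩ := h.exists_eq
  exact mkField_smooth L

theorem AtomField.add {U V : Field} (hU : AtomField U) (hV : AtomField V) :
    AtomField (fun p => U p + V p) := by
  obtain ⟨L, hL⟩ := hU
  obtain ⟨M, hM⟩ := hV
  exact ⟨fun j => L j ++ M j, fun p j => by rw [lVal_append, ← hL, ← hM]; rfl⟩

theorem AtomField.zero : AtomField (fun _ => 0) :=
  ⟨fun _ => [], fun p j => by simp [lVal]⟩

end Crest.Agent.BF
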