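import Mathlib
import Crest.Agent.BFEff

set_option autoImplicit false
open scoped ContDiff Topology
open Crest.AnalysisR.BoxFlow

namespace Crest.Agent.BF

abbrev Mono : Type := Q3 × Fac

noncomputable def oVal (L : List Mono) (x : ℝ) : ℝ :=
  (L.map (fun a => ((qv a.1 : ℚ) : ℝ) * facVal a.2 x)).sum

/-- one-variable functions in the class -/
def OV (f : ℝ → ℝ) : Prop := ∃ L : List Mono, ∀ x, f x = oVal L x

lemma oVal_nil (x : ℝ) : oVal [] x = 0 := by simp [oVal]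
lemma oVal_cons (a : Mono) (L : List Mono) (x : ℝ) :
    oVal (a :: L) x = ((qv a.1 : ℚ) : ℝ) * facVal a.2 x + oVal L x := by simp [oVal]
lemma oVal_append (L M : List Mono) (x : ℝ) : oVal (L ++ M) x = oVal L x + oVal M x := by
  simp [oVal]

lemma OV.add {f g : ℝ → ℝ} (hf : OV f) (hg : OV g) : OV (fun x => f x + g x) := by
  obtain ⟨L, hL⟩ := hf
  obtain ⟨M, hM⟩ := hg
  exact ⟨L ++ M, fun x => by simp only [oVal_append, hL, hM]⟩

lemma OV.smul {f : ℝ → ℝ} (hf : OV f) (c : ℚ) : OV (fun x => (c : ℝ) * f x) := by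
  obtain ⟨L, hL⟩ := hf
  obtain ⟨c3, hc⟩ := qv_surj c
  refine ⟨L.map (fun a => (qmul c3 a.1, a.2)), fun x => ?_⟩
  simp only [hL]
  clear hL
  induction L with
  | nil => simp [oVal]
  | cons a L ih =>
    rw [List.map_cons, oVal_cons, oVal_cons, ← ih, qv_mul, hc]
    push_cast
    ring

lemma OV.neg {f : ℝ → ℝ} (hf : OV f) : OV (fun x => - f x) := by
  have := hf.smul (-1)
  simpa using this

lemma OV.sub {f g : ℝ → ℝ} (hf : OV f) (hg : OV g) : OV (fun x => f x - g x) := by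
  have := hf.add hg.neg
  simpa [sub_eq_add_neg] using this

lemma OV.mulX {f : ℝ → ℝ} (hf : OV f) : OV (fun x => x * f x) := by
  obtain ⟨L, hL⟩ := hf
  refine ⟨L.map (fun a => (a.1, (a.2.1 + 1, a.2.2))), fun x => ?_⟩
  simp only [hL]
  clear hL
  induction L with
  | nil => simp [oVal]
  | cons a L ih =>
    rw [List.map_cons, oVal_cons, oVal_cons, ← ih]
    unfold facVal
    simp only [pow_succ]
    ring

lemma OV.sig (a b : ℚ) : OV (fun x => sig ((a:ℝ) * x + (b:ℝ))) := by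
  obtain ⟨a3, ha⟩ := qv_surj a
  obtain ⟨b3, hb⟩ := qv_surj b
  refine ⟨[((1,0,0), (0, a3, b3))], fun x => ?_⟩
  have e1 : qv ((1, 0, 0) : Q3) = 1 := by simp [qv]
  simp [oVal, facVal, e1, ha, hb]

def dMono (a : Mono) : List Mono :=
  [ (qmul (a.2.1, 0, 0) a.1, (a.2.1 - 1, a.2.2)),
    (qmul a.1 a.2.2.1, (a.2.1, qmul (2,0,0) a.2.2.1, qadd (qmul (2,0,0) a.2.2.2) (1,0,0))),
    (qneg (qmul a.1 a.2.2.1), (a.2.1, qmul (2,0,0) a.2.2.1, qadd (qmul (2,0,0) a.2.2.2) (0,1,0))) ]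

lemma oVal_hasDeriv (L : List Mono) (x : ℝ) : HasDerivAt (oVal L) (oVal (L.flatMap dMono) x) x := by
  induction L with
  | nil =>
    have : oVal [] = fun _ => 0 := funext oVal_nil
    rw [this]
    simp only [List.flatMap_nil, oVal_nil]
    exact hasDerivAt_const x 0
  | cons a L ih =>
    have h1 : oVal (a :: L) = fun x => ((qv a.1 : ℚ) : ℝ) * facVal a.2 x + oVal L x :=
      funext (oVal_cons a L)
    rw [h1]
    have h2 := ((facVal_deriv a.2 x).const_mul ((qv a.1 : ℚ) : ℝ)).add ih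
    refine h2.congr_deriv ?_
    rw [List.flatMap_cons, oVal_append]
    congr 1
    have ep : ((qv (a.2.1, 0, 0) : ℚ) : ℝ) = a.2.1 := by simp [qv]
    simp only [dMono, oVal, List.map_cons, List.map_nil, List.sum_cons, List.sum_nil, qv_mul, qv_neg]
    push_cast
    rw [ep]
    ring

lemma OV.deriv {f : ℝ → ℝ} (hf : OV f) : ∃ f', OV f' ∧ ∀ x, HasDerivAt f (f' x) x := by
  obtain ⟨L, hL⟩ := hf
  refine ⟨oVal (L.flatMap dMono), ⟨_, fun _ => rfl⟩, fun x => ?_⟩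
  have : f = oVal L := funext hL
  rw [this]
  exact oVal_hasDeriv L x

lemma OV.smooth {f : ℝ → ℝ} (hf : OV f) : ContDiff ℝ ∞ f := by
  obtain ⟨L, hL⟩ := hf
  have : f = oVal L := funext hL
  rw [this]
  clear hL this
  induction L with
  | nil =>
    have : oVal [] = fun _ => 0 := funext oVal_nil
    rw [this]; exact contDiff_const
  | cons a L ih =>
    have h1 : oVal (a :: L) = fun x => ((qv a.1 : ℚ) : ℝ) * facVal a.2 x + oVal L x :=
      funext (oVal_cons a L)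
    rw [h1]
    exact (contDiff_const.mul (facVal_smooth _)).add ih

/-! ### scalar multi-variable class -/

def AL (f : STp → ℝ) : Prop := ∃ L : List Atom, ∀ p, f p = lVal L p

lemma AL.zero : AL (fun _ => 0) := ⟨[], fun p => by simp [lVal]⟩

lemma AL.add {f g : STp → ℝ} (hf : AL f) (hg : AL g) : AL (fun p => f p + g p) := by
  obtain ⟨L, hL⟩ := hf
  obtain ⟨M, hM⟩ := hg
  exact ⟨L ++ M, fun x => by simp only [lVal_append, hL, hM]⟩

lemma AL.congr {f g : STp → ℝ} (hf : AL f) (h : ∀ p, g p = f p) : AL g := by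
  obtain ⟨L, hL⟩ := hf
  exact ⟨L, fun p => by rw [h, hL]⟩

lemma AL_mono (a b c d : Mono) : AL (fun p =>
    (((qv a.1 : ℚ) : ℝ) * facVal a.2 p.1) * ((((qv b.1 : ℚ) : ℝ) * facVal b.2 (p.2 0)) *
      (((qv c.1 : ℚ) : ℝ) * facVal c.2 (p.2 1)) * (((qv d.1 : ℚ) : ℝ) * facVal d.2 (p.2 2)))) := by
  refine ⟨[(qmul a.1 (qmul b.1 (qmul c.1 d.1)), ![a.2, b.2, c.2, d.2])], fun p => ?_⟩
  simp only [lVal, List.map_cons, List.map_nil, List.sum_cons, List.sum_nil, aVal, qv_mul,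
    Fin.prod_univ_four]
  push_cast
  have h0 : co 0 p = p.1 := rfl
  have h1 : co 1 p = p.2 0 := rfl
  have h2 : co 2 p = p.2 1 := rfl
  have h3 : co 3 p = p.2 2 := rfl
  rw [h0, h1, h2, h3]
  simp
  ring

lemma AL_p3 (a b c : Mono) (L : List Mono) : AL (fun p =>
    (((qv a.1 : ℚ) : ℝ) * facVal a.2 p.1) * ((((qv b.1 : ℚ) : ℝ) * facVal b.2 (p.2 0)) *
      (((qv c.1 : ℚ) : ℝ) * facVal c.2 (p.2 1)) * oVal L (p.2 2))) := by
  induction L with
  | nil => exact AL.zero.congr (fun p => by simp [oVal_nil])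
  | cons d L ih => exact ((AL_mono a b c d).add ih).congr (fun p => by rw [oVal_cons]; ring)

lemma AL_p2 (a b : Mono) (L M : List Mono) : AL (fun p =>
    (((qv a.1 : ℚ) : ℝ) * facVal a.2 p.1) * ((((qv b.1 : ℚ) : ℝ) * facVal b.2 (p.2 0)) *
      oVal M (p.2 1) * oVal L (p.2 2))) := by
  induction M with
  | nil => exact AL.zero.congr (fun p => by simp [oVal_nil])
  | cons d M ih => exact ((AL_p3 a b d L).add ih).congr (fun p => by rw [oVal_cons]; ring)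

lemma AL_p1 (a : Mono) (L M N : List Mono) : AL (fun p =>
    (((qv a.1 : ℚ) : ℝ) * facVal a.2 p.1) * (oVal N (p.2 0) *
      oVal M (p.2 1) * oVal L (p.2 2))) := by
  induction N with
  | nil => exact AL.zero.congr (fun p => by simp [oVal_nil])
  | cons d N ih => exact ((AL_p2 a d L M).add ih).congr (fun p => by rw [oVal_cons]; ring)

lemma AL_p0 (L M N Q : List Mono) : AL (fun p =>
    oVal Q p.1 * (oVal N (p.2 0) * oVal M (p.2 1) * oVal L (p.2 2))) := by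
  induction Q with
  | nil => exact AL.zero.congr (fun p => by simp [oVal_nil])
  | cons d Q ih => exact ((AL_p1 d L M N).add ih).congr (fun p => by rw [oVal_cons]; ring)

lemma AL_prod {T : ℝ → ℝ} {F : Fin 3 → ℝ → ℝ} (hT : OV T) (hF : ∀ i, OV (F i)) :
    AL (fun p => T p.1 * ∏ i, F i (p.2 i)) := by
  obtain ⟨Q, hQ⟩ := hT
  obtain ⟨N, hN⟩ := hF 0
  obtain ⟨M, hM⟩ := hF 1
  obtain ⟨L, hL⟩ := hF 2
  exact (AL_p0 L M N Q).congr (fun p => by rw [Fin.prod_univ_three, hQ, hN, hM, hL])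

/-! ### cutoffs -/

noncomputable def cut (l r e : ℚ) (x : ℝ) : ℝ :=
  sig (((2 / e : ℚ) : ℝ) * x + ((1 - 2 / e * l : ℚ) : ℝ)) -
    sig (((2 / e : ℚ) : ℝ) * x + ((-1 - 2 / e * r : ℚ) : ℝ))

lemma cut_OV (l r e : ℚ) : OV (cut l r e) := (OV.sig _ _).sub (OV.sig _ _)

lemma cut_one (l r e : ℚ) (he : 0 < e) (x : ℝ) (h1 : (l:ℝ) ≤ x) (h2 : x ≤ r) :
    cut l r e x = 1 := by
  have he' : (0:ℝ) < e := by exact_mod_cast he
  unfold cut
  push_cast
  rw [sig_right, sig_left]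
  · ring
  · have : 2 / (e:ℝ) * x ≤ 2 / e * r := by gcongr
    linarith
  · have : 2 / (e:ℝ) * l ≤ 2 / e * x := by gcongr
    linarith

lemma cut_left (l r e : ℚ) (he : 0 < e) (hlr : l ≤ r) (x : ℝ) (h1 : x ≤ (l:ℝ) - e) :
    cut l r e x = 0 := by
  have he' : (0:ℝ) < e := by exact_mod_cast he
  have hlr' : (l:ℝ) ≤ r := by exact_mod_cast hlr
  unfold cut
  push_cast
  have h2 : 2 / (e:ℝ) * x ≤ 2 / e * (l - e) := by gcongr
  have h3 : 2 / (e:ℝ) * (l - e) = 2 / e * l - 2 := by field_simp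
  have h4 : 2 / (e:ℝ) * l ≤ 2 / e * r := by gcongr
  rw [sig_left, sig_left]
  · ring
  · linarith
  · linarith

lemma cut_right (l r e : ℚ) (he : 0 < e) (hlr : l ≤ r) (x : ℝ) (h1 : (r:ℝ) + e ≤ x) :
    cut l r e x = 0 := by
  have he' : (0:ℝ) < e := by exact_mod_cast he
  have hlr' : (l:ℝ) ≤ r := by exact_mod_cast hlr
  unfold cut
  push_cast
  have h2 : 2 / (e:ℝ) * (r + e) ≤ 2 / e * x := by gcongr
  have h3 : 2 / (e:ℝ) * (r + e) = 2 / e * r + 2 := by field_simp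
  have h4 : 2 / (e:ℝ) * l ≤ 2 / e * r := by gcongr
  rw [sig_right, sig_right]
  · ring
  · linarith
  · linarith

/-! ### time function -/

noncomputable def thq (s0 s1 : ℚ) (t : ℝ) : ℝ :=
  sig (((2 / (s1 - s0) : ℚ) : ℝ) * t + ((-(s0 + s1) / (s1 - s0) : ℚ) : ℝ))

noncomputable def thd (s0 s1 : ℚ) (t : ℝ) : ℝ :=
  ((2 / (s1 - s0) : ℚ) : ℝ) *
    (sig (((2 * (2 / (s1 - s0)) : ℚ) : ℝ) * t + ((2 * (-(s0 + s1) / (s1 - s0)) + 1 : ℚ) : ℝ)) -
    sig (((2 * (2 / (s1 - s0)) : ℚ) : ℝ) * t + ((2 * (-(s0 + s1) / (s1 - s0)) - 1 : ℚ) : ℝ)))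

lemma thd_OV (s0 s1 : ℚ) : OV (thd s0 s1) := ((OV.sig _ _).sub (OV.sig _ _)).smul _

lemma thq_deriv (s0 s1 : ℚ) (t : ℝ) : HasDerivAt (thq s0 s1) (thd s0 s1 t) t := by
  have h1 : HasDerivAt (fun t : ℝ => ((2 / (s1 - s0) : ℚ) : ℝ) * t +
      ((-(s0 + s1) / (s1 - s0) : ℚ) : ℝ)) ((2 / (s1 - s0) : ℚ) : ℝ) t := by
    simpa using ((hasDerivAt_id t).const_mul ((2 / (s1 - s0) : ℚ) : ℝ)).add_const
      ((-(s0 + s1) / (s1 - s0) : ℚ) : ℝ)
  have h2 := (sig_deriv (((2 / (s1 - s0) : ℚ) : ℝ) * t + ((-(s0 + s1) / (s1 - s0) : ℚ) : ℝ))).comp t h1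
  refine h2.congr_deriv ?_
  unfold thd
  rw [mul_comm]
  congr 2
  · congr 1; push_cast; ring
  · congr 1; push_cast; ring

lemma thq_arg (s0 s1 : ℚ) (h : s0 < s1) (t : ℝ) :
    ((2 / (s1 - s0) : ℚ) : ℝ) * t + ((-(s0 + s1) / (s1 - s0) : ℚ) : ℝ) =
      (2 * t - (s0 + s1)) / (s1 - s0) := by
  have : (0:ℝ) < s1 - s0 := by have : (s0:ℝ) < s1 := by exact_mod_cast h
                               linarith
  push_cast
  field_simp
  ring

lemma thq_left (s0 s1 : ℚ) (h : s0 < s1) (t : ℝ) (ht : t ≤ s0) : thq s0 s1 t = 0 := by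
  have h' : (0:ℝ) < s1 - s0 := by have : (s0:ℝ) < s1 := by exact_mod_cast h
                                  linarith
  unfold thq
  rw [thq_arg s0 s1 h, sig_left]
  rw [div_le_iff₀ h']
  linarith

lemma thq_right (s0 s1 : ℚ) (h : s0 < s1) (t : ℝ) (ht : (s1:ℝ) ≤ t) : thq s0 s1 t = 1 := by
  have h' : (0:ℝ) < s1 - s0 := by have : (s0:ℝ) < s1 := by exact_mod_cast h
                                  linarith
  unfold thq
  rw [thq_arg s0 s1 h, sig_right]
  rw [le_div_iff₀ h']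
  linarith

lemma thq_mem (s0 s1 : ℚ) (t : ℝ) : 0 ≤ thq s0 s1 t ∧ thq s0 s1 t ≤ 1 :=
  ⟨sig_nonneg _, sig_le_one _⟩

lemma thd_zero (s0 s1 : ℚ) (h : s0 < s1) (t : ℝ) (ht : t ∉ Set.Icc (s0:ℝ) s1) :
    thd s0 s1 t = 0 := by
  have h' : (0:ℝ) < s1 - s0 := by have : (s0:ℝ) < s1 := by exact_mod_cast h
                                  linarith
  rcases lt_or_ge t s0 with h1 | h1
  · have e : thq s0 s1 =ᶠ[𝓝 t] fun _ => 0 := by
      filter_upwards [Iio_mem_nhds h1] with s hs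
      exact thq_left s0 s1 h s (le_of_lt hs)
    have := (thq_deriv s0 s1 t).congr_of_eventuallyEq e.symm
    exact this.unique (hasDerivAt_const t 0)
  · have h2 : (s1:ℝ) < t := by
      by_contra h3
      exact ht ⟨h1, not_lt.1 h3⟩
    have e : thq s0 s1 =ᶠ[𝓝 t] fun _ => 1 := by
      filter_upwards [Ioi_mem_nhds h2] with s hs
      exact thq_right s0 s1 h s (le_of_lt hs)
    have := (thq_deriv s0 s1 t).congr_of_eventuallyEq e.symm
    exact this.unique (hasDerivAt_const t 1)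

end Crest.Agent.BF
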