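import Mathlib
import Crest.Agent.BFOne

set_option autoImplicit false
open scoped ContDiff Topology NNReal
open Crest.AnalysisR.BoxFlow Set

namespace Crest.Agent.BF

abbrev E3 : Type := Fin 3 → ℝ

noncomputable def PF (F : Fin 3 → ℝ → ℝ) (x : E3) : ℝ := ∏ i, F i (x i)

lemma PF_eq (F : Fin 3 → ℝ → ℝ) (m : Fin 3) (x : E3) :
    PF F x = F m (x m) * ∏ i ∈ Finset.univ.erase m, F i (x i) := by
  unfold PF
  rw [← Finset.mul_prod_erase Finset.univ _ (Finset.mem_univ m)]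

lemma PF_upd (F : Fin 3 → ℝ → ℝ) (m : Fin 3) (f : ℝ → ℝ) (x : E3) :
    PF (Function.update F m f) x = f (x m) * ∏ i ∈ Finset.univ.erase m, F i (x i) := by
  rw [PF_eq _ m]
  simp only [Function.update_self]
  congr 1
  apply Finset.prod_congr rfl
  intro i hi
  rw [Function.update_of_ne (Finset.mem_erase.1 hi).1]

lemma PF_smooth (F : Fin 3 → ℝ → ℝ) (hF : ∀ i, ContDiff ℝ ∞ (F i)) : ContDiff ℝ ∞ (PF F) := by
  unfold PF
  exact contDiff_prod (fun i _ => (hF i).comp (contDiff_apply ℝ ℝ i))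

lemma fderiv_TP (T : ℝ → ℝ) (F : Fin 3 → ℝ → ℝ) (hT : ContDiff ℝ ∞ T)
    (hF : ∀ i, ContDiff ℝ ∞ (F i)) (m : Fin 3) (d : ℝ → ℝ)
    (hd : ∀ y, HasDerivAt (F m) (d y) y) (p : STp) :
    fderiv ℝ (fun p : STp => T p.1 * PF F p.2) p (0, Pi.single m 1) =
      T p.1 * PF (Function.update F m d) p.2 := by
  have hs : ContDiff ℝ ∞ (fun p : STp => T p.1 * PF F p.2) :=
    (hT.comp contDiff_fst).mul ((PF_smooth F hF).comp contDiff_snd)
  have hdiff : DifferentiableAt ℝ (fun p : STp => T p.1 * PF F p.2) p :=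
    hs.differentiable (by simp) p
  rw [← hdiff.lineDeriv_eq_fderiv]
  apply HasLineDerivAt.lineDeriv
  unfold HasLineDerivAt
  set C := ∏ i ∈ Finset.univ.erase m, F i (p.2 i) with hC
  have e : (fun s : ℝ => (fun p : STp => T p.1 * PF F p.2) (p + s • ((0, Pi.single m 1) : STp))) =
      fun s => T p.1 * (F m (p.2 m + s) * C) := by
    funext s
    simp only [Prod.fst_add, Prod.smul_fst, smul_zero, add_zero, Prod.snd_add, Prod.smul_snd]
    rw [PF_eq F m]
    congr 2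
    · simp
    · rw [hC]
      apply Finset.prod_congr rfl
      intro i hi
      simp [Pi.single_eq_of_ne (Finset.mem_erase.1 hi).1]
  rw [e, PF_upd]
  have h1 : HasDerivAt (fun s : ℝ => p.2 m + s) 1 0 := by
    simpa using (hasDerivAt_id (0:ℝ)).const_add (p.2 m)
  have h2 := (hd (p.2 m + 0)).comp (0:ℝ) h1
  have h3 := (h2.mul_const C).const_mul (T p.1)
  refine h3.congr_deriv ?_
  simp [hC]

lemma exists_curve (W : E3 → E3) (K : ℝ≥0) (hK : LipschitzWith K W) (C : ℝ≥0)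
    (hC : ∀ x, ‖W x‖ ≤ C) (x : E3) :
    ∃ γ : ℝ → E3, γ 0 = x ∧ ∀ s ∈ Ioo (-1:ℝ) 2, HasDerivAt γ (W (γ s)) s := by
  have h0 : (0:ℝ) ∈ Icc (-1:ℝ) 2 := by constructor <;> norm_num
  have hpl : IsPicardLindelof (fun _ : ℝ => W) (tmin := -1) (tmax := 2) ⟨0, h0⟩ x (2 * C) 0 C K := by
    refine ⟨fun t _ => hK.lipschitzOnWith, fun y _ => continuousOn_const, fun t _ y _ => hC y, ?_⟩
    simp only [sub_zero, zero_sub, neg_neg, NNReal.coe_mul, NNReal.coe_ofNat, NNReal.coe_zero]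
    have : max (2:ℝ) 1 = 2 := max_eq_left (by norm_num)
    rw [this]
    linarith
  obtain ⟨α, h1, h2⟩ := hpl.exists_eq_forall_mem_Icc_hasDerivWithinAt₀
  refine ⟨α, h1, fun s hs => ?_⟩
  exact (h2 s (Ioo_subset_Icc_self hs)).hasDerivAt (Icc_mem_nhds hs.1 hs.2)

/-- realizability of maps near sets within a time window -/
def MvAt {n : ℕ} (K : Fin n → Set E3) (g : Fin n → E3 → E3) (s0 s1 : ℝ) : Prop :=
  ∃ (U : Field) (Φ : ℝ → E3 → E3), AtomField U ∧ HasCompactSupport U ∧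
    (∀ p : STp, p.1 ∉ Icc s0 s1 → U p = 0) ∧ (∀ p, spaceDiv U p = 0) ∧ IsFlow U Φ ∧
    (∀ t ≤ s0, ∀ x, Φ t x = x) ∧ (∀ t, s1 ≤ t → ∀ x, Φ t x = Φ 1 x) ∧
    ∀ i, ∃ O : Set E3, IsOpen O ∧ K i ⊆ O ∧ ∀ x ∈ O, Φ 1 x = g i x

def Mv {n : ℕ} (K : Fin n → Set E3) (g : Fin n → E3 → E3) : Prop :=
  ∀ s0 s1 : ℚ, 0 < s0 → s0 < s1 → s1 < 1 → MvAt K g (s0:ℝ) (s1:ℝ)

lemma field_zero_of_right {U : Field} (hc : Continuous U) {m s : ℝ}
    (h : ∀ p : STp, p.1 ∉ Icc s m → U p = 0) (y : E3) : U (m, y) = 0 := by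
  have h1 : Filter.Tendsto (fun t : ℝ => U (t, y)) (𝓝[>] m) (𝓝 (U (m, y))) := by
    have : Continuous (fun t : ℝ => U (t, y)) := hc.comp (continuous_id.prodMk continuous_const)
    exact this.continuousAt.tendsto.mono_left nhdsWithin_le_nhds
  have h2 : Filter.Tendsto (fun t : ℝ => U (t, y)) (𝓝[>] m) (𝓝 0) := by
    apply Filter.Tendsto.congr' _ tendsto_const_nhds
    filter_upwards [self_mem_nhdsWithin] with t ht
    exact (h (t, y) (fun hh => absurd hh.2 (not_le.2 ht))).symm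
  exact tendsto_nhds_unique h1 h2

lemma field_zero_of_left {U : Field} (hc : Continuous U) {m s : ℝ}
    (h : ∀ p : STp, p.1 ∉ Icc m s → U p = 0) (y : E3) : U (m, y) = 0 := by
  have h1 : Filter.Tendsto (fun t : ℝ => U (t, y)) (𝓝[<] m) (𝓝 (U (m, y))) := by
    have : Continuous (fun t : ℝ => U (t, y)) := hc.comp (continuous_id.prodMk continuous_const)
    exact this.continuousAt.tendsto.mono_left nhdsWithin_le_nhds
  have h2 : Filter.Tendsto (fun t : ℝ => U (t, y)) (𝓝[<] m) (𝓝 0) := by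
    apply Filter.Tendsto.congr' _ tendsto_const_nhds
    filter_upwards [self_mem_nhdsWithin] with t ht
    exact (h (t, y) (fun hh => absurd hh.1 (not_le.2 ht))).symm
  exact tendsto_nhds_unique h1 h2

theorem Mv.refl {n : ℕ} (K : Fin n → Set E3) : Mv K (fun _ x => x) := by
  intro s0 s1 _ _ _
  refine ⟨fun _ => 0, fun _ x => x, AtomField.zero, ?_, fun _ _ => rfl, ?_, ⟨fun _ => rfl, ?_⟩,
    fun _ _ _ => rfl, fun _ _ _ => rfl, fun i => ⟨univ, isOpen_univ, subset_univ _, fun _ _ => rfl⟩⟩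
  · exact HasCompactSupport.zero
  · intro p
    unfold spaceDiv
    apply Finset.sum_eq_zero
    intro j _
    have : fderiv ℝ (fun _ : STp => (0 : Fin 3 → ℝ)) p = 0 := by simp
    rw [this]; rfl
  · intro t x
    exact hasDerivAt_const t x

theorem spaceDiv_add {U V : Field} (hU : ContDiff ℝ ∞ U) (hV : ContDiff ℝ ∞ V) (p : STp) :
    spaceDiv (fun p => U p + V p) p = spaceDiv U p + spaceDiv V p := by
  unfold spaceDiv
  have : fderiv ℝ (fun p => U p + V p) p = fderiv ℝ U p + fderiv ℝ V p :=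
    fderiv_add (hU.differentiable (by simp) p) (hV.differentiable (by simp) p)
  rw [this, ← Finset.sum_add_distrib]
  rfl

theorem MvAt.trans {n : ℕ} {K : Fin n → Set E3} {g g' : Fin n → E3 → E3} {s0 m s1 : ℝ}
    (h01 : s0 < m) (h12 : m < s1)
    (hg : ∀ i, Continuous (g i))
    (H1 : MvAt K g s0 m) (H2 : MvAt (fun i => g i '' K i) g' m s1) :
    MvAt K (fun i x => g' i (g i x)) s0 s1 := by
  obtain ⟨U1, Φ1, a1, c1, z1, d1, f1, l1, r1, o1⟩ := H1
  obtain ⟨U2, Φ2, a2, c2, z2, d2, f2, l2, r2, o2⟩ := H2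
  refine ⟨fun p => U1 p + U2 p, fun t x => Φ2 t (Φ1 t x), a1.add a2, c1.add c2, ?_, ?_, ⟨?_, ?_⟩,
    ?_, ?_, ?_⟩
  · intro p hp
    have h1 : U1 p = 0 := z1 p (fun h => hp ⟨h.1, h.2.trans h12.le⟩)
    have h2 : U2 p = 0 := z2 p (fun h => hp ⟨h01.le.trans h.1, h.2⟩)
    simp [h1, h2]
  · intro p
    rw [spaceDiv_add a1.contDiff a2.contDiff, d1, d2, add_zero]
  · intro x
    simp only
    rw [f1.1 x, f2.1 x]
  · intro t x
    simp only
    rcases lt_trichotomy t m with ht | ht | ht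
    · have e : (fun s => Φ2 s (Φ1 s x)) =ᶠ[𝓝 t] fun s => Φ1 s x := by
        filter_upwards [Iio_mem_nhds ht] with s hs
        exact l2 s (le_of_lt hs) _
      have hz : U2 (t, Φ2 t (Φ1 t x)) = 0 := z2 _ (fun h => absurd h.1 (not_le.2 ht))
      rw [hz, add_zero, l2 t ht.le]
      exact (f1.2 t x).congr_of_eventuallyEq e
    · subst ht
      have hz1 : U1 (t, Φ2 t (Φ1 t x)) = 0 := field_zero_of_right a1.contDiff.continuous z1 _
      have hz2 : U2 (t, Φ2 t (Φ1 t x)) = 0 := field_zero_of_left a2.contDiff.continuous z2 _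
      rw [hz1, hz2, add_zero]
      have hl : HasDerivWithinAt (fun s => Φ2 s (Φ1 s x)) 0 (Iic t) t := by
        have h := (f1.2 t x)
        rw [field_zero_of_right a1.contDiff.continuous z1 _] at h
        refine h.hasDerivWithinAt.congr (fun s hs => ?_) ?_
        · exact l2 s hs _
        · exact l2 t le_rfl _
      have hr : HasDerivWithinAt (fun s => Φ2 s (Φ1 s x)) 0 (Ici t) t := by
        have h := (f2.2 t (Φ1 1 x))
        rw [field_zero_of_left a2.contDiff.continuous z2 _] at h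
        refine h.hasDerivWithinAt.congr (fun s hs => ?_) ?_
        · show Φ2 s (Φ1 s x) = Φ2 s (Φ1 1 x)
          rw [r1 s hs]
        · show Φ2 t (Φ1 t x) = Φ2 t (Φ1 1 x)
          rw [r1 t le_rfl]
      have := hl.union hr
      rw [Iic_union_Ici] at this
      exact hasDerivWithinAt_univ.1 this
    · have e : (fun s => Φ2 s (Φ1 s x)) =ᶠ[𝓝 t] fun s => Φ2 s (Φ1 1 x) := by
        filter_upwards [Ioi_mem_nhds ht] with s hs
        rw [r1 s (le_of_lt hs)]
      have hz : U1 (t, Φ2 t (Φ1 t x)) = 0 := z1 _ (fun h => absurd h.2 (not_le.2 ht))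
      rw [hz, zero_add, r1 t ht.le]
      exact (f2.2 t (Φ1 1 x)).congr_of_eventuallyEq e
  · intro t ht x
    simp only
    rw [l1 t ht, l2 t (ht.trans h01.le)]
  · intro t ht x
    simp only
    rw [r1 t (h12.le.trans ht), r2 t ht]
  · intro i
    obtain ⟨O1, ho1, hk1, he1⟩ := o1 i
    obtain ⟨O2, ho2, hk2, he2⟩ := o2 i
    refine ⟨O1 ∩ (g i) ⁻¹' O2, ho1.inter (ho2.preimage (hg i)), ?_, ?_⟩
    · intro x hx
      exact ⟨hk1 hx, hk2 ⟨x, hx, rfl⟩⟩
    · intro x hx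
      simp only
      rw [he1 x hx.1, he2 _ hx.2]

theorem Mv.trans {n : ℕ} {K : Fin n → Set E3} {g g' : Fin n → E3 → E3}
    (hg : ∀ i, Continuous (g i)) (H1 : Mv K g) (H2 : Mv (fun i => g i '' K i) g') :
    Mv K (fun i x => g' i (g i x)) := by
  intro s0 s1 h0 h01 h1
  have hm1 : s0 < (s0 + s1) / 2 := by linarith
  have hm2 : (s0 + s1) / 2 < s1 := by linarith
  have A := H1 s0 ((s0 + s1) / 2) h0 hm1 (by linarith)
  have B := H2 ((s0 + s1) / 2) s1 (by linarith) hm2 h1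
  exact MvAt.trans (by exact_mod_cast hm1) (by exact_mod_cast hm2) hg A B

theorem Mv.mono {n : ℕ} {K K' : Fin n → Set E3} {g : Fin n → E3 → E3} (H : Mv K g)
    (h : ∀ i, K' i ⊆ K i) : Mv K' g := by
  intro s0 s1 h0 h01 h1
  obtain ⟨U, Φ, a, c, z, d, f, l, r, o⟩ := H s0 s1 h0 h01 h1
  refine ⟨U, Φ, a, c, z, d, f, l, r, fun i => ?_⟩
  obtain ⟨O, ho, hk, he⟩ := o i
  exact ⟨O, ho, (h i).trans hk, he⟩

theorem Mv.congr {n : ℕ} {K : Fin n → Set E3} {g g' : Fin n → E3 → E3} (H : Mv K g)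
    (h : ∀ i x, g' i x = g i x) : Mv K g' := by
  have : g' = g := by funext i x; exact h i x
  rw [this]; exact H

end Crest.Agent.BF
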