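import Mathlib
import Crest.Agent.BFFlow

set_option autoImplicit false
open scoped ContDiff Topology NNReal
open Crest.AnalysisR.BoxFlow Set

namespace Crest.Agent.BF

/-- elementary map: add an affine function of coordinate `k` to coordinate `j` -/
def sh (j k : Fin 3) (a b : ℚ) (x : E3) : E3 := Function.update x j (x j + ((a:ℝ) + (b:ℝ) * x k))

lemma sh_cont (j k : Fin 3) (a b : ℚ) : Continuous (sh j k a b) := by
  unfold sh
  refine continuous_pi (fun i => ?_)
  by_cases h : i = j
  · subst h
    simp only [Function.update_self]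
    fun_prop
  · simp only [Function.update_of_ne h]
    fun_prop

section base
variable (j k : Fin 3) (a b : ℚ) (c w : Fin 3 → ℚ) (δ : ℚ)

/-- the cutoffs -/
noncomputable def cf (i : Fin 3) : ℝ → ℝ := cut (c i - w i - δ / 3) (c i + w i + δ / 3) (δ / 3)

/-- cut off quadratic Hamiltonian factor -/
noncomputable def hk (y : ℝ) : ℝ :=
  (a:ℝ) * (y * cf c w δ k y) + ((b / 2 : ℚ) : ℝ) * (y * (y * cf c w δ k y))

lemma cf_OV (i : Fin 3) : OV (cf c w δ i) := cut_OV _ _ _

lemma hk_OV : OV (hk k a b c w δ) :=
  ((cf_OV c w δ k).mulX.smul a).add ((cf_OV c w δ k).mulX.mulX.smul (b / 2))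

end base

lemma conv_lt (A B M s : ℝ) (hA : A < M) (hB : B < M) (hs0 : 0 ≤ s) (hs1 : s ≤ 1) :
    (1 - s) * A + s * B < M := by
  have h1 : 0 < min (M - A) (M - B) := lt_min (by linarith) (by linarith)
  have h2 : (1 - s) * min (M - A) (M - B) ≤ (1 - s) * (M - A) :=
    mul_le_mul_of_nonneg_left (min_le_left _ _) (by linarith)
  have h3 : s * min (M - A) (M - B) ≤ s * (M - B) :=
    mul_le_mul_of_nonneg_left (min_le_right _ _) hs0
  nlinarith

lemma conv_abs (A B M s : ℝ) (hA : |A| < M) (hB : |B| < M) (hs0 : 0 ≤ s) (hs1 : s ≤ 1) :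
    |(1 - s) * A + s * B| < M := by
  rw [abs_lt] at hA hB ⊢
  constructor
  · have := conv_lt (-A) (-B) M s (by linarith) (by linarith) hs0 hs1
    linarith
  · exact conv_lt A B M s hA.2 hB.2 hs0 hs1

theorem base_move {n : ℕ} (K : Fin n → Set E3) (i₀ : Fin n) (j k : Fin 3) (hjk : j ≠ k)
    (a b : ℚ) (c w : Fin 3 → ℚ) (hw : ∀ i, 0 < w i) (δ : ℚ) (hδ : 0 < δ)
    (h0 : ∀ x ∈ K i₀, x ∈ box c w ∧ sh j k a b x ∈ box c w)
    (h1 : ∀ i, i ≠ i₀ → ∀ x ∈ K i, x ∉ box c (fun l => w l + δ)) :
    Mv K (fun i => if i = i₀ then sh j k a b else fun x => x) := by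
  intro s0 s1 hs0 hs01 hs1
  have hδ' : (0:ℝ) < δ := by exact_mod_cast hδ
  have hwr : ∀ i, (0:ℝ) < w i := fun i => by exact_mod_cast hw i
  -- one variable functions
  set cF : Fin 3 → ℝ → ℝ := cf c w δ with hcF
  have cFov : ∀ i, OV (cF i) := cf_OV c w δ
  obtain ⟨dj, djov, djd⟩ := (cFov j).deriv
  obtain ⟨dh, dhov, dhd⟩ := (hk_OV k a b c w δ).deriv
  have hkov := hk_OV k a b c w δ
  set h : ℝ → ℝ := hk k a b c w δ with hh
  -- properties of cutoffs
  have cone : ∀ i y, |y - (c i:ℝ)| ≤ w i + δ / 3 → cF i y = 1 := by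
    intro i y hy
    rw [abs_le] at hy
    apply cut_one _ _ _ (by positivity)
    · push_cast; linarith [hy.1]
    · push_cast; linarith [hy.2]
  have czero : ∀ i y, (w i:ℝ) + 2 * δ / 3 ≤ |y - (c i:ℝ)| → cF i y = 0 := by
    intro i y hy
    have hlr : c i - w i - δ / 3 ≤ c i + w i + δ / 3 := by have := hw i; linarith
    rcases le_abs.1 hy with h2 | h2
    · apply cut_right _ _ _ (by positivity) hlr
      push_cast; linarith
    · apply cut_left _ _ _ (by positivity) hlr
      push_cast; linarith
  have hzero : ∀ y, (w k:ℝ) + 2 * δ / 3 ≤ |y - (c k:ℝ)| → h y = 0 := by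
    intro y hy
    show (a:ℝ) * (y * cF k y) + ((b / 2 : ℚ) : ℝ) * (y * (y * cF k y)) = 0
    rw [czero k y hy]; ring
  -- derivatives vanish where locally constant
  have djzero : ∀ y, (w j:ℝ) + 2 * δ / 3 < |y - (c j:ℝ)| → dj y = 0 := by
    intro y hy
    have e : cF j =ᶠ[𝓝 y] fun _ => 0 := by
      have ho : IsOpen {y : ℝ | (w j:ℝ) + 2 * δ / 3 < |y - (c j:ℝ)|} :=
        isOpen_lt continuous_const (by fun_prop)
      filter_upwards [ho.mem_nhds hy] with z hz
      exact czero j z (le_of_lt hz)
    exact ((djd y).congr_of_eventuallyEq e.symm).unique (hasDerivAt_const y 0)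
  have djzero' : ∀ y, |y - (c j:ℝ)| < w j + δ / 3 → dj y = 0 := by
    intro y hy
    have e : cF j =ᶠ[𝓝 y] fun _ => 1 := by
      have ho : IsOpen {y : ℝ | |y - (c j:ℝ)| < w j + δ / 3} :=
        isOpen_lt (by fun_prop) continuous_const
      filter_upwards [ho.mem_nhds hy] with z hz
      exact cone j z (le_of_lt hz)
    exact ((djd y).congr_of_eventuallyEq e.symm).unique (hasDerivAt_const y 1)
  have dhzero : ∀ y, (w k:ℝ) + 2 * δ / 3 < |y - (c k:ℝ)| → dh y = 0 := by
    intro y hy
    have e : h =ᶠ[𝓝 y] fun _ => 0 := by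
      have ho : IsOpen {y : ℝ | (w k:ℝ) + 2 * δ / 3 < |y - (c k:ℝ)|} :=
        isOpen_lt continuous_const (by fun_prop)
      filter_upwards [ho.mem_nhds hy] with z hz
      exact hzero z (le_of_lt hz)
    exact ((dhd y).congr_of_eventuallyEq e.symm).unique (hasDerivAt_const y 0)
  have dhval : ∀ y, |y - (c k:ℝ)| < w k + δ / 3 → dh y = (a:ℝ) + (b:ℝ) * y := by
    intro y hy
    have e : h =ᶠ[𝓝 y] fun y => (a:ℝ) * y + ((b / 2 : ℚ) : ℝ) * (y * y) := by
      have ho : IsOpen {y : ℝ | |y - (c k:ℝ)| < w k + δ / 3} :=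
        isOpen_lt (by fun_prop) continuous_const
      filter_upwards [ho.mem_nhds hy] with z hz
      show (a:ℝ) * (z * cF k z) + ((b / 2 : ℚ) : ℝ) * (z * (z * cF k z)) = _
      rw [cone k z (le_of_lt hz)]; ring
    have h2 : HasDerivAt (fun y => (a:ℝ) * y + ((b / 2 : ℚ) : ℝ) * (y * y))
        ((a:ℝ) + (b:ℝ) * y) y := by
      have := ((hasDerivAt_id y).const_mul (a:ℝ)).add
        (((hasDerivAt_id y).mul (hasDerivAt_id y)).const_mul ((b / 2 : ℚ) : ℝ))
      refine this.congr_deriv ?_
      simp only [id]
      push_cast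
      ring
    exact ((dhd y).congr_of_eventuallyEq e.symm).unique h2
  -- the two products
  set Fj : Fin 3 → ℝ → ℝ := Function.update cF k dh with hFj
  set G : Fin 3 → ℝ → ℝ := Function.update cF k h with hG
  set Fk : Fin 3 → ℝ → ℝ := Function.update G j dj with hFk
  have Gov : ∀ i, OV (G i) := by
    intro i; rw [hG]
    by_cases hi : i = k
    · subst hi; rw [Function.update_self]; exact hkov
    · rw [Function.update_of_ne hi]; exact cFov i
  have Fjov : ∀ i, OV (Fj i) := by
    intro i; rw [hFj]
    by_cases hi : i = k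
    · subst hi; rw [Function.update_self]; exact dhov
    · rw [Function.update_of_ne hi]; exact cFov i
  have Fkov : ∀ i, OV (Fk i) := by
    intro i; rw [hFk]
    by_cases hi : i = j
    · subst hi; rw [Function.update_self]; exact djov
    · rw [Function.update_of_ne hi]; exact Gov i
  -- the autonomous field
  set W : E3 → E3 := fun x m => if m = j then PF Fj x else if m = k then - PF Fk x else 0 with hW
  set U : Field := fun p m => if m = j then thd s0 s1 p.1 * PF Fj p.2 else
    if m = k then (- thd s0 s1 p.1) * PF Fk p.2 else 0 with hU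
  have hUW : ∀ p, U p = thd s0 s1 p.1 • W p.2 := by
    intro p
    funext m
    simp only [hU, hW, Pi.smul_apply, smul_eq_mul]
    split_ifs <;> ring
  -- vanishing outside the box
  have PFj0 : ∀ x : E3, (∃ i, (w i:ℝ) + 2 * δ / 3 < |x i - (c i:ℝ)|) → PF Fj x = 0 := by
    rintro x ⟨i, hi⟩
    unfold PF
    apply Finset.prod_eq_zero (Finset.mem_univ i)
    rw [hFj]
    by_cases hik : i = k
    · subst hik; rw [Function.update_self]; exact dhzero _ hi
    · rw [Function.update_of_ne hik]; exact czero i _ hi.le
  have PFk0 : ∀ x : E3, (∃ i, (w i:ℝ) + 2 * δ / 3 < |x i - (c i:ℝ)|) → PF Fk x = 0 := by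
    rintro x ⟨i, hi⟩
    unfold PF
    apply Finset.prod_eq_zero (Finset.mem_univ i)
    rw [hFk]
    by_cases hij : i = j
    · subst hij; rw [Function.update_self]; exact djzero _ hi
    · rw [Function.update_of_ne hij, hG]
      by_cases hik : i = k
      · subst hik; rw [Function.update_self]; exact hzero _ hi.le
      · rw [Function.update_of_ne hik]; exact czero i _ hi.le
  have W0 : ∀ x : E3, (∃ i, (w i:ℝ) + 2 * δ / 3 < |x i - (c i:ℝ)|) → W x = 0 := by
    intro x hx
    funext m
    simp only [hW, PFj0 x hx, PFk0 x hx, neg_zero, ite_self, Pi.zero_apply]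
  -- value on the plateau
  have Wval : ∀ x : E3, (∀ i, |x i - (c i:ℝ)| < w i + δ / 3) →
      W x = Pi.single j ((a:ℝ) + (b:ℝ) * x k) := by
    intro x hx
    have e1 : PF Fj x = (a:ℝ) + (b:ℝ) * x k := by
      rw [hFj, PF_upd, dhval _ (hx k)]
      have : ∏ i ∈ Finset.univ.erase k, cF i (x i) = 1 :=
        Finset.prod_eq_one (fun i _ => cone i _ (hx i).le)
      rw [this, mul_one]
    have e2 : PF Fk x = 0 := by
      unfold PF
      apply Finset.prod_eq_zero (Finset.mem_univ j)
      rw [hFk, Function.update_self]; exact djzero' _ (hx j)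
    funext m
    simp only [hW]
    by_cases hm : m = j
    · subst hm; simp [e1]
    · simp [hm, e2, Pi.single_eq_of_ne hm]
  -- smoothness of W
  have Wsm : ContDiff ℝ ∞ W := by
    apply contDiff_pi.2
    intro m
    simp only [hW]
    by_cases hm : m = j
    · simp only [hm, if_true]; exact PF_smooth _ (fun i => (Fjov i).smooth)
    · simp only [hm, if_false]
      by_cases hm' : m = k
      · simp only [hm', if_true]; exact (PF_smooth _ (fun i => (Fkov i).smooth)).neg
      · simp only [hm', if_false]; exact contDiff_const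
  have compK : IsCompact (Set.pi univ (fun i : Fin 3 => Icc ((c i:ℝ) - (w i + 2 * δ / 3))
      ((c i:ℝ) + (w i + 2 * δ / 3)))) := isCompact_univ_pi (fun i => isCompact_Icc)
  have outK : ∀ x : E3, x ∉ (Set.pi univ (fun i : Fin 3 => Icc ((c i:ℝ) - (w i + 2 * δ / 3))
      ((c i:ℝ) + (w i + 2 * δ / 3)))) → ∃ i, (w i:ℝ) + 2 * δ / 3 < |x i - (c i:ℝ)| := by
    intro x hx
    by_contra hcon
    push Not at hcon
    apply hx
    intro i _
    have := abs_le.1 (hcon i)
    constructor <;> linarith [this.1, this.2]
  have Wcomp : HasCompactSupport W := HasCompactSupport.intro compK (fun x hx => W0 x (outK x hx))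
  obtain ⟨KL, hKL⟩ := ContDiff.lipschitzWith_of_hasCompactSupport Wcomp Wsm (by simp)
  obtain ⟨C, hC⟩ := Wcomp.exists_bound_of_continuous Wsm.continuous
  have hC0 : 0 ≤ C := (norm_nonneg _).trans (hC 0)
  -- curves
  have hcur := fun x => exists_curve W KL hKL ⟨C, hC0⟩ hC x
  choose γ hγ0 hγd using hcur
  have hs01' : (s0:ℝ) < s1 := by exact_mod_cast hs01
  have hs0' : (0:ℝ) < s0 := by exact_mod_cast hs0
  have hs1' : (s1:ℝ) < 1 := by exact_mod_cast hs1
  refine ⟨U, fun t x => γ x (thq s0 s1 t), ?_, ?_, ?_, ?_, ⟨?_, ?_⟩, ?_, ?_, ?_⟩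
  · -- atom field
    have hthd := thd_OV s0 s1
    have A1 : AL (fun p => thd s0 s1 p.1 * PF Fj p.2) := AL_prod hthd Fjov
    have A2 : AL (fun p => (- thd s0 s1 p.1) * PF Fk p.2) := AL_prod hthd.neg Fkov
    have hAL : ∀ m, AL (fun p => U p m) := by
      intro m
      simp only [hU]
      by_cases hm : m = j
      · simp only [hm, if_true]; exact A1
      · simp only [hm, if_false]
        by_cases hm' : m = k
        · simp only [hm', if_true]; exact A2
        · simp only [hm', if_false]; exact AL.zero
    choose L hL using hAL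
    exact ⟨L, fun p m => hL m p⟩
  · -- compact support
    have hcp : IsCompact (Icc (s0:ℝ) s1 ×ˢ (Set.pi univ (fun i : Fin 3 => Icc ((c i:ℝ) - (w i + 2 * δ / 3))
      ((c i:ℝ) + (w i + 2 * δ / 3))))) := isCompact_Icc.prod compK
    apply HasCompactSupport.intro hcp
    intro p hp
    rw [hUW]
    by_cases ht : p.1 ∈ Icc (s0:ℝ) s1
    · have : p.2 ∉ (Set.pi univ (fun i : Fin 3 => Icc ((c i:ℝ) - (w i + 2 * δ / 3))
      ((c i:ℝ) + (w i + 2 * δ / 3)))) := fun h2 => hp ⟨ht, h2⟩
      rw [W0 _ (outK _ this), smul_zero]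
    · rw [thd_zero s0 s1 hs01 _ ht, zero_smul]
  · intro p hp
    rw [hUW, thd_zero s0 s1 hs01 _ hp, zero_smul]
  · -- divergence
    intro p
    unfold spaceDiv
    have hUd : DifferentiableAt ℝ U p := by
      have : ContDiff ℝ ∞ U := by
        apply contDiff_pi.2
        intro m
        have : (fun p => U p m) = fun p : STp => thd s0 s1 p.1 * W p.2 m := by
          funext p; rw [hUW]; rfl
        rw [this]
        exact ((thd_OV s0 s1).smooth.comp contDiff_fst).mul
          ((contDiff_apply ℝ ℝ m).comp (Wsm.comp contDiff_snd))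
      exact this.differentiable (by simp) p
    have hcomp : ∀ m, fderiv ℝ U p (0, Pi.single m 1) m =
        fderiv ℝ (fun p => U p m) p (0, Pi.single m 1) := by
      intro m
      rw [fderiv_apply hUd]; rfl
    have hj : fderiv ℝ (fun p => U p j) p (0, Pi.single j 1) =
        thd s0 s1 p.1 * PF (Function.update Fj j dj) p.2 := by
      have : (fun p => U p j) = fun p : STp => thd s0 s1 p.1 * PF Fj p.2 := by
        funext p; simp [hU]
      rw [this]
      apply fderiv_TP _ _ (thd_OV s0 s1).smooth (fun i => (Fjov i).smooth)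
      intro y
      rw [hFj, Function.update_of_ne hjk]
      exact djd y
    have hk' : fderiv ℝ (fun p => U p k) p (0, Pi.single k 1) =
        (- thd s0 s1 p.1) * PF (Function.update Fk k dh) p.2 := by
      have : (fun p => U p k) = fun p : STp => (- thd s0 s1 p.1) * PF Fk p.2 := by
        funext p; simp [hU, hjk.symm]
      rw [this]
      apply fderiv_TP (fun t => - thd s0 s1 t) _ (thd_OV s0 s1).smooth.neg (fun i => (Fkov i).smooth)
      intro y
      rw [hFk, Function.update_of_ne hjk.symm, hG, Function.update_self]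
      exact dhd y
    have hother : ∀ m, m ≠ j → m ≠ k → fderiv ℝ (fun p => U p m) p (0, Pi.single m 1) = 0 := by
      intro m hm hm'
      have : (fun p => U p m) = fun _ : STp => (0:ℝ) := by
        funext p; simp [hU, hm, hm']
      rw [this]; simp
    have hupd : Function.update Fj j dj = Function.update Fk k dh := by
      rw [hFj, hFk, hG]
      funext i
      by_cases hi : i = j
      · subst hi
        rw [Function.update_self, Function.update_of_ne hjk, Function.update_self]
      · rw [Function.update_of_ne hi]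
        by_cases hi' : i = k
        · subst hi'
          rw [Function.update_self, Function.update_self]
        · rw [Function.update_of_ne hi', Function.update_of_ne hi', Function.update_of_ne hi,
            Function.update_of_ne hi']
    have hsum : ∑ m : Fin 3, fderiv ℝ U p (0, Pi.single m 1) m =
        fderiv ℝ (fun p => U p j) p (0, Pi.single j 1) +
          fderiv ℝ (fun p => U p k) p (0, Pi.single k 1) := by
      rw [Finset.sum_congr rfl (fun m _ => hcomp m)]
      rw [← Finset.add_sum_erase _ _ (Finset.mem_univ j)]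
      congr 1
      rw [← Finset.add_sum_erase _ _ (Finset.mem_erase.2 ⟨hjk.symm, Finset.mem_univ k⟩)]
      rw [Finset.sum_eq_zero, add_zero]
      intro m hm
      have hm1 := (Finset.mem_erase.1 hm).1
      have hm2 := (Finset.mem_erase.1 (Finset.mem_erase.1 hm).2).1
      exact hother m hm2 hm1
    rw [hsum, hj, hk', hupd]
    ring
  · intro x
    simp only
    rw [thq_left s0 s1 hs01 0 hs0'.le, hγ0]
  · intro t x
    simp only
    rw [hUW]
    have hm := thq_mem s0 s1 t
    have := (hγd x (thq s0 s1 t) ⟨by linarith [hm.1], by linarith [hm.2]⟩).scomp t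
      (thq_deriv s0 s1 t)
    exact this
  · intro t ht x
    simp only
    rw [thq_left s0 s1 hs01 t ht, hγ0]
  · intro t ht x
    simp only
    rw [thq_right s0 s1 hs01 t ht, thq_right s0 s1 hs01 1 hs1'.le]
  · -- explicit value
    have huniq : ∀ (x : E3) (y : ℝ → E3), y 0 = x → (∀ s ∈ Icc (0:ℝ) 1, HasDerivAt y (W (y s)) s) →
        γ x 1 = y 1 := by
      intro x y hy0 hyd
      have hgd : ∀ s ∈ Icc (0:ℝ) 1, HasDerivAt (γ x) (W (γ x s)) s := fun s hs =>
        hγd x s ⟨by linarith [hs.1], by linarith [hs.2]⟩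
      have := ODE_solution_unique (v := fun _ => W) (K := KL) (f := γ x) (g := y) (a := 0) (b := 1)
        (fun _ => hKL)
        (fun s hs => (hgd s hs).continuousAt.continuousWithinAt)
        (fun s hs => (hgd s ⟨hs.1, hs.2.le⟩).hasDerivWithinAt)
        (fun s hs => (hyd s hs).continuousAt.continuousWithinAt)
        (fun s hs => (hyd s ⟨hs.1, hs.2.le⟩).hasDerivWithinAt)
        (by rw [hγ0, hy0])
      exact this ⟨by norm_num, le_rfl⟩
    have hΦ1 : ∀ x, γ x (thq s0 s1 1) = γ x 1 := fun x => by
      rw [thq_right s0 s1 hs01 1 hs1'.le]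
    intro i
    by_cases hi : i = i₀
    · subst hi
      simp only [if_true]
      set B : Set E3 := {x | ∀ l, |x l - (c l:ℝ)| < w l + δ / 3} with hB
      have hBo : IsOpen B := by
        have : B = ⋂ l, {x : E3 | |x l - (c l:ℝ)| < w l + δ / 3} := by ext x; simp [hB]
        rw [this]
        exact isOpen_iInter_of_finite (fun l => isOpen_lt (by fun_prop) continuous_const)
      refine ⟨B ∩ (sh j k a b) ⁻¹' B, hBo.inter (hBo.preimage (sh_cont j k a b)), ?_, ?_⟩
      · intro x hx
        obtain ⟨hx1, hx2⟩ := h0 x hx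
        constructor
        · intro l; have := hx1 l; linarith
        · intro l; have := hx2 l; linarith
      · rintro x ⟨hx1, hx2⟩
        rw [hΦ1]
        have hy := huniq x (fun s => Function.update x j (x j + s * ((a:ℝ) + (b:ℝ) * x k)))
          (by simp) ?_
        · rw [hy]; simp [sh]
        · intro s hs
          have hin : ∀ l, |(Function.update x j (x j + s * ((a:ℝ) + (b:ℝ) * x k))) l - (c l:ℝ)| <
              w l + δ / 3 := by
            intro l
            by_cases hl : l = j
            · subst hl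
              rw [Function.update_self]
              have e1 := hx1 l
              have e2 := hx2 l
              simp only [sh, Function.update_self] at e2
              have e3 := conv_abs _ _ _ s e1 e2 hs.1 hs.2
              have e4 : (1 - s) * (x l - (c l:ℝ)) + s * (x l + ((a:ℝ) + (b:ℝ) * x k) - (c l:ℝ)) =
                x l + s * ((a:ℝ) + (b:ℝ) * x k) - (c l:ℝ) := by ring
              rw [e4] at e3
              exact e3
            · rw [Function.update_of_ne hl]; exact hx1 l
          rw [Wval _ hin]
          rw [Function.update_of_ne hjk.symm]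
          rw [hasDerivAt_pi]
          intro l
          by_cases hl : l = j
          · subst hl
            simp only [Function.update_self, Pi.single_eq_same]
            have := ((hasDerivAt_id s).mul_const ((a:ℝ) + (b:ℝ) * x k)).const_add (x l)
            simpa using this
          · simp only [Function.update_of_ne hl, Pi.single_eq_of_ne hl]
            exact hasDerivAt_const s _
    · simp only [hi, if_false]
      refine ⟨{x | x ∉ box c (fun l => w l + δ)}, ?_, fun x hx => h1 i hi x hx, ?_⟩
      · have : IsClosed (box c (fun l => w l + δ)) := by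
          unfold box
          have : {x : E3 | ∀ l : Fin 3, |x l - (c l : ℝ)| ≤ ((w l + δ : ℚ) : ℝ)} =
            ⋂ l, {x : E3 | |x l - (c l:ℝ)| ≤ ((w l + δ : ℚ) : ℝ)} := by ext x; simp
          rw [this]
          exact isClosed_iInter (fun l => isClosed_le (by fun_prop) continuous_const)
        exact this.isOpen_compl
      · intro x hx
        rw [hΦ1]
        have hW0 : W x = 0 := by
          apply W0
          by_contra hcon
          push Not at hcon
          apply hx
          intro l
          have := hcon l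
          push_cast
          linarith
        exact huniq x (fun _ => x) rfl (fun s _ => by
          rw [hW0]; exact hasDerivAt_const s x)

end Crest.Agent.BF
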