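import Mathlib
import Crest.Agent.BFBase

set_option autoImplicit false
open scoped ContDiff Topology NNReal
open Crest.AnalysisR.BoxFlow Set

namespace Crest.Agent.BF

/-- diagonal affine map between boxes -/
def dmap (c w c' w' : Fin 3 → ℚ) (x : E3) : E3 :=
  fun j => (c' j : ℝ) + ((w' j / w j : ℚ) : ℝ) * (x j - (c j : ℝ))

lemma dmap_mem {c w c' w' : Fin 3 → ℚ} (hw : ∀ j, 0 < w j) (hw' : ∀ j, 0 < w' j) {x : E3}
    (hx : x ∈ box c w) : dmap c w c' w' x ∈ box c' w' := by
  intro j
  have h := hx j
  have h1 : (0:ℝ) < w j := by exact_mod_cast hw j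
  have h2 : (0:ℝ) < w' j := by exact_mod_cast hw' j
  unfold dmap
  rw [add_sub_cancel_left]
  push_cast
  rw [abs_mul, abs_of_pos (by positivity : (0:ℝ) < (w' j:ℝ) / w j)]
  calc (w' j:ℝ) / w j * |x j - (c j:ℝ)| ≤ (w' j:ℝ) / w j * w j := by gcongr
    _ = w' j := by field_simp

lemma dmap_comp {c w c' w' c'' w'' : Fin 3 → ℚ} (_hw : ∀ j, 0 < w j) (hw' : ∀ j, 0 < w' j) (x : E3) :
    dmap c' w' c'' w'' (dmap c w c' w' x) = dmap c w c'' w'' x := by
  funext j
  have h2 : (w' j:ℝ) ≠ 0 := by exact_mod_cast (hw' j).ne'
  unfold dmap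
  push_cast
  field_simp
  ring

lemma dmap_cont (c w c' w' : Fin 3 → ℚ) : Continuous (dmap c w c' w') := by
  unfold dmap
  fun_prop

theorem Mv.trans' {n : ℕ} {K K' : Fin n → Set E3} {g g' : Fin n → E3 → E3}
    (hg : ∀ i, Continuous (g i)) (H1 : Mv K g) (H2 : Mv K' g')
    (h : ∀ i, ∀ x ∈ K i, g i x ∈ K' i) : Mv K (fun i x => g' i (g i x)) := by
  apply Mv.trans hg H1
  apply H2.mono
  intro i y hy
  obtain ⟨x, hx, rfl⟩ := hy
  exact h i x hx

/-- configurations reachable by diagonal maps -/
def Go {n : ℕ} (c w c' w' : Fin n → Fin 3 → ℚ) : Prop :=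
  Mv (fun i => box (c i) (w i)) (fun i => dmap (c i) (w i) (c' i) (w' i))

theorem Go.refl {n : ℕ} (c w : Fin n → Fin 3 → ℚ) (hw : ∀ i j, 0 < w i j) : Go c w c w := by
  refine (Mv.refl _).congr (fun i x => ?_)
  funext j
  have : (w i j:ℝ) ≠ 0 := by exact_mod_cast (hw i j).ne'
  unfold dmap
  push_cast
  field_simp
  ring

theorem Go.trans {n : ℕ} {c w c' w' c'' w'' : Fin n → Fin 3 → ℚ} (hw : ∀ i j, 0 < w i j)
    (hw' : ∀ i j, 0 < w' i j) (H1 : Go c w c' w') (H2 : Go c' w' c'' w'') : Go c w c'' w'' := by
  have := Mv.trans' (fun i => dmap_cont _ _ _ _) H1 H2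
    (fun i x hx => dmap_mem (hw i) (hw' i) hx)
  refine this.congr (fun i x => ?_)
  exact (dmap_comp (hw i) (hw' i) x).symm

def Sep2 (c w c' w' : Fin 3 → ℚ) : Prop := ∃ l, w l + w' l < |c l - c' l|

lemma common_delta {n : ℕ} (i₀ : Fin n) (P : Fin n → ℚ → Prop)
    (hmono : ∀ i a b, P i b → a ≤ b → P i a) (h : ∀ i, ∃ d, 0 < d ∧ P i d) :
    ∃ d, 0 < d ∧ ∀ i, P i d := by
  choose f hf using h
  obtain ⟨m, _, hm⟩ := Finset.exists_min_image Finset.univ f ⟨i₀, Finset.mem_univ i₀⟩
  exact ⟨f m, (hf m).1, fun i => hmono i _ _ (hf i).2 (hm i (Finset.mem_univ i))⟩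

lemma sep_delta {n : ℕ} (i₀ : Fin n) (c w : Fin 3 → ℚ) (c' w' : Fin n → Fin 3 → ℚ)
    (h : ∀ i, i ≠ i₀ → Sep2 c w (c' i) (w' i)) :
    ∃ δ : ℚ, 0 < δ ∧ ∀ i, i ≠ i₀ → ∀ x ∈ box (c' i) (w' i), x ∉ box c (fun l => w l + δ) := by
  have := common_delta i₀ (fun i δ => i ≠ i₀ → ∀ x ∈ box (c' i) (w' i), x ∉ box c (fun l => w l + δ))
    (by
      intro i a b hP hab hi x hx hx2
      apply hP hi x hx
      intro l
      have := hx2 l
      have hab' : (a:ℝ) ≤ b := by exact_mod_cast hab
      push_cast at this ⊢
      linarith)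
    (by
      intro i
      by_cases hi : i = i₀
      · exact ⟨1, one_pos, fun h => absurd hi h⟩
      · obtain ⟨l, hl⟩ := h i hi
        refine ⟨(|c l - c' i l| - (w l + w' i l)) / 2, by linarith, fun _ x hx hx2 => ?_⟩
        have h1 := hx l
        have h2 := hx2 l
        have hl' : (w l:ℝ) + w' i l < |(c l:ℝ) - c' i l| := by
          have : ((w l + w' i l : ℚ) : ℝ) < ((|c l - c' i l| : ℚ) : ℝ) := by exact_mod_cast hl
          push_cast at this; exact this
        push_cast at h2
        have h3 : |(c l:ℝ) - c' i l| ≤ |x l - c l| + |x l - c' i l| := by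
          have : (c l:ℝ) - c' i l = (x l - c' i l) - (x l - c l) := by ring
          rw [this]
          refine (abs_sub _ _).trans ?_
          linarith
        linarith)
  exact this

/-- elementary translation steps -/
def TS {n : ℕ} (w c c' : Fin n → Fin 3 → ℚ) : Prop :=
  ∃ (i₀ : Fin n) (j : Fin 3) (d : ℚ),
    c' = Function.update c i₀ (Function.update (c i₀) j (c i₀ j + d)) ∧
    ∀ i, i ≠ i₀ → Sep2 (Function.update (c i₀) j (c i₀ j + d / 2))
      (Function.update (w i₀) j (w i₀ j + |d| / 2)) (c i) (w i)

lemma TS.symm {n : ℕ} {w c c' : Fin n → Fin 3 → ℚ} (h : TS w c c') : TS w c' c := by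
  obtain ⟨i₀, j, d, hc, hs⟩ := h
  have e1 : c' i₀ = Function.update (c i₀) j (c i₀ j + d) := by rw [hc]; simp
  have e2 : ∀ i, i ≠ i₀ → c' i = c i := by intro i hi; rw [hc]; simp [hi]
  refine ⟨i₀, j, -d, ?_, ?_⟩
  · funext i
    by_cases hi : i = i₀
    · subst hi
      rw [Function.update_self, e1]
      simp
    · rw [Function.update_of_ne hi, e2 i hi]
  · intro i hi
    have := hs i hi
    rw [e1, e2 i hi]
    simp only [Function.update_self, Function.update_idem, abs_neg]
    have e3 : c i₀ j + d + -d / 2 = c i₀ j + d / 2 := by ring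
    rw [e3]
    exact this

lemma exists_ne3 (j : Fin 3) : ∃ k : Fin 3, j ≠ k := by
  fin_cases j
  · exact ⟨1, by decide⟩
  · exact ⟨0, by decide⟩
  · exact ⟨0, by decide⟩

theorem TS.go {n : ℕ} {w c c' : Fin n → Fin 3 → ℚ} (hw : ∀ i j, 0 < w i j) (h : TS w c c') :
    Go c w c' w := by
  obtain ⟨i₀, j, d, hc, hs⟩ := h
  obtain ⟨k, hk⟩ := exists_ne3 j
  obtain ⟨δ, hδ, hδs⟩ := sep_delta i₀ _ _ c w hs
  have := base_move (fun i => box (c i) (w i)) i₀ j k hk d 0
    (Function.update (c i₀) j (c i₀ j + d / 2)) (Function.update (w i₀) j (w i₀ j + |d| / 2))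
    (by
      intro l
      by_cases hl : l = j
      · subst hl; rw [Function.update_self]; have := hw i₀ l; positivity
      · rw [Function.update_of_ne hl]; exact hw i₀ l) δ hδ
    (by
      intro x hx
      have habs : |((d:ℝ) / 2)| = |(d:ℝ)| / 2 := by rw [abs_div, abs_two]
      constructor
      · intro l
        by_cases hl : l = j
        · subst hl
          simp only [Function.update_self]
          have := hx l
          push_cast
          have e : x l - ((c i₀ l:ℝ) + d / 2) = (x l - c i₀ l) - d / 2 := by ring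
          rw [e]
          refine (abs_sub _ _).trans ?_
          rw [habs]; linarith
        · simp only [Function.update_of_ne hl]
          exact hx l
      · intro l
        by_cases hl : l = j
        · subst hl
          simp only [sh, Function.update_self]
          have := hx l
          push_cast
          have e : x l + ((d:ℝ) + 0 * x k) - ((c i₀ l:ℝ) + d / 2) = (x l - c i₀ l) + d / 2 := by ring
          rw [e]
          refine (abs_add_le _ _).trans ?_
          rw [habs]; linarith
        · simp only [sh, Function.update_of_ne hl]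
          exact hx l)
    hδs
  refine this.congr (fun i x => ?_)
  by_cases hi : i = i₀
  · subst hi
    simp only [if_true]
    funext l
    have hne : (w i l:ℝ) ≠ 0 := by exact_mod_cast (hw i l).ne'
    unfold dmap sh
    rw [hc]
    simp only [Function.update_self]
    by_cases hl : l = j
    · subst hl
      simp only [Function.update_self]
      push_cast
      field_simp
      ring
    · simp only [Function.update_of_ne hl]
      push_cast
      field_simp
      ring
  · simp only [hi, if_false]
    funext l
    have hne : (w i l:ℝ) ≠ 0 := by exact_mod_cast (hw i l).ne'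
    unfold dmap
    rw [hc, Function.update_of_ne hi]
    push_cast
    field_simp
    ring

abbrev TR {n : ℕ} (w : Fin n → Fin 3 → ℚ) := Relation.ReflTransGen (TS w)

theorem TR.go {n : ℕ} {w c c' : Fin n → Fin 3 → ℚ} (hw : ∀ i j, 0 < w i j) (h : TR w c c') :
    Go c w c' w := by
  induction h with
  | refl => exact Go.refl _ _ hw
  | tail _ h2 ih => exact Go.trans hw hw ih (h2.go hw)

theorem TR.symm {n : ℕ} {w c c' : Fin n → Fin 3 → ℚ} (h : TR w c c') : TR w c' c := by
  induction h with
  | refl => exact Relation.ReflTransGen.refl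
  | tail _ h2 ih => exact Relation.ReflTransGen.head h2.symm ih

/-- free motion when separated in coordinate `l` -/
theorem free_move {n : ℕ} (w c c' : Fin n → Fin 3 → ℚ) (l : Fin 3)
    (hsep : ∀ i i', i ≠ i' → w i l + w i' l < |c i l - c i' l|)
    (hl : ∀ i, c' i l = c i l) : TR w c c' := by
  have key : ∀ S : Finset (Fin n × Fin 3),
      TR w c (fun i j => if (i, j) ∈ S then c' i j else c i j) := by
    intro S
    induction S using Finset.induction_on with
    | empty => simp only [Finset.notMem_empty, if_false]; exact Relation.ReflTransGen.refl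
    | insert p S hp ih =>
      refine ih.tail ?_
      obtain ⟨i₀, j₀⟩ := p
      by_cases hj : j₀ = l
      · -- trivial move
        subst hj
        refine ⟨i₀, j₀, 0, ?_, ?_⟩
        · funext i j
          by_cases hi : i = i₀
          · subst hi
            simp only [Function.update_self, add_zero, Function.update_eq_self]
            by_cases hjj : j = j₀
            · subst hjj
              simp only [Finset.mem_insert, true_or, if_true, hl i]
              simp
            · have : (i, j) ∈ insert (i, j₀) S ↔ (i, j) ∈ S := by simp [hjj]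
              simp only [this]
          · rw [Function.update_of_ne hi]
            have : (i, j) ∈ insert (i₀, j₀) S ↔ (i, j) ∈ S := by simp [hi]
            simp only [this]
        · intro i hi
          refine ⟨j₀, ?_⟩
          simp only [Function.update_self, zero_div, add_zero, abs_zero, hl]
          simp only [ite_self]
          exact hsep i₀ i (Ne.symm hi)
      · refine ⟨i₀, j₀, c' i₀ j₀ - c i₀ j₀, ?_, ?_⟩
        · funext i j
          by_cases hi : i = i₀
          · subst hi
            rw [Function.update_self]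
            by_cases hjj : j = j₀
            · subst hjj
              simp [hp]
            · rw [Function.update_of_ne hjj]
              have : (i, j) ∈ insert (i, j₀) S ↔ (i, j) ∈ S := by simp [hjj]
              simp only [this]
          · rw [Function.update_of_ne hi]
            have : (i, j) ∈ insert (i₀, j₀) S ↔ (i, j) ∈ S := by simp [hi]
            simp only [this]
        · intro i hi
          refine ⟨l, ?_⟩
          have hlj : l ≠ j₀ := Ne.symm hj
          simp only [Function.update_of_ne hlj, hl, ite_self]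
          exact hsep i₀ i (Ne.symm hi)
  have := key Finset.univ
  simpa using this

end Crest.Agent.BF
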