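import Mathlib
import Crest.Agent.BFPlan

set_option autoImplicit false
open scoped ContDiff Topology NNReal
open Crest.AnalysisR.BoxFlow Set

namespace Crest.Agent.BF

/-! ### evacuation -/

/-- ranking of boxes compatible with right ends -/
lemma exists_rank {n : ℕ} (r : Fin n → ℚ) :
    ∃ ρ : Fin n → ℕ, Function.Injective ρ ∧ (∀ i, ρ i < n) ∧ ∀ i j, ρ j < ρ i → r j ≤ r i := by
  classical
  set f : Fin n → ℚ ×ₗ Fin n := fun i => toLex (r i, i) with hf
  have finj : Function.Injective f := by
    intro i j hij
    have := congrArg (fun z => (ofLex z).2) hij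
    exact this
  set ρ : Fin n → ℕ := fun i => (Finset.univ.filter (fun j => f j < f i)).card with hρ
  have hlt : ∀ i j, f j < f i → ρ j < ρ i := by
    intro i j hji
    apply Finset.card_lt_card
    rw [Finset.ssubset_iff_of_subset]
    · exact ⟨j, by simp [hji], by simp⟩
    · intro m hm
      simp only [Finset.mem_filter, Finset.mem_univ, true_and] at hm ⊢
      exact hm.trans hji
  refine ⟨ρ, ?_, ?_, ?_⟩
  · intro i j hij
    by_contra hne
    rcases lt_trichotomy (f i) (f j) with h | h | h
    · exact absurd hij (hlt _ _ h).ne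
    · exact hne (finj h)
    · exact absurd hij (hlt _ _ h).ne'
  · intro i
    have : (Finset.univ.filter (fun j => f j < f i)) ⊂ (Finset.univ : Finset (Fin n)) := by
      rw [Finset.ssubset_iff_of_subset (Finset.filter_subset _ _)]
      exact ⟨i, Finset.mem_univ i, by simp⟩
    have := Finset.card_lt_card this
    simpa using this
  · intro i j hji
    have : f j < f i := by
      rcases lt_trichotomy (f i) (f j) with h | h | h
      · exact absurd (hlt _ _ h) (by omega)
      · rw [finj h] at hji; exact absurd hji (lt_irrefl _)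
      · exact h
    rw [hf] at this
    simp only [Prod.Lex.toLex_lt_toLex] at this
    rcases this with h | h
    · exact h.le
    · exact h.1.le

theorem evac {n : ℕ} (w c : Fin n → Fin 3 → ℚ) (_hw : ∀ i j, 0 < w i j)
    (hsep : ∀ i i', i ≠ i' → Sep2 (c i) (w i) (c i') (w i')) :
    ∃ ρ : Fin n → ℕ, Function.Injective ρ ∧ ∀ L : ℚ, 0 < L → (∀ i, c i 0 ≤ L) →
      (∀ i j, w i 0 + w j 0 < L) →
      TR w c (fun i => Function.update (c i) 0 (L * ((ρ i : ℚ) + 1))) := by
  obtain ⟨ρ, hinj, hn, hr⟩ := exists_rank (fun i => c i 0 + w i 0)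
  refine ⟨ρ, hinj, fun L hL hc hwL => ?_⟩
  set P : Fin n → ℚ := fun i => L * ((ρ i : ℚ) + 1) with hP
  have hPc : ∀ i, c i 0 ≤ P i := by
    intro i
    have h1 : L ≤ L * ((ρ i : ℚ) + 1) := by nlinarith [(Nat.cast_nonneg (ρ i) : (0:ℚ) ≤ ρ i)]
    exact (hc i).trans h1
  have hPP : ∀ i j, ρ i < ρ j → P i + L ≤ P j := by
    intro i j hij
    have h1 : ((ρ i : ℚ) + 1) ≤ ρ j := by exact_mod_cast hij
    simp only [hP]
    nlinarith
  have key : ∀ k : ℕ, TR w c (fun i => if n ≤ ρ i + k then Function.update (c i) 0 (P i) else c i) := by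
    intro k
    induction k with
    | zero =>
      have : (fun i => if n ≤ ρ i + 0 then Function.update (c i) 0 (P i) else c i) = c := by
        funext i
        rw [if_neg]
        have := hn i
        omega
      rw [this]
    | succ k ih =>
      by_cases hex : ∃ i₀, ρ i₀ + (k + 1) = n
      · obtain ⟨i₀, hi₀⟩ := hex
        refine ih.tail ⟨i₀, 0, P i₀ - c i₀ 0, ?_, ?_⟩
        · funext i
          by_cases hi : i = i₀
          · subst hi
            rw [Function.update_self, if_pos (by omega)]
            simp only [if_neg (show ¬ (n ≤ ρ i + k) by omega)]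
            simp
          · rw [Function.update_of_ne hi]
            have hne : ρ i ≠ ρ i₀ := fun h => hi (hinj h)
            have : (n ≤ ρ i + (k + 1)) ↔ (n ≤ ρ i + k) := by omega
            simp only [this]
        · intro i hi
          have hne : ρ i ≠ ρ i₀ := fun h => hi (hinj h)
          have hd : 0 ≤ P i₀ - c i₀ 0 := sub_nonneg.2 (hPc i₀)
          simp only [if_neg (by omega : ¬ (n ≤ ρ i₀ + k)), abs_of_nonneg hd]
          rcases lt_or_gt_of_ne hne with hlt | hgt
          · -- unmoved box
            rw [if_neg (by omega)]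
            have hri := hr i₀ i hlt
            obtain ⟨l, hl⟩ := hsep i₀ i (Ne.symm hi)
            by_cases hl0 : l = 0
            · subst hl0
              refine ⟨0, ?_⟩
              simp only [Function.update_self]
              have h1 : 0 ≤ c i₀ 0 - c i 0 := by
                by_contra hneg
                push Not at hneg
                rw [abs_of_neg hneg] at hl
                have := _hw i₀ 0
                have := _hw i 0
                linarith
              rw [abs_of_nonneg h1] at hl
              rw [abs_of_nonneg (by linarith)]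
              linarith
            · refine ⟨l, ?_⟩
              simp only [Function.update_of_ne hl0]
              exact hl
          · -- moved box
            rw [if_pos (by omega)]
            refine ⟨0, ?_⟩
            simp only [Function.update_self]
            have h1 := hPP i₀ i hgt
            have h2 := hwL i₀ i
            have h3 : (c i₀ 0 + (P i₀ - c i₀ 0) / 2 - P i) < 0 := by
              have := hPc i₀; linarith
            rw [abs_of_neg h3]
            have := hPc i₀
            linarith
      · have : (fun i => if n ≤ ρ i + (k + 1) then Function.update (c i) 0 (P i) else c i) =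
            (fun i => if n ≤ ρ i + k then Function.update (c i) 0 (P i) else c i) := by
          funext i
          have : (n ≤ ρ i + (k + 1)) ↔ (n ≤ ρ i + k) := by
            constructor
            · intro h
              by_contra h2
              exact hex ⟨i, by omega⟩
            · intro h; omega
          simp only [this]
        rw [this]; exact ih
  have := key n
  have e : (fun i => if n ≤ ρ i + n then Function.update (c i) 0 (P i) else c i) =
      (fun i => Function.update (c i) 0 (L * ((ρ i : ℚ) + 1))) := by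
    funext i; rw [if_pos (by omega)]
  rw [e] at this
  exact this

/-! ### reshaping -/

def actL (C : Fin 3 → ℚ) : List (Fin 3 × Fin 3 × ℚ) → E3 → E3
  | [] => fun x => x
  | t :: ls => fun x => actL C ls (sh t.1 t.2.1 (-t.2.2 * C t.2.1) t.2.2 x)

def bnd : ℚ → List (Fin 3 × Fin 3 × ℚ) → ℚ
  | r, [] => r
  | r, t :: ls => bnd ((1 + |t.2.2|) * r) ls

lemma bnd_ge (ls : List (Fin 3 × Fin 3 × ℚ)) (r : ℚ) (hr : 0 < r) : r ≤ bnd r ls := by
  induction ls generalizing r with
  | nil => exact le_rfl
  | cons t ls ih =>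
    unfold bnd
    have h1 : 0 < (1 + |t.2.2|) * r := by positivity
    have h2 : r ≤ (1 + |t.2.2|) * r := by nlinarith [abs_nonneg t.2.2]
    exact h2.trans (ih _ h1)

theorem reshape_list {n : ℕ} (i₀ : Fin n) (C : Fin 3 → ℚ) (δ : ℚ) (hδ : 0 < δ)
    (ls : List (Fin 3 × Fin 3 × ℚ)) (hne : ∀ t ∈ ls, t.1 ≠ t.2.1) (K : Fin n → Set E3) (r : ℚ)
    (hr : 0 < r) (h0 : ∀ x ∈ K i₀, x ∈ box C (fun _ => r))
    (h1 : ∀ i, i ≠ i₀ → ∀ x ∈ K i, x ∉ box C (fun _ => bnd r ls + δ)) :
    Mv K (fun i => if i = i₀ then actL C ls else fun x => x) := by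
  induction ls generalizing K r with
  | nil =>
    refine (Mv.refl K).congr (fun i x => ?_)
    split_ifs <;> rfl
  | cons t ls ih =>
    obtain ⟨j, k, β⟩ := t
    have hjk : j ≠ k := hne (j, k, β) List.mem_cons_self
    set r' := (1 + |β|) * r with hr'
    have hr'0 : 0 < r' := by positivity
    have hrr' : r ≤ r' := by rw [hr']; nlinarith [abs_nonneg β]
    have hrr'' : (r:ℝ) ≤ r' := by exact_mod_cast hrr'
    have hshin : ∀ x ∈ box C (fun _ => r), sh j k (-β * C k) β x ∈ box C (fun _ => r') := by
      intro x hx l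
      by_cases hl : l = j
      · subst hl
        simp only [sh, Function.update_self]
        have e : x l + (((-β * C k : ℚ) : ℝ) + (β:ℝ) * x k) - (C l:ℝ) =
            (x l - C l) + β * (x k - C k) := by push_cast; ring
        rw [e]
        have h2 := hx l
        have h3 := hx k
        simp only at h2 h3
        calc |(x l - (C l:ℝ)) + β * (x k - C k)| ≤ |x l - (C l:ℝ)| + |(β:ℝ) * (x k - C k)| :=
              abs_add_le _ _
          _ = |x l - (C l:ℝ)| + |(β:ℝ)| * |x k - C k| := by rw [abs_mul]
          _ ≤ r + |(β:ℝ)| * r := by gcongr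
          _ = ((r':ℚ):ℝ) := by rw [hr']; push_cast; ring
      · simp only [sh, Function.update_of_ne hl]
        exact (hx l).trans hrr''
    have hbnd : bnd r ((j, k, β) :: ls) = bnd r' ls := rfl
    have hA := base_move K i₀ j k hjk (-β * C k) β C (fun _ => r') (fun _ => hr'0) δ hδ
      (by
        intro x hx
        refine ⟨fun l => (h0 x hx l).trans hrr'', hshin x (h0 x hx)⟩)
      (by
        intro i hi x hx hx2
        apply h1 i hi x hx
        rw [hbnd]
        intro l
        have h3 := hx2 l
        have h4 : (r':ℝ) ≤ (bnd r' ls : ℚ) := by exact_mod_cast bnd_ge ls r' hr'0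
        push_cast at h3 ⊢
        linarith)
    have hB := ih (fun t ht => hne t (List.mem_cons_of_mem _ ht))
      (fun i => if i = i₀ then box C (fun _ => r') else K i) r' hr'0
      (by intro x hx; simpa using hx)
      (by
        intro i hi x hx
        simp only [if_neg hi] at hx
        have := h1 i hi x hx
        rw [hbnd] at this
        exact this)
    have hcont : ∀ i, Continuous ((fun i => if i = i₀ then sh j k (-β * C k) β else
        (fun x => x : E3 → E3)) i) := by
      intro i
      by_cases hi : i = i₀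
      · simp only [hi, if_true]; exact sh_cont _ _ _ _
      · simp only [hi, if_false]; exact continuous_id
    have := Mv.trans' hcont hA hB (by
      intro i x hx
      by_cases hi : i = i₀
      · subst hi
        simp only [if_true]
        exact hshin x (h0 x hx)
      · simp only [hi, if_false]; exact hx)
    refine this.congr (fun i x => ?_)
    by_cases hi : i = i₀
    · simp only [hi, if_true]; rfl
    · simp only [hi, if_false]

/-- the list of shears realising a diagonal matrix `diag(p, q, 1/(p q))` -/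
def dls (p q : ℚ) : List (Fin 3 × Fin 3 × ℚ) :=
  [ (0, 1, -1 / p), (1, 0, p - 1), (0, 1, 1), (1, 0, -(p - 1) / p),
    (1, 2, -1 / (p * q)), (2, 1, p * q - 1), (1, 2, 1), (2, 1, -(p * q - 1) / (p * q)) ]

lemma sh_app (j k : Fin 3) (a b : ℚ) (x : E3) (l : Fin 3) :
    sh j k a b x l = if l = j then x j + ((a:ℝ) + (b:ℝ) * x k) else x l := by
  unfold sh
  by_cases h : l = j
  · subst h; simp
  · simp [h]

lemma actL_dls (C : Fin 3 → ℚ) (p q : ℚ) (hp : 0 < p) (hq : 0 < q) (x : E3) :
    actL C (dls p q) x = ![(C 0:ℝ) + p * (x 0 - C 0), (C 1:ℝ) + q * (x 1 - C 1),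
      (C 2:ℝ) + (1 / (p * q)) * (x 2 - C 2)] := by
  have hp' : (p:ℝ) ≠ 0 := by exact_mod_cast hp.ne'
  have hq' : (q:ℝ) ≠ 0 := by exact_mod_cast hq.ne'
  funext l
  simp only [dls, actL]
  fin_cases l
  · simp [sh_app]
    field_simp
    ring
  · simp [sh_app]
    field_simp
    ring
  · simp [sh_app]
    field_simp
    ring

/-- radius needed to reshape -/
def RRad (h k : Fin 3 → ℚ) : ℚ := bnd (h 0 + h 1 + h 2) (dls (k 0 / h 0) (k 1 / h 1))

theorem reshape_one {n : ℕ} (C w : Fin n → Fin 3 → ℚ) (i₀ : Fin n) (k : Fin 3 → ℚ)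
    (hw : ∀ i j, 0 < w i j) (hk : ∀ j, 0 < k j) (hvol : ∏ j : Fin 3, k j / w i₀ j = 1)
    (hsep : ∀ i, i ≠ i₀ → RRad (w i₀) k + 1 + w i 0 < |C i₀ 0 - C i 0|) :
    Go C w C (Function.update w i₀ k) := by
  have h00 := hw i₀ 0
  have h01 := hw i₀ 1
  have h02 := hw i₀ 2
  have := reshape_list i₀ (C i₀) 1 one_pos (dls (k 0 / w i₀ 0) (k 1 / w i₀ 1))
    (by
      intro t ht
      simp only [dls, List.mem_cons, List.not_mem_nil, or_false] at ht
      rcases ht with h | h | h | h | h | h | h | h <;> rw [h] <;> simp)
    (fun i => box (C i) (w i)) (w i₀ 0 + w i₀ 1 + w i₀ 2) (by positivity)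
    (by
      intro x hx l
      have h1 := hx l
      refine h1.trans ?_
      have h00' : (0:ℝ) < w i₀ 0 := by exact_mod_cast h00
      have h01' : (0:ℝ) < w i₀ 1 := by exact_mod_cast h01
      have h02' : (0:ℝ) < w i₀ 2 := by exact_mod_cast h02
      push_cast
      fin_cases l
      · simp only [Fin.zero_eta]; linarith
      · simp only [Fin.mk_one]; linarith
      · simp only [Fin.reduceFinMk]; linarith)
    (by
      intro i hi x hx hx2
      have h1 := hsep i hi
      have h2 := hx 0
      have h3 := hx2 0
      have h1' : ((RRad (w i₀) k : ℚ) : ℝ) + 1 + w i 0 < |(C i₀ 0:ℝ) - C i 0| := by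
        have : ((RRad (w i₀) k + 1 + w i 0 : ℚ) : ℝ) < ((|C i₀ 0 - C i 0| : ℚ) : ℝ) := by
          exact_mod_cast h1
        push_cast at this; exact this
      have h4 : |(C i₀ 0:ℝ) - C i 0| ≤ |x 0 - C i₀ 0| + |x 0 - C i 0| := by
        have : (C i₀ 0:ℝ) - C i 0 = (x 0 - C i 0) - (x 0 - C i₀ 0) := by ring
        rw [this]
        refine (abs_sub _ _).trans ?_
        linarith
      have h5 : bnd (w i₀ 0 + w i₀ 1 + w i₀ 2) (dls (k 0 / w i₀ 0) (k 1 / w i₀ 1)) =
        RRad (w i₀) k := rfl
      simp only [h5] at h3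
      push_cast at h3
      linarith)
  refine this.congr (fun i x => ?_)
  by_cases hi : i = i₀
  · subst hi
    simp only [if_true, Function.update_self]
    rw [actL_dls _ _ _ (div_pos (hk 0) h00) (div_pos (hk 1) h01)]
    funext l
    unfold dmap
    rw [Fin.prod_univ_three] at hvol
    have h0' : (w i 0:ℝ) ≠ 0 := by exact_mod_cast h00.ne'
    have h1' : (w i 1:ℝ) ≠ 0 := by exact_mod_cast h01.ne'
    have h2' : (w i 2:ℝ) ≠ 0 := by exact_mod_cast h02.ne'
    have k0' : (k 0:ℝ) ≠ 0 := by exact_mod_cast (hk 0).ne'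
    have k1' : (k 1:ℝ) ≠ 0 := by exact_mod_cast (hk 1).ne'
    have hv : (k 0:ℝ) / w i 0 * (k 1 / w i 1) * (k 2 / w i 2) = 1 := by exact_mod_cast hvol
    fin_cases l
    · simp
    · simp
    · simp only [Fin.reduceFinMk, Matrix.cons_val]
      push_cast
      have : (1:ℝ) / (k 0 / w i 0 * (k 1 / w i 1)) = k 2 / w i 2 := by
        rw [div_eq_iff (by positivity)]
        rw [mul_comm]; exact hv.symm
      rw [this]
  · simp only [hi, if_false]
    rw [Function.update_of_ne hi]
    funext l
    have hne : (w i l:ℝ) ≠ 0 := by exact_mod_cast (hw i l).ne'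
    unfold dmap
    push_cast
    field_simp
    ring

theorem reshape_all {n : ℕ} (C h k : Fin n → Fin 3 → ℚ) (hh : ∀ i j, 0 < h i j)
    (hk : ∀ i j, 0 < k i j) (hvol : ∀ i, ∏ j : Fin 3, k i j / h i j = 1)
    (hsep : ∀ i i', i ≠ i' → RRad (h i) (k i) + 1 + h i' 0 + k i' 0 < |C i 0 - C i' 0|) :
    Go C h C k := by
  classical
  have key : ∀ S : Finset (Fin n), Go C h C (fun i => if i ∈ S then k i else h i) := by
    intro S
    induction S using Finset.induction_on with
    | empty => simp only [Finset.notMem_empty, if_false]; exact Go.refl _ _ hh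
    | insert i₀ S hi₀ ih =>
      have hpos : ∀ i j, 0 < (fun i => if i ∈ S then k i else h i) i j := by
        intro i j
        simp only
        split_ifs
        · exact hk i j
        · exact hh i j
      have := reshape_one C (fun i => if i ∈ S then k i else h i) i₀ (k i₀) hpos (hk i₀)
        (by simp only [if_neg hi₀]; exact hvol i₀)
        (by
          intro i hi
          simp only [if_neg hi₀]
          have h1 := hsep i₀ i (Ne.symm hi)
          have h2 := hh i 0
          have h3 := hk i 0
          split_ifs <;> linarith)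
      have h2 := Go.trans hh hpos ih this
      have e : (fun i => if i ∈ insert i₀ S then k i else h i) =
          Function.update (fun i => if i ∈ S then k i else h i) i₀ (k i₀) := by
        funext i
        by_cases hi : i = i₀
        · subst hi; simp
        · rw [Function.update_of_ne hi]
          simp [hi]
      rw [e]; exact h2
  have := key Finset.univ
  simpa using this

lemma sep_of_disjoint {c w c' w' : Fin 3 → ℚ} (hw : ∀ j, 0 < w j) (hw' : ∀ j, 0 < w' j)
    (h : Disjoint (box c w) (box c' w')) : Sep2 c w c' w' := by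
  by_contra hcon
  unfold Sep2 at hcon
  push Not at hcon
  have m1 : (fun l => ((w' l:ℝ) * c l + w l * c' l) / (w l + w' l)) ∈ box c w := by
    intro l
    have h1 : (0:ℝ) < w l := by exact_mod_cast hw l
    have h2 : (0:ℝ) < w' l := by exact_mod_cast hw' l
    have h3 : |(c l:ℝ) - c' l| ≤ w l + w' l := by
      have : ((|c l - c' l| : ℚ) : ℝ) ≤ ((w l + w' l : ℚ) : ℝ) := by exact_mod_cast hcon l
      push_cast at this; exact this
    have e : ((w' l:ℝ) * c l + w l * c' l) / (w l + w' l) - c l =
        - (w l * ((c l - c' l) / (w l + w' l))) := by field_simp; ring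
    simp only
    rw [e, abs_neg, abs_mul, abs_of_pos h1, abs_div, abs_of_pos (by positivity : (0:ℝ) < w l + w' l)]
    have : |(c l:ℝ) - c' l| / (w l + w' l) ≤ 1 := by rw [div_le_one (by positivity)]; exact h3
    nlinarith
  have m2 : (fun l => ((w' l:ℝ) * c l + w l * c' l) / (w l + w' l)) ∈ box c' w' := by
    intro l
    have h1 : (0:ℝ) < w l := by exact_mod_cast hw l
    have h2 : (0:ℝ) < w' l := by exact_mod_cast hw' l
    have h3 : |(c l:ℝ) - c' l| ≤ w l + w' l := by
      have : ((|c l - c' l| : ℚ) : ℝ) ≤ ((w l + w' l : ℚ) : ℝ) := by exact_mod_cast hcon l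
      push_cast at this; exact this
    have e : ((w' l:ℝ) * c l + w l * c' l) / (w l + w' l) - c' l =
        (w' l * ((c l - c' l) / (w l + w' l))) := by field_simp; ring
    simp only
    rw [e, abs_mul, abs_of_pos h2, abs_div, abs_of_pos (by positivity : (0:ℝ) < w l + w' l)]
    have : |(c l:ℝ) - c' l| / (w l + w' l) ≤ 1 := by rw [div_le_one (by positivity)]; exact h3
    nlinarith
  exact Set.disjoint_left.1 h m1 m2

theorem go_all {n : ℕ} (a b h k : Fin n → Fin 3 → ℚ)
    (hh : ∀ i j, 0 < h i j) (hk : ∀ i j, 0 < k i j)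
    (ha : Pairwise fun i i' => Disjoint (box (a i) (h i)) (box (a i') (h i')))
    (hb : Pairwise fun i i' => Disjoint (box (b i) (k i)) (box (b i') (k i')))
    (hvol : ∀ i, ∏ j : Fin 3, k i j / h i j = 1) : Go a h b k := by
  have hsa : ∀ i i', i ≠ i' → Sep2 (a i) (h i) (a i') (h i') := fun i i' hi =>
    sep_of_disjoint (hh i) (hh i') (ha hi)
  have hsb : ∀ i i', i ≠ i' → Sep2 (b i) (k i) (b i') (k i') := fun i i' hi =>
    sep_of_disjoint (hk i) (hk i') (hb hi)
  obtain ⟨ρ, hρ, Hρ⟩ := evac h a hh hsa
  obtain ⟨τ, hτ, Hτ⟩ := evac k b hk hsb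
  -- a large number
  obtain ⟨M, hM⟩ : ∃ M : ℚ, ∀ t : Fin n × Fin n × Fin 3,
      |a t.1 t.2.2| + |b t.1 t.2.2| + h t.1 t.2.2 + h t.2.1 t.2.2 + k t.1 t.2.2 + k t.2.1 t.2.2 +
        |RRad (h t.1) (k t.1)| + 1 ≤ M := by
    obtain ⟨M, hM⟩ := (Set.finite_range (fun t : Fin n × Fin n × Fin 3 =>
      |a t.1 t.2.2| + |b t.1 t.2.2| + h t.1 t.2.2 + h t.2.1 t.2.2 + k t.1 t.2.2 + k t.2.1 t.2.2 +
        |RRad (h t.1) (k t.1)| + 1)).bddAbove
    exact ⟨M, fun t => hM ⟨t, rfl⟩⟩
  set L : ℚ := max M 0 + 1 with hL
  have hL0 : 0 < L := by positivity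
  have hLM : ∀ t : Fin n × Fin n × Fin 3,
      |a t.1 t.2.2| + |b t.1 t.2.2| + h t.1 t.2.2 + h t.2.1 t.2.2 + k t.1 t.2.2 + k t.2.1 t.2.2 +
        |RRad (h t.1) (k t.1)| + 1 < L := by
    intro t
    have := hM t
    have := le_max_left M 0
    rw [hL]; linarith
  have hsepn : ∀ (σ : Fin n → ℕ), Function.Injective σ → ∀ i i', i ≠ i' → 
      L ≤ |L * ((σ i : ℚ) + 1) - L * ((σ i' : ℚ) + 1)| := by
    intro σ hσ i i' hi
    have hne : σ i ≠ σ i' := fun h => hi (hσ h)
    have e : L * ((σ i : ℚ) + 1) - L * ((σ i' : ℚ) + 1) = L * ((σ i : ℚ) - σ i') := by ring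
    rw [e, abs_mul, abs_of_pos hL0]
    have h1 : (1:ℚ) ≤ |(σ i : ℚ) - σ i'| := by
      have : (1:ℤ) ≤ |(σ i : ℤ) - σ i'| := by
        apply Int.one_le_abs
        intro h
        apply hne
        omega
      exact_mod_cast this
    nlinarith
  -- steps
  have A0 : TR h a (fun i => Function.update (a i) 0 (L * ((ρ i : ℚ) + 1))) := by
    apply Hρ L hL0
    · intro i
      have h1 := hLM (i, i, 0)
      simp only at h1
      have := le_abs_self (a i 0); have := abs_nonneg (b i 0); have := hh i 0; have := hk i 0
      have := abs_nonneg (RRad (h i) (k i))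
      linarith
    · intro i i'
      have h1 := hLM (i, i', 0)
      simp only at h1
      have := abs_nonneg (a i 0); have := abs_nonneg (b i 0); have := hk i' 0; have := hk i 0
      have := abs_nonneg (RRad (h i) (k i))
      linarith
  have B0 : TR k b (fun i => Function.update (b i) 0 (L * ((τ i : ℚ) + 1))) := by
    apply Hτ L hL0
    · intro i
      have h1 := hLM (i, i, 0)
      simp only at h1
      have := le_abs_self (b i 0); have := abs_nonneg (a i 0); have := hh i 0; have := hk i 0
      have := abs_nonneg (RRad (h i) (k i))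
      linarith
    · intro i i'
      have h1 := hLM (i, i', 0)
      simp only at h1
      have := abs_nonneg (a i 0); have := abs_nonneg (b i 0); have := hh i' 0; have := hh i 0
      have := abs_nonneg (RRad (h i) (k i))
      linarith
  have A1 : Go (fun i => Function.update (a i) 0 (L * ((ρ i : ℚ) + 1))) h
      (fun i => Function.update (a i) 0 (L * ((ρ i : ℚ) + 1))) k := by
    apply reshape_all _ _ _ hh hk hvol
    intro i i' hi
    simp only [Function.update_self]
    refine lt_of_lt_of_le ?_ (hsepn ρ hρ i i' hi)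
    have h1 := hLM (i, i', 0)
    simp only at h1
    have := abs_nonneg (a i 0); have := abs_nonneg (b i 0); have := hh i 0; have := hk i 0
    have := le_abs_self (RRad (h i) (k i))
    linarith
  have hk0 : ∀ i i' l, k i l + k i' l < L := by
    intro i i' l
    have h1 := hLM (i, i', l)
    simp only at h1
    have := abs_nonneg (a i l); have := abs_nonneg (b i l); have := hh i l; have := hh i' l
    have := abs_nonneg (RRad (h i) (k i))
    linarith
  have A2 : TR k (fun i => Function.update (a i) 0 (L * ((ρ i : ℚ) + 1)))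
      (fun i => ![L * ((ρ i : ℚ) + 1), L * ((i : ℕ) + 1), b i 2]) := by
    apply free_move _ _ _ 0
    · intro i i' hi
      simp only [Function.update_self]
      exact lt_of_lt_of_le (hk0 i i' 0) (hsepn ρ hρ i i' hi)
    · intro i; simp
  have A3 : TR k (fun i => ![L * ((ρ i : ℚ) + 1), L * ((i : ℕ) + 1), b i 2])
      (fun i => ![L * ((τ i : ℚ) + 1), L * ((i : ℕ) + 1), b i 2]) := by
    apply free_move _ _ _ 1
    · intro i i' hi
      simp only [Matrix.cons_val_one, Matrix.cons_val_zero]
      exact lt_of_lt_of_le (hk0 i i' 1) (hsepn (fun i => (i : ℕ)) Fin.val_injective i i' hi)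
    · intro i; simp
  have A4 : TR k (fun i => ![L * ((τ i : ℚ) + 1), L * ((i : ℕ) + 1), b i 2])
      (fun i => Function.update (b i) 0 (L * ((τ i : ℚ) + 1))) := by
    apply free_move _ _ _ 0
    · intro i i' hi
      simp only [Matrix.cons_val_zero]
      exact lt_of_lt_of_le (hk0 i i' 0) (hsepn τ hτ i i' hi)
    · intro i; simp
  have A5 : TR k (fun i => Function.update (a i) 0 (L * ((ρ i : ℚ) + 1))) b :=
    A2.trans (A3.trans (A4.trans B0.symm))
  exact Go.trans hh hh (A0.go hh) (Go.trans hh hk A1 (A5.go hk))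

end Crest.Agent.BF
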