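import Crest.Agent.BoxFlowPlan
import Mathlib

/-! Final assembly for S0170: global flow of a compactly supported field. -/

set_option autoImplicit false

namespace Crest.Agent.BoxFlowLib

open scoped ContDiff NNReal
open Crest.AnalysisR.BoxFlow

lemma exists_sol (U : Field) (hs : ContDiff ℝ ∞ U) (hc : HasCompactSupport U) (x : Fin 3 → ℝ) :
    ∃ γ : ℝ → (Fin 3 → ℝ), γ 0 = x ∧ ∀ t ∈ Set.Icc (0 : ℝ) 1, HasDerivWithinAt γ (U (t, γ t)) (Set.Icc 0 1) t := by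
  obtain ⟨K, hK⟩ := ContDiff.lipschitzWith_of_hasCompactSupport hc hs (by simp)
  obtain ⟨C, hC⟩ := hs.continuous.bounded_above_of_compact_support hc
  set L : ℝ≥0 := ⟨|C|, abs_nonneg C⟩ with hL
  have hPL : IsPicardLindelof (fun (t : ℝ) (y : Fin 3 → ℝ) => U (t, y))
      (⟨0, by simp⟩ : Set.Icc (0 : ℝ) 1) x L 0 L K :=
    { lipschitzOnWith := by
        intro t _ y _ z _
        refine (hK (t, y) (t, z)).trans ?_
        rw [Prod.edist_eq, edist_self]
        simp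
      continuousOn := by
        intro y _
        exact (hs.continuous.comp (by fun_prop : Continuous fun t : ℝ => (t, y))).continuousOn
      norm_le := by
        intro t _ y _
        exact (hC (t, y)).trans (le_abs_self C)
      mul_max_le := by simp }
  obtain ⟨α, h0, h1⟩ := hPL.exists_eq_forall_mem_Icc_hasDerivWithinAt₀
  exact ⟨α, h0, h1⟩

/-- a flow for a smooth compactly supported field active in `(1/4, 3/4)` -/
theorem exists_flow (U : Field) (hs : ContDiff ℝ ∞ U) (hc : HasCompactSupport U)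
    (ht : ∀ p : ℝ × (Fin 3 → ℝ), p.1 ∉ Set.Ioo (1 / 4 : ℝ) (3 / 4) → U p = 0) :
    ∃ Φ : ℝ → (Fin 3 → ℝ) → (Fin 3 → ℝ), IsFlow U Φ ∧ (∀ x, Φ (1 / 4) x = x) ∧ (∀ x, Φ 1 x = Φ (3 / 4) x) := by
  choose γ hγ0 hγ using exists_sol U hs hc
  have hcont : ∀ x, ContinuousOn (γ x) (Set.Icc 0 1) := fun x t ht' => (hγ x t ht').continuousWithinAt
  -- constancy at the beginning and at the end
  have hbeg : ∀ x, ∀ t ∈ Set.Icc (0 : ℝ) (1 / 4), γ x t = x := by
    intro x t ht'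
    have h1 : ContinuousOn (γ x) (Set.Icc 0 (1 / 4)) := (hcont x).mono (Set.Icc_subset_Icc_right (by norm_num))
    have h2 : ∀ s ∈ Set.Ico (0 : ℝ) (1 / 4), HasDerivWithinAt (γ x) 0 (Set.Ici s) s := by
      intro s hs'
      have h3 := hγ x s ⟨hs'.1, by linarith [hs'.2]⟩
      rw [ht (s, γ x s) (fun h => by linarith [h.1, hs'.2])] at h3
      have h4 : HasDerivWithinAt (γ x) 0 (Set.Icc s 1) s := h3.mono (Set.Icc_subset_Icc_left hs'.1)
      exact h4.mono_of_mem_nhdsWithin (Icc_mem_nhdsGE (by linarith [hs'.2]))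
    rw [constant_of_has_deriv_right_zero h1 h2 t ht', hγ0]
  have hend : ∀ x, ∀ t ∈ Set.Icc (3 / 4 : ℝ) 1, γ x t = γ x (3 / 4) := by
    intro x t ht'
    have h1 : ContinuousOn (γ x) (Set.Icc (3 / 4) 1) := (hcont x).mono (Set.Icc_subset_Icc_left (by norm_num))
    have h2 : ∀ s ∈ Set.Ico (3 / 4 : ℝ) 1, HasDerivWithinAt (γ x) 0 (Set.Ici s) s := by
      intro s hs'
      have h3 := hγ x s ⟨by linarith [hs'.1], hs'.2.le⟩
      rw [ht (s, γ x s) (fun h => by linarith [h.2, hs'.1])] at h3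
      have h4 : HasDerivWithinAt (γ x) 0 (Set.Icc s 1) s := h3.mono (Set.Icc_subset_Icc_left (by linarith [hs'.1]))
      exact h4.mono_of_mem_nhdsWithin (Icc_mem_nhdsGE hs'.2)
    exact constant_of_has_deriv_right_zero h1 h2 t ht'
  set Φ : ℝ → (Fin 3 → ℝ) → (Fin 3 → ℝ) := fun t x => γ x (max 0 (min 1 t)) with hΦ
  have hΦin : ∀ t ∈ Set.Icc (0 : ℝ) 1, ∀ x, Φ t x = γ x t := by
    intro t ht' x
    simp only [hΦ, min_eq_right ht'.2, max_eq_right ht'.1]
  have hΦlo : ∀ t < (1 / 4 : ℝ), ∀ x, Φ t x = x := by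
    intro t ht' x
    simp only [hΦ]
    apply hbeg
    refine ⟨le_max_left _ _, max_le (by norm_num) ((min_le_right _ _).trans ht'.le)⟩
  have hΦhi : ∀ t > (3 / 4 : ℝ), ∀ x, Φ t x = γ x (3 / 4) := by
    intro t ht' x
    simp only [hΦ]
    apply hend
    refine ⟨le_max_of_le_right (le_min (by norm_num) ht'.le), max_le (by norm_num) (min_le_left _ _)⟩
  refine ⟨Φ, ⟨?_, ?_⟩, ?_, ?_⟩
  · intro x
    exact hΦlo 0 (by norm_num) x
  · intro t x
    rcases lt_or_ge t (1 / 4) with h | h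
    · rw [ht (t, Φ t x) (fun h' => by linarith [h'.1])]
      refine (hasDerivAt_const t x).congr_of_eventuallyEq ?_
      filter_upwards [Iio_mem_nhds h] with s hs'
      exact hΦlo s hs' x
    · rcases lt_or_ge (3 / 4) t with h2 | h2
      · rw [ht (t, Φ t x) (fun h' => by linarith [h'.2])]
        refine (hasDerivAt_const t (γ x (3 / 4))).congr_of_eventuallyEq ?_
        filter_upwards [Ioi_mem_nhds h2] with s hs'
        exact hΦhi s hs' x
      · have hmem : Set.Icc (0 : ℝ) 1 ∈ nhds t := Icc_mem_nhds (by linarith) (by linarith)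
        have h3 := (hγ x t ⟨by linarith, by linarith⟩).hasDerivAt hmem
        rw [hΦin t ⟨by linarith, by linarith⟩ x]
        refine h3.congr_of_eventuallyEq ?_
        filter_upwards [hmem] with s hs'
        exact hΦin s hs' x
  · intro x
    rw [hΦin (1 / 4) ⟨by norm_num, by norm_num⟩]
    exact hbeg x (1 / 4) ⟨by norm_num, le_rfl⟩
  · intro x
    rw [hΦin 1 ⟨by norm_num, le_rfl⟩, hΦin (3 / 4) ⟨by norm_num, by norm_num⟩]
    exact hend x 1 ⟨by norm_num, le_rfl⟩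

theorem assemble (hE : ElementaryMove) (hadd : AddClosed)
    (n : ℕ) (a b h k : Fin n → Fin 3 → ℚ)
    (hh : ∀ i j, 0 < h i j) (hk : ∀ i j, 0 < k i j)
    (ha : Pairwise fun i i' => Disjoint (box (a i) (h i)) (box (a i') (h i')))
    (hb : Pairwise fun i i' => Disjoint (box (b i) (k i)) (box (b i') (k i')))
    (hvol : ∀ i, ∏ j : Fin 3, k i j / h i j = 1) :
    ∃ (U : Field) (Φ : ℝ → (Fin 3 → ℝ) → (Fin 3 → ℝ)),
      ContDiff ℝ ∞ U ∧ HasCompactSupport U ∧ Effective U ∧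
      (∀ p : ℝ × (Fin 3 → ℝ), p.1 ∉ Set.Icc (1 / 4 : ℝ) (3 / 4) → U p = 0) ∧
      (∀ p : ℝ × (Fin 3 → ℝ), spaceDiv U p = 0) ∧ IsFlow U Φ ∧
      ∀ i : Fin n, ∃ O : Set (Fin 3 → ℝ), IsOpen O ∧ box (a i) (h i) ⊆ O ∧
        ∀ x ∈ O, Φ 1 x = fun j => (b i j : ℝ) + ((k i j / h i j : ℚ) : ℝ) * (x j - (a i j : ℝ)) := by
  obtain ⟨U, hU, hm⟩ := plan hE hadd n a b h k hh hk ha hb hvol (1 / 4) (3 / 4) (by norm_num)
  have e1 : ((1 / 4 : ℚ) : ℝ) = 1 / 4 := by norm_num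
  have e2 : ((3 / 4 : ℚ) : ℝ) = 3 / 4 := by norm_num
  rw [e1, e2] at hU
  obtain ⟨Φ, hΦ, hΦ0, hΦ1⟩ := exists_flow U hU.smooth hU.cpt hU.time
  refine ⟨U, Φ, hU.smooth, hU.cpt, hU.eff, fun p hp => hU.time p (fun h => hp (Set.Ioo_subset_Icc_self h)), hU.div, hΦ, ?_⟩
  intro i
  obtain ⟨O, hO, hsub, hOm⟩ := hm i
  refine ⟨O, hO, hsub, fun x hx => ?_⟩
  have hsol : Sol U ((1 / 4 : ℚ) : ℝ) ((3 / 4 : ℚ) : ℝ) (fun t => Φ t x) := fun t _ => (hΦ.2 t x).hasDerivWithinAt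
  have := hOm (fun t => Φ t x) hsol (by rw [e1, hΦ0]; exact hx)
  simp only at this
  rw [e1, e2, hΦ0] at this
  rw [hΦ1, this]

end Crest.Agent.BoxFlowLib
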