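import Crest.Prelude.Def_BoxFlow
import Mathlib

/-! Shared definitions for S0170 (row 126). -/

namespace Crest.Agent.BoxFlowLib

open scoped ContDiff
open Crest.AnalysisR.BoxFlow

/-- One-dimensional effective functions: smooth, all derivatives globally bounded by a computable
function of the order and computably approximable at rational points. -/
structure Eff1 (f : ℝ → ℝ) : Prop where
  smooth : ContDiff ℝ ∞ f
  eff : ∃ (E : ℕ × ℚ × ℕ → ℚ) (B : ℕ → ℕ), Computable E ∧ Computable B ∧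
    (∀ (k : ℕ) (q : ℚ) (n : ℕ), |iteratedDeriv k f (q : ℝ) - (E (k, q, n) : ℝ)| ≤ 1 / ((n : ℝ) + 1)) ∧
    (∀ (k : ℕ) (x : ℝ), |iteratedDeriv k f x| ≤ (B k : ℝ))

/-- Space-time coordinate: 0 is time. -/
noncomputable def coordOf (i : Fin 4) (p : ℝ × (Fin 3 → ℝ)) : ℝ :=
  if h : i = 0 then p.1 else p.2 (i.pred h)

/-- Product of one-variable functions of the four space-time coordinates. -/
noncomputable def prodFn (F : Fin 4 → ℝ → ℝ) (p : ℝ × (Fin 3 → ℝ)) : ℝ :=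
  ∏ i, F i (coordOf i p)

/-- Admissible field active in the open time interval `(t0, t1)`. -/
structure Adm (t0 t1 : ℝ) (U : Field) : Prop where
  smooth : ContDiff ℝ ∞ U
  cpt : HasCompactSupport U
  eff : Effective U
  time : ∀ p : ℝ × (Fin 3 → ℝ), p.1 ∉ Set.Ioo t0 t1 → U p = 0
  div : ∀ p : ℝ × (Fin 3 → ℝ), spaceDiv U p = 0

/-- `γ` solves the ODE of `U` on `[t0, t1]`. -/
def Sol (U : Field) (t0 t1 : ℝ) (γ : ℝ → (Fin 3 → ℝ)) : Prop :=
  ∀ t ∈ Set.Icc t0 t1, HasDerivWithinAt γ (U (t, γ t)) (Set.Icc t0 t1) t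

/-- The sets `K i` can be carried by the maps `A i` (exactly, on a neighbourhood), simultaneously,
by an admissible field active in any prescribed rational time interval. -/
def Moves {n : ℕ} (K : Fin n → Set (Fin 3 → ℝ)) (A : Fin n → (Fin 3 → ℝ) → (Fin 3 → ℝ)) : Prop :=
  ∀ t0 t1 : ℚ, t0 < t1 → ∃ U : Field, Adm t0 t1 U ∧
    ∀ i, ∃ O : Set (Fin 3 → ℝ), IsOpen O ∧ K i ⊆ O ∧
      ∀ γ : ℝ → (Fin 3 → ℝ), Sol U t0 t1 γ → γ t0 ∈ O → γ t1 = A i (γ t0)

/-- Statement of the elementary move lemma (translation / shear along axis `i` with speed an affine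
function of coordinate `j`, supported near the box `[l,u]`). -/
def ElementaryMove : Prop :=
  ∀ (t0 t1 : ℚ), t0 < t1 → ∀ (i j : Fin 3), i ≠ j → ∀ (s v : ℚ) (l u : Fin 3 → ℚ),
    (∀ m, l m < u m) → ∀ δ : ℚ, 0 < δ →
    ∃ U : Field, Adm t0 t1 U ∧
      (∀ γ : ℝ → (Fin 3 → ℝ), Sol U t0 t1 γ → (∀ m, γ t0 m ∈ Set.Icc (l m : ℝ) (u m)) →
        γ t0 i + (s * γ t0 j + v) ∈ Set.Icc (l i : ℝ) (u i) →
        γ t1 = Function.update (γ t0) i (γ t0 i + (s * γ t0 j + v))) ∧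
      (∀ γ : ℝ → (Fin 3 → ℝ), Sol U t0 t1 γ →
        (∃ m, γ t0 m ∉ Set.Ioo ((l m : ℝ) - δ) ((u m : ℝ) + δ)) → γ t1 = γ t0)

end Crest.Agent.BoxFlowLib
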