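import Crest.Agent.BoxFlowDefs
import Mathlib

/-! Path planning for S0170: from elementary moves to simultaneous affine transport of boxes. -/

set_option autoImplicit false

namespace Crest.Agent.BoxFlowLib

open scoped ContDiff
open Crest.AnalysisR.BoxFlow

/-- closure of effectivity under addition (proved elsewhere) -/
def AddClosed : Prop := ∀ U V : Field, ContDiff ℝ ∞ U → ContDiff ℝ ∞ V → Effective U → Effective V →
  Effective (fun p => U p + V p)

lemma mixedDeriv_zero (ds : List (Fin 4)) : mixedDeriv ds (fun _ => 0) = fun _ => 0 := by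
  induction ds with
  | nil => rfl
  | cons d ds ih =>
    funext p
    simp [mixedDeriv, ih]

lemma effective_zero : Effective (fun _ => 0) := by
  refine ⟨fun _ => 0, fun _ => 0, Computable.const _, Computable.const _, ?_, ?_⟩
  · intro ds t q n j
    rw [mixedDeriv_zero]
    simp
    positivity
  · intro ds p j
    rw [mixedDeriv_zero]
    simp

lemma adm_zero (t0 t1 : ℝ) : Adm t0 t1 (fun _ => 0) where
  smooth := contDiff_const
  cpt := by
    rw [HasCompactSupport]
    have : Function.support (fun _ : ℝ × (Fin 3 → ℝ) => (0 : Fin 3 → ℝ)) = ∅ := by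
      ext; simp
    rw [tsupport, this]; simp
  eff := effective_zero
  time := fun _ _ => rfl
  div := by intro p; simp [spaceDiv]

lemma Adm.add (hadd : AddClosed) {t0 tm t1 : ℝ} (h0 : t0 ≤ tm) (h1 : tm ≤ t1) {U V : Field} (hU : Adm t0 tm U)
    (hV : Adm tm t1 V) : Adm t0 t1 (fun p => U p + V p) where
  smooth := hU.smooth.add hV.smooth
  cpt := hU.cpt.add hV.cpt
  eff := hadd U V hU.smooth hV.smooth hU.eff hV.eff
  time := by
    intro p hp
    rw [hU.time p (fun h => hp ⟨h.1, lt_of_lt_of_le h.2 h1⟩), hV.time p (fun h => hp ⟨lt_of_le_of_lt h0 h.1, h.2⟩), add_zero]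
  div := by
    intro p
    have hUd : DifferentiableAt ℝ U p := (hU.smooth.differentiable (by simp)).differentiableAt
    have hVd : DifferentiableAt ℝ V p := (hV.smooth.differentiable (by simp)).differentiableAt
    have h := hU.div p
    have h' := hV.div p
    unfold spaceDiv at h h' ⊢
    have e : (fun p => U p + V p) = U + V := rfl
    rw [e, fderiv_add hUd hVd]
    simp only [add_apply, Pi.add_apply, Finset.sum_add_distrib]
    rw [h, h', add_zero]

lemma Moves.comp (hadd : AddClosed) {n : ℕ} {K : Fin n → Set (Fin 3 → ℝ)} {A B : Fin n → (Fin 3 → ℝ) → (Fin 3 → ℝ)}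
    (hA : Moves K A) (hB : Moves (fun i => A i '' K i) B) (hc : ∀ i, Continuous (A i)) :
    Moves K (fun i => B i ∘ A i) := by
  intro t0 t1 ht
  set tm : ℚ := (t0 + t1) / 2 with htm
  have h0 : t0 < tm := by rw [htm]; linarith
  have h1 : tm < t1 := by rw [htm]; linarith
  have h0r : (t0 : ℝ) < tm := by exact_mod_cast h0
  have h1r : (tm : ℝ) < t1 := by exact_mod_cast h1
  obtain ⟨U, hU, hUm⟩ := hA t0 tm h0
  obtain ⟨V, hV, hVm⟩ := hB tm t1 h1
  refine ⟨fun p => U p + V p, hU.add hadd h0r.le h1r.le hV, ?_⟩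
  intro i
  obtain ⟨O, hO, hKO, hOm⟩ := hUm i
  obtain ⟨O', hO', hKO', hOm'⟩ := hVm i
  refine ⟨O ∩ A i ⁻¹' O', hO.inter (hO'.preimage (hc i)), ?_, ?_⟩
  · intro x hx
    exact ⟨hKO hx, hKO' (Set.mem_image_of_mem _ hx)⟩
  · rintro γ hγ ⟨hx, hx'⟩
    have s1 : Sol U t0 tm γ := by
      intro t ht'
      have := (hγ t ⟨ht'.1, ht'.2.trans h1r.le⟩).mono (Set.Icc_subset_Icc_right h1r.le)
      have hz : V (t, γ t) = 0 := hV.time _ (fun h => absurd h.1 (not_lt.mpr ht'.2))
      simpa [hz] using this
    have s2 : Sol V tm t1 γ := by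
      intro t ht'
      have := (hγ t ⟨h0r.le.trans ht'.1, ht'.2⟩).mono (Set.Icc_subset_Icc_left h0r.le)
      have hz : U (t, γ t) = 0 := hU.time _ (fun h => absurd h.2 (not_lt.mpr ht'.1))
      simpa [hz] using this
    have e1 := hOm γ s1 hx
    have e2 := hOm' γ s2 (by rw [e1]; exact hx')
    rw [e2, e1]
    rfl

lemma Moves.id {n : ℕ} (K : Fin n → Set (Fin 3 → ℝ)) : Moves K (fun _ => _root_.id) := by
  intro t0 t1 ht
  have htr : (t0 : ℝ) < t1 := by exact_mod_cast ht
  refine ⟨fun _ => 0, adm_zero _ _, fun i => ⟨Set.univ, isOpen_univ, Set.subset_univ _, ?_⟩⟩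
  intro γ hγ _
  have hc : ContinuousOn γ (Set.Icc (t0 : ℝ) t1) := fun t ht' => (hγ t ht').continuousWithinAt
  have hd : ∀ x ∈ Set.Ico (t0 : ℝ) t1, HasDerivWithinAt γ 0 (Set.Ici x) x := by
    intro x hx
    have := hγ x ⟨hx.1, hx.2.le⟩
    have h2 : HasDerivWithinAt γ 0 (Set.Icc x t1) x := this.mono (Set.Icc_subset_Icc_left hx.1)
    exact h2.mono_of_mem_nhdsWithin (Icc_mem_nhdsGE hx.2)
  exact constant_of_has_deriv_right_zero hc hd t1 ⟨htr.le, le_rfl⟩

lemma Moves.congr {n : ℕ} {K : Fin n → Set (Fin 3 → ℝ)} {A B : Fin n → (Fin 3 → ℝ) → (Fin 3 → ℝ)}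
    (hA : Moves K A) (h : ∀ i x, A i x = B i x) : Moves K B := by
  have : A = B := by funext i x; exact h i x
  rw [← this]; exact hA

/-- the basic step: one set is moved by an elementary map inside a box, the others stay put -/
lemma step (hE : ElementaryMove) {n : ℕ} (K : Fin n → Set (Fin 3 → ℝ)) (i0 : Fin n) (i j : Fin 3) (hij : i ≠ j)
    (s v : ℚ) (l u : Fin 3 → ℚ) (hlu : ∀ m, l m < u m) (δ : ℚ) (hδ : 0 < δ)
    (hK0 : ∀ x ∈ K i0, ∀ m, (l m : ℝ) < x m ∧ x m < u m)
    (hK1 : ∀ x ∈ K i0, (l i : ℝ) < x i + (s * x j + v) ∧ x i + (s * x j + v) < u i)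
    (hother : ∀ i', i' ≠ i0 → ∀ x ∈ K i', ∃ m, x m < (l m : ℝ) - δ ∨ (u m : ℝ) + δ < x m) :
    Moves K (fun i' => if i' = i0 then fun x => Function.update x i (x i + (s * x j + v)) else _root_.id) := by
  intro t0 t1 ht
  obtain ⟨U, hU, h1, h2⟩ := hE t0 t1 ht i j hij s v l u hlu δ hδ
  refine ⟨U, hU, ?_⟩
  intro i'
  by_cases hi : i' = i0
  · subst hi
    refine ⟨{x | (∀ m, (l m : ℝ) < x m ∧ x m < u m) ∧ ((l i : ℝ) < x i + (s * x j + v) ∧ x i + (s * x j + v) < u i)},
      ?_, fun x hx => ⟨hK0 x hx, hK1 x hx⟩, ?_⟩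
    · have hc : Continuous fun x : Fin 3 → ℝ => x i + (s * x j + v) := by fun_prop
      have e : {x : Fin 3 → ℝ | (∀ m, (l m : ℝ) < x m ∧ x m < u m) ∧ ((l i : ℝ) < x i + (s * x j + v) ∧ x i + (s * x j + v) < u i)} =
          (⋂ m, {x : Fin 3 → ℝ | (l m : ℝ) < x m ∧ x m < (u m : ℝ)}) ∩
            {x : Fin 3 → ℝ | (l i : ℝ) < x i + (s * x j + v) ∧ x i + (s * x j + v) < u i} := by
        ext x; simp
      rw [e]
      apply IsOpen.inter
      · apply isOpen_iInter_of_finite
        intro m
        exact (isOpen_lt continuous_const (continuous_apply m)).inter (isOpen_lt (continuous_apply m) continuous_const)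
      · exact (isOpen_lt continuous_const hc).inter (isOpen_lt hc continuous_const)
    · rintro γ hγ ⟨ha, hb⟩
      simp only [if_true]
      exact h1 γ hγ (fun m => ⟨(ha m).1.le, (ha m).2.le⟩) ⟨hb.1.le, hb.2.le⟩
  · refine ⟨{x | ∃ m, x m < (l m : ℝ) - δ ∨ (u m : ℝ) + δ < x m}, ?_, hother i' hi, ?_⟩
    · have : {x : Fin 3 → ℝ | ∃ m, x m < (l m : ℝ) - δ ∨ (u m : ℝ) + δ < x m} =
          ⋃ m, {x | x m < (l m : ℝ) - δ ∨ (u m : ℝ) + δ < x m} := by
        ext x; simp
      rw [this]
      apply isOpen_iUnion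
      intro m
      exact (isOpen_lt (continuous_apply m) continuous_const).union (isOpen_lt continuous_const (continuous_apply m))
    · rintro γ hγ ⟨m, hm⟩
      simp only [if_neg hi, _root_.id]
      refine h2 γ hγ ⟨m, ?_⟩
      rintro ⟨ha, hb⟩
      rcases hm with hm | hm
      · linarith
      · linarith


lemma exists_unif {ι : Type*} [Fintype ι] (P : ι → ℚ → Prop) (hmono : ∀ i a b, a ≤ b → P i b → P i a)
    (h : ∀ i, ∃ δ : ℚ, 0 < δ ∧ P i δ) : ∃ δ : ℚ, 0 < δ ∧ ∀ i, P i δ := by
  classical
  have key : ∀ s : Finset ι, ∃ δ : ℚ, 0 < δ ∧ ∀ i ∈ s, P i δ := by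
    intro s
    induction s using Finset.induction_on with
    | empty => exact ⟨1, one_pos, by simp⟩
    | insert a s ha ih =>
      obtain ⟨δ, hδ, hs⟩ := ih
      obtain ⟨δ', hδ', ha'⟩ := h a
      refine ⟨min δ δ', lt_min hδ hδ', fun i hi => ?_⟩
      rcases Finset.mem_insert.mp hi with rfl | hi
      · exact hmono _ _ _ (min_le_right _ _) ha'
      · exact hmono _ _ _ (min_le_left _ _) (hs i hi)
  obtain ⟨δ, hδ, hs⟩ := key Finset.univ
  exact ⟨δ, hδ, fun i => hs i (Finset.mem_univ i)⟩

/-- an elementary translation step between configurations of boxes with fixed half-widths -/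
def TStep {n : ℕ} (hw : Fin n → Fin 3 → ℚ) (c c' : Fin n → Fin 3 → ℚ) : Prop :=
  ∃ (i0 : Fin n) (j : Fin 3), (∀ i m, (i ≠ i0 ∨ m ≠ j) → c' i m = c i m) ∧
    ∀ i, i ≠ i0 → ∃ m, (hw i0 m + hw i m < c i0 m - c i m ∧ hw i0 m + hw i m < c' i0 m - c i m) ∨
      (hw i0 m + hw i m < c i m - c i0 m ∧ hw i0 m + hw i m < c i m - c' i0 m)

lemma TStep.symm {n : ℕ} {hw : Fin n → Fin 3 → ℚ} {c c' : Fin n → Fin 3 → ℚ} (h : TStep hw c c') : TStep hw c' c := by
  obtain ⟨i0, j, h1, h2⟩ := h
  refine ⟨i0, j, fun i m him => (h1 i m him).symm, fun i hi => ?_⟩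
  obtain ⟨m, hm⟩ := h2 i hi
  refine ⟨m, ?_⟩
  rw [h1 i m (Or.inl hi)]
  rcases hm with ⟨a, b⟩ | ⟨a, b⟩
  · exact Or.inl ⟨b, a⟩
  · exact Or.inr ⟨b, a⟩

/-- translations of the configuration `c` to `c'` -/
noncomputable def tr {n : ℕ} (c c' : Fin n → Fin 3 → ℚ) (i : Fin n) (x : Fin 3 → ℝ) : Fin 3 → ℝ :=
  fun m => x m + ((c' i m - c i m : ℚ) : ℝ)

lemma continuous_tr {n : ℕ} (c c' : Fin n → Fin 3 → ℚ) (i : Fin n) : Continuous (tr c c' i) := by
  unfold tr; fun_prop

lemma tr_image {n : ℕ} (c c' : Fin n → Fin 3 → ℚ) (hw : Fin n → Fin 3 → ℚ) (i : Fin n) :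
    tr c c' i '' box (c i) (hw i) = box (c' i) (hw i) := by
  ext x
  constructor
  · rintro ⟨y, hy, rfl⟩
    intro m
    have := hy m
    simp only [tr]
    push_cast
    rw [show y m + ((c' i m : ℝ) - (c i m : ℝ)) - (c' i m : ℝ) = y m - (c i m : ℝ) by ring]
    exact this
  · intro hx
    refine ⟨fun m => x m - ((c' i m - c i m : ℚ) : ℝ), ?_, ?_⟩
    · intro m
      have := hx m
      push_cast
      rw [show x m - ((c' i m : ℝ) - (c i m : ℝ)) - (c i m : ℝ) = x m - (c' i m : ℝ) by ring]
      exact this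
    · funext m
      simp [tr]

lemma TStep.moves (hE : ElementaryMove) {n : ℕ} {hw : Fin n → Fin 3 → ℚ} (hpos : ∀ i m, 0 < hw i m)
    {c c' : Fin n → Fin 3 → ℚ} (h : TStep hw c c') : Moves (fun i => box (c i) (hw i)) (tr c c') := by
  obtain ⟨i0, j, h1, h2⟩ := h
  obtain ⟨j', hj'⟩ : ∃ j' : Fin 3, j ≠ j' := by
    fin_cases j
    · exact ⟨1, by decide⟩
    · exact ⟨2, by decide⟩
    · exact ⟨0, by decide⟩
  -- uniform margin
  obtain ⟨δ, hδ, hsep⟩ := exists_unif (ι := Fin n) (fun i δ => i ≠ i0 → ∃ m,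
      (hw i0 m + hw i m + 3 * δ < c i0 m - c i m ∧ hw i0 m + hw i m + 3 * δ < c' i0 m - c i m) ∨
      (hw i0 m + hw i m + 3 * δ < c i m - c i0 m ∧ hw i0 m + hw i m + 3 * δ < c i m - c' i0 m))
    (by
      intro i a b hab hb hi
      obtain ⟨m, hm⟩ := hb hi
      refine ⟨m, ?_⟩
      rcases hm with ⟨h3, h4⟩ | ⟨h3, h4⟩
      · exact Or.inl ⟨by linarith, by linarith⟩
      · exact Or.inr ⟨by linarith, by linarith⟩)
    (by
      intro i
      by_cases hi : i = i0
      · exact ⟨1, one_pos, fun h => absurd hi h⟩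
      · obtain ⟨m, hm⟩ := h2 i hi
        rcases hm with ⟨h3, h4⟩ | ⟨h3, h4⟩
        · refine ⟨min ((c i0 m - c i m) - (hw i0 m + hw i m)) ((c' i0 m - c i m) - (hw i0 m + hw i m)) / 4, ?_, fun _ => ⟨m, Or.inl ⟨?_, ?_⟩⟩⟩
          · have := lt_min (sub_pos.mpr h3) (sub_pos.mpr h4); positivity
          · have := min_le_left ((c i0 m - c i m) - (hw i0 m + hw i m)) ((c' i0 m - c i m) - (hw i0 m + hw i m))
            linarith
          · have := min_le_right ((c i0 m - c i m) - (hw i0 m + hw i m)) ((c' i0 m - c i m) - (hw i0 m + hw i m))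
            linarith
        · refine ⟨min ((c i m - c i0 m) - (hw i0 m + hw i m)) ((c i m - c' i0 m) - (hw i0 m + hw i m)) / 4, ?_, fun _ => ⟨m, Or.inr ⟨?_, ?_⟩⟩⟩
          · have := lt_min (sub_pos.mpr h3) (sub_pos.mpr h4); positivity
          · have := min_le_left ((c i m - c i0 m) - (hw i0 m + hw i m)) ((c i m - c' i0 m) - (hw i0 m + hw i m))
            linarith
          · have := min_le_right ((c i m - c i0 m) - (hw i0 m + hw i m)) ((c i m - c' i0 m) - (hw i0 m + hw i m))
            linarith)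
  set l : Fin 3 → ℚ := fun m => min (c i0 m) (c' i0 m) - hw i0 m - δ with hl
  set u : Fin 3 → ℚ := fun m => max (c i0 m) (c' i0 m) + hw i0 m + δ with hu
  have hl1 : ∀ m, (l m : ℝ) ≤ c i0 m - hw i0 m - δ := by
    intro m
    have : l m ≤ c i0 m - hw i0 m - δ := by have := min_le_left (c i0 m) (c' i0 m); simp only [hl]; linarith
    exact_mod_cast this
  have hl2 : ∀ m, (l m : ℝ) ≤ c' i0 m - hw i0 m - δ := by
    intro m
    have : l m ≤ c' i0 m - hw i0 m - δ := by have := min_le_right (c i0 m) (c' i0 m); simp only [hl]; linarith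
    exact_mod_cast this
  have hu1 : ∀ m, (c i0 m : ℝ) + hw i0 m + δ ≤ u m := by
    intro m
    have : c i0 m + hw i0 m + δ ≤ u m := by have := le_max_left (c i0 m) (c' i0 m); simp only [hu]; linarith
    exact_mod_cast this
  have hu2 : ∀ m, (c' i0 m : ℝ) + hw i0 m + δ ≤ u m := by
    intro m
    have : c' i0 m + hw i0 m + δ ≤ u m := by have := le_max_right (c i0 m) (c' i0 m); simp only [hu]; linarith
    exact_mod_cast this
  have hδr : (0 : ℝ) < δ := by exact_mod_cast hδ
  have hlu : ∀ m, l m < u m := by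
    intro m
    have a1 := min_le_left (c i0 m) (c' i0 m)
    have a2 := le_max_left (c i0 m) (c' i0 m)
    have a3 := hpos i0 m
    simp only [hl, hu]
    linarith
  have hst := step hE (fun i => box (c i) (hw i)) i0 j j' hj' 0 (c' i0 j - c i0 j) l u hlu δ hδ ?_ ?_ ?_
  · refine hst.congr ?_
    intro i x
    by_cases hi : i = i0
    · subst hi
      simp only [if_true]
      funext m
      by_cases hm : m = j
      · subst hm
        simp [tr]
      · rw [Function.update_of_ne hm]
        simp [tr, h1 i m (Or.inr hm)]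
    · simp only [if_neg hi, _root_.id]
      funext m
      simp [tr, h1 i m (Or.inl hi)]
  · intro x hx m
    have := hx m
    rw [abs_le] at this
    have a1 := hl1 m
    have a2 := hu1 m
    constructor <;> linarith [this.1, this.2]
  · intro x hx
    have := hx j
    rw [abs_le] at this
    have a1 := hl2 j
    have a2 := hu2 j
    push_cast
    constructor <;> linarith [this.1, this.2]
  · intro i hi x hx
    obtain ⟨m, hm⟩ := hsep i hi
    refine ⟨m, ?_⟩
    have hxm := hx m
    rw [abs_le] at hxm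
    rcases hm with ⟨h3, h4⟩ | ⟨h3, h4⟩
    · left
      have h5 : c i m + hw i m < l m - δ := by
        simp only [hl]
        rcases min_choice (c i0 m) (c' i0 m) with h | h <;> rw [h] <;> linarith
      have h5' : (c i m : ℝ) + hw i m < l m - δ := by exact_mod_cast h5
      linarith [hxm.2]
    · right
      have h5 : u m + δ < c i m - hw i m := by
        simp only [hu]
        rcases max_choice (c i0 m) (c' i0 m) with h | h <;> rw [h] <;> linarith
      have h5' : (u m : ℝ) + δ < c i m - hw i m := by exact_mod_cast h5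
      linarith [hxm.1]

/-- reachability by translations -/
abbrev Reach {n : ℕ} (hw : Fin n → Fin 3 → ℚ) := Relation.ReflTransGen (TStep hw)

lemma Reach.symm {n : ℕ} {hw : Fin n → Fin 3 → ℚ} {c c' : Fin n → Fin 3 → ℚ} (h : Reach hw c c') : Reach hw c' c := by
  induction h with
  | refl => exact Relation.ReflTransGen.refl
  | tail _ h ih => exact Relation.ReflTransGen.head h.symm ih

lemma Reach.moves (hE : ElementaryMove) (hadd : AddClosed) {n : ℕ} {hw : Fin n → Fin 3 → ℚ} (hpos : ∀ i m, 0 < hw i m)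
    {c c' : Fin n → Fin 3 → ℚ} (h : Reach hw c c') : Moves (fun i => box (c i) (hw i)) (tr c c') := by
  induction h with
  | refl =>
    refine (Moves.id _).congr ?_
    intro i x
    funext m
    simp [tr]
  | @tail d e _ hde ih =>
    have h2 := hde.moves hE hpos
    have h3 : Moves (fun i => tr c d i '' box (c i) (hw i)) (tr d e) := by
      simp_rw [tr_image]; exact h2
    refine (ih.comp hadd h3 (fun i => continuous_tr c d i)).congr ?_
    intro i x
    funext m
    simp only [Function.comp, tr]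
    push_cast
    ring


/-- separation with margin `g` -/
def Sep {n : ℕ} (hw : Fin n → Fin 3 → ℚ) (g : ℚ) (c : Fin n → Fin 3 → ℚ) : Prop :=
  ∀ i i', i ≠ i' → ∃ m, hw i m + hw i' m + g ≤ |c i m - c i' m|

/-- small perturbations are reachable -/
lemma perturb {n : ℕ} (hw : Fin n → Fin 3 → ℚ) (g : ℚ) (hg : 0 < g)
    (c c' : Fin n → Fin 3 → ℚ) (hc : Sep hw g c) (hcc : ∀ i m, |c' i m - c i m| ≤ g / 4) : Reach hw c c' := by
  classical
  set mix : Finset (Fin n × Fin 3) → Fin n → Fin 3 → ℚ := fun S i m => if (i, m) ∈ S then c' i m else c i m with hmix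
  have hclose : ∀ S i m, |mix S i m - c i m| ≤ g / 4 := by
    intro S i m
    simp only [hmix]
    split_ifs
    · exact hcc i m
    · simp; positivity
  have key : ∀ S : Finset (Fin n × Fin 3), Reach hw c (mix S) := by
    intro S
    induction S using Finset.induction_on with
    | empty =>
      have : mix ∅ = c := by funext i m; simp [hmix]
      rw [this]
    | insert p S hp ih =>
      refine ih.tail ?_
      refine ⟨p.1, p.2, ?_, ?_⟩
      · intro i m him
        have hne : (i, m) ≠ p := by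
          rintro rfl
          rcases him with h | h
          · exact h rfl
          · exact h rfl
        simp only [hmix, Finset.mem_insert, hne, false_or]
      · intro i hi
        obtain ⟨m, hm⟩ := hc p.1 i (Ne.symm hi)
        refine ⟨m, ?_⟩
        have hsame : mix (insert p S) i m = mix S i m := by
          have hne : (i, m) ≠ p := by
            rintro rfl; exact hi rfl
          simp only [hmix, Finset.mem_insert, hne, false_or]
        have e1 := abs_le.mp (hclose S p.1 m)
        have e2 := abs_le.mp (hclose (insert p S) p.1 m)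
        have e3 := abs_le.mp (hclose S i m)
        rcases le_abs.mp hm with h | h
        · left
          constructor <;> linarith [e1.1, e1.2, e2.1, e2.2, e3.1, e3.2]
        · right
          constructor <;> linarith [e1.1, e1.2, e2.1, e2.2, e3.1, e3.2]
  have := key Finset.univ
  have e : mix Finset.univ = c' := by funext i m; simp [hmix]
  rwa [e] at this

/-- dilation of the centres -/
lemma dilate {n : ℕ} (hw : Fin n → Fin 3 → ℚ) (g : ℚ) (hg : 0 < g)
    (c : Fin n → Fin 3 → ℚ) (hc : Sep hw g c) (R : ℚ) (hR : 1 ≤ R) : Reach hw c (fun i m => R * c i m) := by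
  -- bound on coordinates
  obtain ⟨C, hC0, hC⟩ : ∃ C : ℚ, 0 < C ∧ ∀ i m, |c i m| ≤ C := by
    obtain ⟨δ, hδ, h⟩ := exists_unif (ι := Fin n × Fin 3) (fun p δ => |c p.1 p.2| * δ ≤ 1)
      (by
        intro p a b hab hb
        exact (mul_le_mul_of_nonneg_left hab (abs_nonneg _)).trans hb)
      (by
        intro p
        refine ⟨1 / (|c p.1 p.2| + 1), by positivity, ?_⟩
        rw [mul_one_div, div_le_one (by positivity)]
        linarith)
    refine ⟨1 / δ, by positivity, fun i m => ?_⟩
    rw [le_div_iff₀ hδ]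
    exact h (i, m)
  obtain ⟨N, hN⟩ := exists_nat_ge (4 * (R - 1) * C / g + 1)
  have hN1 : (1 : ℚ) ≤ N := by
    have : 0 ≤ 4 * (R - 1) * C / g := by
      have : 0 ≤ R - 1 := by linarith
      positivity
    linarith
  have hN0 : (0 : ℚ) < N := by linarith
  set s : ℚ := (R - 1) / N with hs
  have hs0 : 0 ≤ s := div_nonneg (by linarith) hN0.le
  have hsC : s * C ≤ g / 4 := by
    have h1 : 4 * (R - 1) * C / g ≤ N := by linarith
    rw [div_le_iff₀ hg] at h1
    rw [hs, div_mul_eq_mul_div, div_le_iff₀ hN0]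
    linarith
  have key : ∀ k : ℕ, Reach hw c (fun i m => (1 + k * s) * c i m) := by
    intro k
    induction k with
    | zero =>
      have : (fun i m => (1 + ((0 : ℕ) : ℚ) * s) * c i m) = c := by funext i m; simp
      rw [this]
    | succ k ih =>
      refine ih.trans (perturb hw g hg _ _ ?_ ?_)
      · intro i i' hii
        obtain ⟨m, hm⟩ := hc i i' hii
        refine ⟨m, hm.trans ?_⟩
        rw [← mul_sub, abs_mul]
        have : 1 ≤ |1 + (k : ℚ) * s| := by
          rw [abs_of_nonneg (by positivity)]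
          have : 0 ≤ (k : ℚ) * s := by positivity
          linarith
        exact le_mul_of_one_le_left (abs_nonneg _) this
      · intro i m
        have : (1 + ((k + 1 : ℕ) : ℚ) * s) * c i m - (1 + (k : ℚ) * s) * c i m = s * c i m := by
          push_cast; ring
        rw [this, abs_mul, abs_of_nonneg hs0]
        exact (mul_le_mul_of_nonneg_left (hC i m) hs0).trans hsC
  have := key N
  have e : (fun i m => (1 + (N : ℚ) * s) * c i m) = (fun i m => R * c i m) := by
    funext i m
    have : 1 + (N : ℚ) * s = R := by rw [hs]; field_simp; ring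
    rw [this]
  rwa [e] at this

/-- the parking slots -/
def slot {n : ℕ} (S w : ℚ) (i : Fin n) (_ : Fin 3) : ℚ := S + (i : ℕ) * w

/-- parking all boxes, one after the other -/
lemma park {n : ℕ} (hw : Fin n → Fin 3 → ℚ) (w : ℚ) (hw2 : ∀ i i' m, hw i m + hw i' m < w) (hw0 : 0 < w)
    (c : Fin n → Fin 3 → ℚ) (S : ℚ) (hS : ∀ i m, c i m + 2 * w ≤ S)
    (h0 : ∀ i i', c i 0 = c i' 0 ∨ 2 * w ≤ |c i 0 - c i' 0|)
    (h1 : ∀ i i', i ≠ i' → c i 0 = c i' 0 → w ≤ |c i 1 - c i' 1| ∨ w ≤ |c i 2 - c i' 2|) :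
    Reach hw c (slot S w) := by
  classical
  set mid : ℕ → Fin n → Fin 3 → ℚ := fun k i m => if (i : ℕ) < k then slot S w i m else c i m with hmid
  have key : ∀ k : ℕ, k ≤ n → Reach hw c (mid k) := by
    intro k
    induction k with
    | zero =>
      intro _
      have : mid 0 = c := by funext i m; simp [hmid]
      rw [this]
    | succ k ih =>
      intro hk
      have ih' := ih (by omega)
      refine ih'.trans ?_
      set i0 : Fin n := ⟨k, by omega⟩ with hi0
      have hi0v : (i0 : ℕ) = k := rfl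
      -- intermediate configurations
      set σ : ℚ := S + k * w with hσ
      set base : (Fin 3 → ℚ) → Fin n → Fin 3 → ℚ := fun p i m => if i = i0 then p m else mid k i m with hbase
      have hb0 : base (c i0) = mid k := by
        funext i m
        simp only [hbase, hmid]
        by_cases hi : i = i0
        · subst hi; simp [hi0]
        · simp [hi]
      have hb4 : base (fun _ => σ) = mid (k + 1) := by
        funext i m
        simp only [hbase, hmid]
        by_cases hi : i = i0
        · subst hi; simp [hi0, slot, hσ]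
        · have hne : (i : ℕ) ≠ k := fun h => hi (Fin.ext h)
          simp only [hi, if_false]
          by_cases hlt : (i : ℕ) < k
          · rw [if_pos hlt, if_pos (by omega)]
          · rw [if_neg hlt, if_neg (by omega)]
      -- general single-coordinate step
      have hstep : ∀ (p q : Fin 3 → ℚ) (j : Fin 3), (∀ m, m ≠ j → q m = p m) →
          (∀ i, i ≠ i0 → ∃ m, (w ≤ p m - mid k i m ∧ w ≤ q m - mid k i m) ∨ (w ≤ mid k i m - p m ∧ w ≤ mid k i m - q m)) →
          Reach hw (base p) (base q) := by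
        intro p q j hpq hsep
        apply Relation.ReflTransGen.single
        refine ⟨i0, j, ?_, ?_⟩
        · intro i m him
          simp only [hbase]
          by_cases hi : i = i0
          · subst hi
            simp only [if_true]
            exact hpq m (him.resolve_left (fun h => h rfl))
          · simp [hi]
        · intro i hi
          obtain ⟨m, hm⟩ := hsep i hi
          refine ⟨m, ?_⟩
          have e1 : base p i0 m = p m := by simp [hbase]
          have e2 : base q i0 m = q m := by simp [hbase]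
          have e3 : base p i m = mid k i m := by simp [hbase, hi]
          rw [e1, e2, e3]
          have := hw2 i0 i m
          rcases hm with ⟨a, b⟩ | ⟨a, b⟩
          · exact Or.inl ⟨by linarith, by linarith⟩
          · exact Or.inr ⟨by linarith, by linarith⟩
      have hkw : (0 : ℚ) ≤ k * w := by positivity
      -- slots of the parked ones
      have hslot : ∀ i : Fin n, (i : ℕ) < k → ∀ m, mid k i m = S + (i : ℕ) * w := by
        intro i hi m; simp [hmid, hi, slot]
      have hunp : ∀ i : Fin n, ¬ (i : ℕ) < k → ∀ m, mid k i m = c i m := by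
        intro i hi m; simp [hmid, hi]
      have hS0 := hS i0
      rw [← hb0, ← hb4]
      -- the four steps
      refine ((hstep (c i0) ![c i0 0 + w, c i0 1, c i0 2] 0 ?_ ?_).trans
        (hstep ![c i0 0 + w, c i0 1, c i0 2] ![c i0 0 + w, σ, c i0 2] 1 ?_ ?_)).trans
        ((hstep ![c i0 0 + w, σ, c i0 2] ![σ, σ, c i0 2] 0 ?_ ?_).trans
        (hstep ![σ, σ, c i0 2] (fun _ => σ) 2 ?_ ?_))
      · intro m hm; fin_cases m
        · exact absurd rfl hm
        · simp
        · simp
      · intro i hi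
        by_cases hik : (i : ℕ) < k
        · refine ⟨0, Or.inr ?_⟩
          rw [hslot i hik]
          have := hS i0 0
          have h5 : (0 : ℚ) ≤ (i : ℕ) * w := by positivity
          simp only [Matrix.cons_val_zero]
          constructor <;> linarith
        · rw [show mid k i = c i from funext (hunp i hik)]
          rcases h0 i0 i with h | h
          · rcases h1 i0 i (Ne.symm hi) h with h' | h'
            · rcases le_abs.mp h' with h'' | h''
              · exact ⟨1, Or.inl ⟨h'', by simpa using h''⟩⟩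
              · exact ⟨1, Or.inr ⟨by linarith, by simp; linarith⟩⟩
            · rcases le_abs.mp h' with h'' | h''
              · exact ⟨2, Or.inl ⟨h'', by simpa using h''⟩⟩
              · exact ⟨2, Or.inr ⟨by linarith, by simp; linarith⟩⟩
          · rcases le_abs.mp h with h' | h'
            · exact ⟨0, Or.inl ⟨by linarith, by simp; linarith⟩⟩
            · exact ⟨0, Or.inr ⟨by linarith, by simp; linarith⟩⟩
      · intro m hm; fin_cases m
        · simp
        · exact absurd rfl hm
        · simp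
      · intro i hi
        refine ⟨0, ?_⟩
        simp only [Matrix.cons_val_zero]
        by_cases hik : (i : ℕ) < k
        · right
          rw [hslot i hik]
          have := hS i0 0
          have h5 : (0 : ℚ) ≤ (i : ℕ) * w := by positivity
          constructor <;> linarith
        · rw [hunp i hik]
          rcases h0 i0 i with h | h
          · left; rw [h]; constructor <;> linarith
          · rcases le_abs.mp h with h' | h'
            · left; constructor <;> linarith
            · right; constructor <;> linarith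
      · intro m hm; fin_cases m
        · exact absurd rfl hm
        · simp
        · simp
      · intro i hi
        refine ⟨1, Or.inl ?_⟩
        simp only [Matrix.cons_val_one, Matrix.cons_val_zero]
        by_cases hik : (i : ℕ) < k
        · rw [hslot i hik, hσ]
          have h5 : ((i : ℕ) : ℚ) + 1 ≤ k := by exact_mod_cast hik
          constructor <;> nlinarith
        · rw [hunp i hik, hσ]
          have := hS i 1
          constructor <;> linarith
      · intro m hm; fin_cases m
        · simp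
        · simp
        · exact absurd rfl hm
      · intro i hi
        refine ⟨1, Or.inl ?_⟩
        simp only [Matrix.cons_val_one, Matrix.cons_val_zero]
        by_cases hik : (i : ℕ) < k
        · rw [hslot i hik, hσ]
          have h5 : ((i : ℕ) : ℚ) + 1 ≤ k := by exact_mod_cast hik
          constructor <;> nlinarith
        · rw [hunp i hik, hσ]
          have := hS i 1
          constructor <;> linarith
  have := key n le_rfl
  have e : mid n = slot S w := by
    funext i m; simp [hmid]
  rwa [e] at this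


/-! ### Scaling by shears -/

def cube (c : Fin 3 → ℚ) (r : ℚ) : Set (Fin 3 → ℝ) := {x | ∀ m, |x m - (c m : ℝ)| ≤ (r : ℝ)}

/-- shear about the centre `c` -/
noncomputable def sh (i j : Fin 3) (σ : ℚ) (c : Fin 3 → ℚ) (x : Fin 3 → ℝ) : Fin 3 → ℝ :=
  Function.update x i (x i + (σ : ℝ) * (x j - (c j : ℝ)))

lemma continuous_sh (i j : Fin 3) (σ : ℚ) (c : Fin 3 → ℚ) : Continuous (sh i j σ c) := by
  unfold sh
  exact Continuous.update continuous_id i (by fun_prop)

/-- moving only the set with index `i0` (the others given by `K`) -/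
def Mv {n : ℕ} (K : Fin n → Set (Fin 3 → ℝ)) (i0 : Fin n) (X : Set (Fin 3 → ℝ)) (f : (Fin 3 → ℝ) → (Fin 3 → ℝ)) : Prop :=
  Moves (Function.update K i0 X) (fun i => if i = i0 then f else _root_.id)

lemma Mv.comp (hadd : AddClosed) {n : ℕ} {K : Fin n → Set (Fin 3 → ℝ)} {i0 : Fin n} {X : Set (Fin 3 → ℝ)}
    {f g : (Fin 3 → ℝ) → (Fin 3 → ℝ)} (hf : Mv K i0 X f) (hg : Mv K i0 (f '' X) g) (hc : Continuous f) :
    Mv K i0 X (g ∘ f) := by
  have h2 : Moves (fun i => (fun i => if i = i0 then f else _root_.id) i '' (Function.update K i0 X) i)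
      (fun i => if i = i0 then g else _root_.id) := by
    have : (fun i => (fun i => if i = i0 then f else _root_.id) i '' (Function.update K i0 X) i) =
        Function.update K i0 (f '' X) := by
      funext i
      by_cases hi : i = i0
      · subst hi; simp
      · simp [hi]
    rw [this]; exact hg
  refine (Moves.comp hadd hf h2 ?_).congr ?_
  · intro i
    by_cases hi : i = i0
    · simp only [hi, if_true]; exact hc
    · simp only [if_neg hi]; exact continuous_id
  · intro i x
    by_cases hi : i = i0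
    · simp [hi]
    · simp [hi]

/-- the other sets avoid the cube of radius `T` -/
def Out {n : ℕ} (K : Fin n → Set (Fin 3 → ℝ)) (i0 : Fin n) (c : Fin 3 → ℚ) (T : ℚ) : Prop :=
  ∀ i, i ≠ i0 → ∀ x ∈ K i, ∃ m, (T : ℝ) < |x m - (c m : ℝ)|

lemma sh_image (i j : Fin 3) (σ : ℚ) (c : Fin 3 → ℚ) (r : ℚ) (hr : 0 ≤ r) {X : Set (Fin 3 → ℝ)} (hX : X ⊆ cube c r) :
    sh i j σ c '' X ⊆ cube c ((1 + |σ|) * r) := by
  rintro _ ⟨x, hx, rfl⟩ m
  have hxm := hX hx m
  have hrr : (0 : ℝ) ≤ r := by exact_mod_cast hr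
  have hle : (r : ℝ) ≤ ((1 + |σ|) * r : ℚ) := by
    push_cast
    have : 0 ≤ |(σ : ℝ)| := abs_nonneg _
    nlinarith
  by_cases hm : m = i
  · subst hm
    simp only [sh, Function.update_self]
    have hxj := hX hx j
    rw [show x m + (σ : ℝ) * (x j - (c j : ℝ)) - (c m : ℝ) = (x m - (c m : ℝ)) + (σ : ℝ) * (x j - (c j : ℝ)) by ring]
    refine (abs_add_le _ _).trans ?_
    rw [abs_mul]
    push_cast
    have := mul_le_mul_of_nonneg_left hxj (abs_nonneg (σ : ℝ))
    linarith
  · simp only [sh, Function.update_of_ne hm]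
    exact hxm.trans hle

lemma sh_mv (hE : ElementaryMove) {n : ℕ} {K : Fin n → Set (Fin 3 → ℝ)} {i0 : Fin n} {X : Set (Fin 3 → ℝ)}
    (i j : Fin 3) (hij : i ≠ j) (σ : ℚ) (c : Fin 3 → ℚ) (r T : ℚ) (hr : 0 ≤ r) (hX : X ⊆ cube c r)
    (hT : (1 + |σ|) * r < T) (hout : Out K i0 c T) : Mv K i0 X (sh i j σ c) := by
  set T' : ℚ := ((1 + |σ|) * r + T) / 2 with hT'
  have hσ : 0 ≤ |σ| := abs_nonneg _
  have h1 : (1 + |σ|) * r < T' := by rw [hT']; linarith
  have h2 : T' < T := by rw [hT']; linarith
  have h0 : r ≤ (1 + |σ|) * r := by nlinarith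
  have hT'0 : 0 < T' := by linarith
  have h1r : (((1 + |σ|) * r : ℚ) : ℝ) < T' := by exact_mod_cast h1
  have h0r : (r : ℝ) < T' := by exact_mod_cast (lt_of_le_of_lt h0 h1)
  have hst := step hE (Function.update K i0 X) i0 i j hij σ (-(σ * c j)) (fun m => c m - T') (fun m => c m + T')
    (fun m => by linarith) (T - T') (by linarith) ?_ ?_ ?_
  · refine hst.congr ?_
    intro i' x
    by_cases hi : i' = i0
    · subst hi
      simp only [if_true, sh]
      congr 1
      push_cast; ring
    · simp [hi]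
  · intro x hx m
    rw [Function.update_self] at hx
    have := hX hx m
    rw [abs_le] at this
    push_cast
    constructor <;> linarith [this.1, this.2]
  · intro x hx
    rw [Function.update_self] at hx
    have := sh_image i j σ c r hr hX (Set.mem_image_of_mem _ hx) i
    simp only [sh, Function.update_self] at this
    rw [abs_le] at this
    push_cast
    constructor <;> linarith [this.1, this.2]
  · intro i' hi x hx
    rw [Function.update_of_ne hi] at hx
    obtain ⟨m, hm⟩ := hout i' hi x hx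
    refine ⟨m, ?_⟩
    push_cast
    rcases lt_abs.mp hm with h | h
    · right; linarith
    · left; linarith

/-- scaling by `lam` along axis `i` and `1 / lam` along axis `j` -/
noncomputable def psc (i j : Fin 3) (lam : ℚ) (c : Fin 3 → ℚ) (x : Fin 3 → ℝ) : Fin 3 → ℝ := fun m =>
  if m = i then (c i : ℝ) + lam * (x i - c i) else if m = j then (c j : ℝ) + (x j - c j) / lam else x m

lemma psc_eq (i j : Fin 3) (hij : i ≠ j) (lam : ℚ) (hl : 0 < lam) (c : Fin 3 → ℚ) :
    sh i j (-lam) c ∘ sh j i (1 / lam - 1) c ∘ sh i j 1 c ∘ sh j i (lam - 1) c = psc i j lam c := by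
  have hlr : (lam : ℝ) ≠ 0 := by exact_mod_cast hl.ne'
  funext x m
  by_cases h1 : m = i
  · subst h1
    simp [sh, psc, hij, Ne.symm hij]
    field_simp
    ring
  · by_cases h2 : m = j
    · subst h2
      simp [sh, psc, hij, Ne.symm hij]
      field_simp
      ring
    · simp [sh, psc, h1, h2]

/-- growth factor -/
def gf (lam : ℚ) : ℚ := (1 + lam) * ((1 + |1 / lam - 1|) * ((1 + 1) * (1 + |lam - 1|)))

lemma gf_ge_one (lam : ℚ) (hl : 0 < lam) : 1 ≤ gf lam := by
  unfold gf
  have h1 : 0 ≤ |1 / lam - 1| := abs_nonneg _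
  have h2 : 0 ≤ |lam - 1| := abs_nonneg _
  have a1 : 1 ≤ (1 + 1) * (1 + |lam - 1|) := by linarith
  have a2 : 1 ≤ (1 + |1 / lam - 1|) * ((1 + 1) * (1 + |lam - 1|)) := one_le_mul_of_one_le_of_one_le (by linarith) a1
  exact one_le_mul_of_one_le_of_one_le (by linarith) a2

lemma psc_mv (hE : ElementaryMove) (hadd : AddClosed) {n : ℕ} {K : Fin n → Set (Fin 3 → ℝ)} {i0 : Fin n}
    {X : Set (Fin 3 → ℝ)} (i j : Fin 3) (hij : i ≠ j) (lam : ℚ) (hl : 0 < lam) (c : Fin 3 → ℚ) (r T : ℚ) (hr : 0 ≤ r)
    (hX : X ⊆ cube c r) (hT : gf lam * r < T) (hout : Out K i0 c T) :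
    Mv K i0 X (psc i j lam c) ∧ psc i j lam c '' X ⊆ cube c (gf lam * r) := by
  have h1 : 0 ≤ |1 / lam - 1| := abs_nonneg _
  have h2 : 0 ≤ |lam - 1| := abs_nonneg _
  set r1 : ℚ := (1 + |lam - 1|) * r with hr1
  set r2 : ℚ := (1 + |(1 : ℚ)|) * r1 with hr2
  set r3 : ℚ := (1 + |1 / lam - 1|) * r2 with hr3
  set r4 : ℚ := (1 + |(-lam)|) * r3 with hr4
  have e4 : r4 = gf lam * r := by
    rw [hr4, hr3, hr2, hr1, gf, abs_neg, abs_of_pos hl, abs_one]; ring
  have p1 : 0 ≤ r1 := by positivity
  have p2 : 0 ≤ r2 := by positivity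
  have p3 : 0 ≤ r3 := by positivity
  have q2 : r1 ≤ r2 := by rw [hr2, abs_one]; linarith
  have q3 : r2 ≤ r3 := by rw [hr3]; nlinarith
  have q4 : r3 ≤ r4 := by rw [hr4, abs_neg, abs_of_pos hl]; nlinarith
  have i1 := sh_image j i (lam - 1) c r hr hX
  have i2 := sh_image i j 1 c r1 p1 i1
  have i3 := sh_image j i (1 / lam - 1) c r2 p2 i2
  have i4 := sh_image i j (-lam) c r3 p3 i3
  have m1 : Mv K i0 X (sh j i (lam - 1) c) := sh_mv hE j i (Ne.symm hij) _ c r T hr hX (by rw [← hr1]; linarith) hout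
  have m2 := sh_mv hE i j hij 1 c r1 T p1 i1 (by rw [← hr2]; linarith) hout
  have m3 := sh_mv hE j i (Ne.symm hij) (1 / lam - 1) c r2 T p2 i2 (by rw [← hr3]; linarith) hout
  have m4 := sh_mv hE i j hij (-lam) c r3 T p3 i3 (by rw [← hr4]; linarith) hout
  have c1 := continuous_sh j i (lam - 1) c
  have c2 := continuous_sh i j 1 c
  have c3 := continuous_sh j i (1 / lam - 1) c
  constructor
  · rw [← psc_eq i j hij lam hl c]
    have m12 := m1.comp hadd m2 c1
    have m123 := Mv.comp hadd (g := sh j i (1 / lam - 1) c) m12 (by rw [Set.image_comp]; exact m3) (c2.comp c1)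
    exact Mv.comp hadd (g := sh i j (-lam) c) m123 (by rw [Set.image_comp, Set.image_comp]; exact m4) (c3.comp (c2.comp c1))
  · rw [← psc_eq i j hij lam hl c, Set.image_comp, Set.image_comp, Set.image_comp, ← e4]
    exact i4

/-- diagonal scaling about `c` -/
noncomputable def dsc (lam : Fin 3 → ℚ) (c : Fin 3 → ℚ) (x : Fin 3 → ℝ) : Fin 3 → ℝ := fun m =>
  (c m : ℝ) + lam m * (x m - c m)

lemma continuous_dsc (lam c : Fin 3 → ℚ) : Continuous (dsc lam c) := by unfold dsc; fun_prop

lemma dsc_eq (lam c : Fin 3 → ℚ) (hl : ∀ m, 0 < lam m) (h1 : lam 0 * lam 1 * lam 2 = 1) :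
    psc 1 2 (lam 0 * lam 1) c ∘ psc 0 1 (lam 0) c = dsc lam c := by
  have h0 : (lam 0 : ℝ) ≠ 0 := by exact_mod_cast (hl 0).ne'
  have h1' : (lam 1 : ℝ) ≠ 0 := by exact_mod_cast (hl 1).ne'
  have h2 : (lam 2 : ℝ) = 1 / (lam 0 * lam 1) := by
    rw [eq_div_iff (mul_ne_zero h0 h1')]
    have : ((lam 0 * lam 1 * lam 2 : ℚ) : ℝ) = 1 := by rw [h1]; norm_num
    push_cast at this
    linarith
  funext x m
  fin_cases m
  · simp [psc, dsc]
  · simp [psc, dsc]
    field_simp
  · simp [psc, dsc]
    rw [h2]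
    field_simp

lemma dsc_mv (hE : ElementaryMove) (hadd : AddClosed) {n : ℕ} {K : Fin n → Set (Fin 3 → ℝ)} {i0 : Fin n}
    {X : Set (Fin 3 → ℝ)} (lam : Fin 3 → ℚ) (hl : ∀ m, 0 < lam m) (h1 : lam 0 * lam 1 * lam 2 = 1) (c : Fin 3 → ℚ)
    (r T : ℚ) (hr : 0 ≤ r) (hX : X ⊆ cube c r) (hT : gf (lam 0 * lam 1) * (gf (lam 0) * r) < T) (hout : Out K i0 c T) :
    Mv K i0 X (dsc lam c) := by
  have g1 := gf_ge_one (lam 0) (hl 0)
  have g2 := gf_ge_one (lam 0 * lam 1) (mul_pos (hl 0) (hl 1))
  have hr' : 0 ≤ gf (lam 0) * r := by positivity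
  obtain ⟨m1, i1⟩ := psc_mv hE hadd (K := K) (i0 := i0) 0 1 (by decide) (lam 0) (hl 0) c r T hr hX (by nlinarith) hout
  obtain ⟨m2, -⟩ := psc_mv hE hadd (K := K) (i0 := i0) 1 2 (by decide) (lam 0 * lam 1) (mul_pos (hl 0) (hl 1)) c _ T hr' i1 hT hout
  rw [← dsc_eq lam c hl h1]
  refine m1.comp hadd m2 ?_
  unfold psc
  apply continuous_pi
  intro m
  split_ifs
  · fun_prop
  · fun_prop
  · fun_prop

lemma dsc_box (h k c : Fin 3 → ℚ) (hh : ∀ m, 0 < h m) (hk : ∀ m, 0 < k m) :
    dsc (fun m => k m / h m) c '' box c h = box c k := by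
  ext x
  constructor
  · rintro ⟨y, hy, rfl⟩ m
    have := hy m
    have h1 : (0 : ℝ) < h m := by exact_mod_cast hh m
    have h2 : (0 : ℝ) < k m := by exact_mod_cast hk m
    simp only [dsc]
    push_cast
    rw [add_sub_cancel_left, abs_mul, abs_of_pos (by positivity)]
    calc (k m : ℝ) / h m * |y m - c m| ≤ (k m : ℝ) / h m * h m := mul_le_mul_of_nonneg_left this (by positivity)
      _ = k m := by field_simp
  · intro hx
    refine ⟨fun m => (c m : ℝ) + (h m / k m : ℝ) * (x m - c m), ?_, ?_⟩
    · intro m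
      have := hx m
      have h1 : (0 : ℝ) < h m := by exact_mod_cast hh m
      have h2 : (0 : ℝ) < k m := by exact_mod_cast hk m
      rw [add_sub_cancel_left, abs_mul, abs_of_pos (by positivity)]
      calc (h m : ℝ) / k m * |x m - c m| ≤ (h m : ℝ) / k m * k m := mul_le_mul_of_nonneg_left this (by positivity)
        _ = h m := by field_simp
    · funext m
      have h1 : (h m : ℝ) ≠ 0 := by exact_mod_cast (hh m).ne'
      have h2 : (k m : ℝ) ≠ 0 := by exact_mod_cast (hk m).ne'
      simp only [dsc]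
      push_cast
      field_simp
      ring

/-- rescaling of all boxes, one after the other, at well separated centres -/
lemma scale_all (hE : ElementaryMove) (hadd : AddClosed) {n : ℕ} (c h k : Fin n → Fin 3 → ℚ)
    (hh : ∀ i m, 0 < h i m) (hk : ∀ i m, 0 < k i m) (hvol : ∀ i, ∏ j : Fin 3, k i j / h i j = 1)
    (ρ T : ℚ) (hρ : 0 ≤ ρ) (hhρ : ∀ i m, h i m ≤ ρ) (hkρ : ∀ i m, k i m ≤ ρ)
    (hT : ∀ i, gf (k i 0 / h i 0 * (k i 1 / h i 1)) * (gf (k i 0 / h i 0) * ρ) < T)
    (hsep : ∀ i i', i ≠ i' → T + ρ < |c i 0 - c i' 0|) :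
    Moves (fun i => box (c i) (h i)) (fun i => dsc (fun m => k i m / h i m) (c i)) := by
  classical
  set hm : ℕ → Fin n → Fin 3 → ℚ := fun t i m => if (i : ℕ) < t then k i m else h i m with hhm
  set A : ℕ → Fin n → (Fin 3 → ℝ) → (Fin 3 → ℝ) := fun t i => if (i : ℕ) < t then dsc (fun m => k i m / h i m) (c i) else _root_.id with hA
  have hAimg : ∀ t i, A t i '' box (c i) (h i) = box (c i) (hm t i) := by
    intro t i
    by_cases hi : (i : ℕ) < t
    · simp only [hA, hhm, if_pos hi]
      exact dsc_box _ _ _ (hh i) (hk i)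
    · simp only [hA, hhm, if_neg hi]
      simp
  have hmρ : ∀ t i m, hm t i m ≤ ρ := by
    intro t i m
    simp only [hhm]
    split_ifs
    · exact hkρ i m
    · exact hhρ i m
  have key : ∀ t : ℕ, t ≤ n → Moves (fun i => box (c i) (h i)) (A t) := by
    intro t
    induction t with
    | zero =>
      intro _
      refine (Moves.id _).congr ?_
      intro i x; simp [hA]
    | succ t ih =>
      intro ht
      have ih' := ih (by omega)
      set i0 : Fin n := ⟨t, by omega⟩ with hi0
      have hone : Mv (fun i => box (c i) (hm t i)) i0 (box (c i0) (hm t i0)) (dsc (fun m => k i0 m / h i0 m) (c i0)) := by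
        apply dsc_mv hE hadd (fun m => k i0 m / h i0 m) (fun m => div_pos (hk i0 m) (hh i0 m)) ?_ (c i0) ρ T hρ ?_ (hT i0) ?_
        · have := hvol i0
          rw [Fin.prod_univ_three] at this
          exact this
        · intro x hx m
          have h1 := hx m
          have h2 : (hm t i0 m : ℝ) ≤ ρ := by exact_mod_cast hmρ t i0 m
          exact h1.trans h2
        · intro i hi x hx
          refine ⟨0, ?_⟩
          have h1 := hx 0
          have h2 : (hm t i 0 : ℝ) ≤ ρ := by exact_mod_cast hmρ t i 0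
          have h3 : (T : ℝ) + ρ < |(c i 0 : ℝ) - c i0 0| := by exact_mod_cast hsep i i0 hi
          have h4 : |(c i 0 : ℝ) - c i0 0| ≤ |x 0 - c i 0| + |x 0 - c i0 0| := by
            have := abs_sub_abs_le_abs_sub (0:ℝ) 0
            rw [show (c i 0 : ℝ) - c i0 0 = -(x 0 - c i 0) + (x 0 - c i0 0) by ring]
            refine (abs_add_le _ _).trans ?_
            rw [abs_neg]
          linarith
      have hone' : Moves (fun i => A t i '' box (c i) (h i)) (fun i => if i = i0 then dsc (fun m => k i0 m / h i0 m) (c i0) else _root_.id) := by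
        have e : (fun i => A t i '' box (c i) (h i)) = Function.update (fun i => box (c i) (hm t i)) i0 (box (c i0) (hm t i0)) := by
          funext i
          rw [hAimg]
          by_cases hi : i = i0
          · subst hi; simp
          · rw [Function.update_of_ne hi]
        rw [e]; exact hone
      refine (ih'.comp hadd hone' ?_).congr ?_
      · intro i
        simp only [hA]
        split_ifs
        · exact continuous_dsc _ _
        · exact continuous_id
      · intro i x
        simp only [Function.comp, hA]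
        by_cases hi : i = i0
        · subst hi
          simp [hi0]
        · have hne : (i : ℕ) ≠ t := fun h => hi (Fin.ext h)
          rw [if_neg hi]
          simp only [_root_.id]
          by_cases hlt : (i : ℕ) < t
          · rw [if_pos hlt, if_pos (by omega)]
          · rw [if_neg hlt, if_neg (by omega)]
  refine (key n le_rfl).congr ?_
  intro i x
  simp [hA]

/-! ### Final assembly -/

lemma sep_of_disjoint {n : ℕ} (a h : Fin n → Fin 3 → ℚ) (hh : ∀ i j, 0 < h i j)
    (ha : Pairwise fun i i' => Disjoint (box (a i) (h i)) (box (a i') (h i'))) : ∃ g : ℚ, 0 < g ∧ Sep h g a := by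
  have h1 : ∀ i i', i ≠ i' → ∃ m, h i m + h i' m < |a i m - a i' m| := by
    intro i i' hii
    by_contra hcon
    push Not at hcon
    have hd : Disjoint (box (a i) (h i)) (box (a i') (h i')) := ha hii
    rw [Set.disjoint_left] at hd
    refine hd (a := fun m => (a i m : ℝ) + (a i' m - a i m) * (h i m / (h i m + h i' m))) ?_ ?_
    · intro m
      have p1 : (0 : ℝ) < h i m := by exact_mod_cast hh i m
      have p2 : (0 : ℝ) < h i' m := by exact_mod_cast hh i' m
      have p3 : |(a i m : ℝ) - a i' m| ≤ h i m + h i' m := by exact_mod_cast hcon m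
      rw [add_sub_cancel_left, abs_mul, abs_of_pos (show (0:ℝ) < h i m / (h i m + h i' m) by positivity), abs_sub_comm]
      rw [mul_div_assoc', div_le_iff₀ (by positivity), mul_comm]
      exact mul_le_mul_of_nonneg_left p3 p1.le
    · intro m
      have p1 : (0 : ℝ) < h i m := by exact_mod_cast hh i m
      have p2 : (0 : ℝ) < h i' m := by exact_mod_cast hh i' m
      have p3 : |(a i m : ℝ) - a i' m| ≤ h i m + h i' m := by exact_mod_cast hcon m
      have e : (a i m : ℝ) + (a i' m - a i m) * (h i m / (h i m + h i' m)) - a i' m =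
          (a i m - a i' m) * (h i' m / (h i m + h i' m)) := by
        field_simp; ring
      rw [e, abs_mul, abs_of_pos (show (0:ℝ) < h i' m / (h i m + h i' m) by positivity)]
      rw [mul_div_assoc', div_le_iff₀ (by positivity), mul_comm]
      exact mul_le_mul_of_nonneg_left p3 p2.le
  obtain ⟨g, hg, hs⟩ := exists_unif (ι := Fin n × Fin n)
    (fun p g => p.1 ≠ p.2 → ∃ m, h p.1 m + h p.2 m + g ≤ |a p.1 m - a p.2 m|)
    (by
      intro p x y hxy hy hne
      obtain ⟨m, hm⟩ := hy hne
      exact ⟨m, by linarith⟩)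
    (by
      intro p
      by_cases hp : p.1 = p.2
      · exact ⟨1, one_pos, fun h => absurd hp h⟩
      · obtain ⟨m, hm⟩ := h1 p.1 p.2 hp
        exact ⟨|a p.1 m - a p.2 m| - (h p.1 m + h p.2 m), by linarith, fun _ => ⟨m, by linarith⟩⟩)
  exact ⟨g, hg, fun i i' hii => hs (i, i') hii⟩

lemma exists_bound {ι : Type*} [Fintype ι] (f : ι → ℚ) : ∃ C : ℚ, 0 < C ∧ ∀ i, f i ≤ C := by
  obtain ⟨δ, hδ, h⟩ := exists_unif (ι := ι) (fun i δ => |f i| * δ ≤ 1)
    (by
      intro p a b hab hb
      exact (mul_le_mul_of_nonneg_left hab (abs_nonneg _)).trans hb)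
    (by
      intro p
      refine ⟨1 / (|f p| + 1), by positivity, ?_⟩
      rw [mul_one_div, div_le_one (by positivity)]
      linarith)
  refine ⟨1 / δ, by positivity, fun i => ?_⟩
  rw [le_div_iff₀ hδ]
  have := mul_le_mul_of_nonneg_right (le_abs_self (f i)) hδ.le
  exact this.trans (h i)

/-- from a separated configuration to the parking slots -/
lemma to_slots {n : ℕ} (hw : Fin n → Fin 3 → ℚ) (hpos : ∀ i m, 0 < hw i m) (g : ℚ) (hg : 0 < g)
    (c : Fin n → Fin 3 → ℚ) (hc : Sep hw g c) (w : ℚ) (hw0 : 0 < w) (hw2 : ∀ i i' m, hw i m + hw i' m < w) :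
    ∃ S₀ : ℚ, ∀ S, S₀ ≤ S → Reach hw c (slot S w) := by
  obtain ⟨η, hη, hηs⟩ := exists_unif (ι := Fin n × Fin n)
    (fun p η => c p.1 0 = c p.2 0 ∨ η ≤ |c p.1 0 - c p.2 0|)
    (by
      intro p x y hxy hy
      rcases hy with h | h
      · exact Or.inl h
      · exact Or.inr (hxy.trans h))
    (by
      intro p
      by_cases hp : c p.1 0 = c p.2 0
      · exact ⟨1, one_pos, Or.inl hp⟩
      · exact ⟨|c p.1 0 - c p.2 0|, abs_pos.mpr (sub_ne_zero.mpr hp), Or.inr le_rfl⟩)
  set R : ℚ := 1 + 2 * w / η + w / g with hR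
  have hR1 : 1 ≤ R := by
    have : 0 ≤ 2 * w / η + w / g := by positivity
    linarith
  have hRη : 2 * w ≤ R * η := by
    have : R * η = η + 2 * w + w / g * η := by rw [hR]; field_simp
    rw [this]
    have : 0 ≤ w / g * η := by positivity
    linarith
  have hRg : w ≤ R * g := by
    have : R * g = g + 2 * w / η * g + w := by rw [hR]; field_simp
    rw [this]
    have : 0 ≤ 2 * w / η * g := by positivity
    linarith
  obtain ⟨C, hC, hCb⟩ := exists_bound (ι := Fin n × Fin 3) (fun p => R * c p.1 p.2)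
  refine ⟨C + 2 * w, fun S hS => ?_⟩
  refine (dilate hw g hg c hc R hR1).trans (park hw w hw2 hw0 _ S ?_ ?_ ?_)
  · intro i m
    have := hCb (i, m)
    simp only at this
    linarith
  · intro i i'
    rcases hηs (i, i') with h | h
    · left; simp only at h; rw [h]
    · right
      simp only at h
      rw [← mul_sub, abs_mul, abs_of_pos (by linarith : 0 < R)]
      exact hRη.trans (mul_le_mul_of_nonneg_left h (by linarith))
  · intro i i' hii h0
    obtain ⟨m, hm⟩ := hc i i' hii
    have hR0 : 0 < R := by linarith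
    have hgm : g ≤ |c i m - c i' m| := by
      have := hpos i m
      have := hpos i' m
      linarith
    have hfin : w ≤ |R * c i m - R * c i' m| := by
      rw [← mul_sub, abs_mul, abs_of_pos hR0]
      exact hRg.trans (mul_le_mul_of_nonneg_left hgm hR0.le)
    fin_cases m
    · exfalso
      simp only at hfin
      have : R * c i 0 - R * c i' 0 = 0 := by linarith
      have h' : |R * c i 0 - R * c i' 0| = 0 := by rw [this, abs_zero]
      have hfin' : w ≤ |R * c i 0 - R * c i' 0| := hfin
      linarith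
    · exact Or.inl hfin
    · exact Or.inr hfin

theorem plan (hE : ElementaryMove) (hadd : AddClosed)
    (n : ℕ) (a b h k : Fin n → Fin 3 → ℚ)
    (hh : ∀ i j, 0 < h i j) (hk : ∀ i j, 0 < k i j)
    (ha : Pairwise fun i i' => Disjoint (box (a i) (h i)) (box (a i') (h i')))
    (hb : Pairwise fun i i' => Disjoint (box (b i) (k i)) (box (b i') (k i')))
    (hvol : ∀ i, ∏ j : Fin 3, k i j / h i j = 1) :
    Moves (fun i => box (a i) (h i)) (fun i x j => (b i j : ℝ) + ((k i j / h i j : ℚ) : ℝ) * (x j - (a i j : ℝ))) := by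
  obtain ⟨ga, hga, hsa⟩ := sep_of_disjoint a h hh ha
  obtain ⟨gb, hgb, hsb⟩ := sep_of_disjoint b k hk hb
  obtain ⟨ρ₁, hρ₁, hb1⟩ := exists_bound (ι := Fin n × Fin 3) (fun p => h p.1 p.2)
  obtain ⟨ρ₂, hρ₂, hb2⟩ := exists_bound (ι := Fin n × Fin 3) (fun p => k p.1 p.2)
  set ρ : ℚ := ρ₁ + ρ₂ with hρ
  have hhρ : ∀ i m, h i m ≤ ρ := fun i m => by have := hb1 (i, m); simp only at this; linarith
  have hkρ : ∀ i m, k i m ≤ ρ := fun i m => by have := hb2 (i, m); simp only at this; linarith
  have hρ0 : 0 < ρ := by positivity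
  obtain ⟨T₀, hT₀, hbT⟩ := exists_bound (ι := Fin n)
    (fun i => gf (k i 0 / h i 0 * (k i 1 / h i 1)) * (gf (k i 0 / h i 0) * ρ))
  set T : ℚ := T₀ + 1 with hT
  set w : ℚ := T + 3 * ρ with hw
  have hw0 : 0 < w := by positivity
  obtain ⟨Sa, hSa⟩ := to_slots h hh ga hga a hsa w hw0 (fun i i' m => by
    have := hhρ i m
    have := hhρ i' m
    linarith)
  obtain ⟨Sb, hSb⟩ := to_slots k hk gb hgb b hsb w hw0 (fun i i' m => by
    have := hkρ i m
    have := hkρ i' m
    linarith)
  set S : ℚ := max Sa Sb with hS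
  have r1 := (hSa S (le_max_left _ _)).moves hE hadd hh
  have r2 := (hSb S (le_max_right _ _)).symm.moves hE hadd hk
  have r3 := scale_all hE hadd (slot S w) h k hh hk hvol ρ T hρ0.le hhρ hkρ (fun i => by
      have := hbT i
      linarith) (by
    intro i i' hii
    have hne : (i : ℕ) ≠ i' := fun h => hii (Fin.ext h)
    have h1 : (1 : ℚ) ≤ |((i : ℕ) : ℚ) - ((i' : ℕ) : ℚ)| := by
      have : (1 : ℤ) ≤ |((i : ℕ) : ℤ) - ((i' : ℕ) : ℤ)| := by
        apply Int.one_le_abs
        omega
      exact_mod_cast this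
    have e : (slot S w i 0 : ℚ) - slot S w i' 0 = (((i : ℕ) : ℚ) - ((i' : ℕ) : ℚ)) * w := by
      simp only [slot]; ring
    rw [e, abs_mul, abs_of_pos hw0]
    have : w ≤ |((i : ℕ) : ℚ) - ((i' : ℕ) : ℚ)| * w := le_mul_of_one_le_left hw0.le h1
    linarith)
  have r13 := r1.comp hadd (B := fun i => dsc (fun m => k i m / h i m) (slot S w i)) (by
    simp_rw [tr_image]; exact r3) (fun i => continuous_tr _ _ i)
  have r132 := r13.comp hadd (B := tr (slot S w) b) (by
    have : (fun i => (dsc (fun m => k i m / h i m) (slot S w i) ∘ tr a (slot S w) i) '' box (a i) (h i)) =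
        fun i => box (slot S w i) (k i) := by
      funext i
      rw [Set.image_comp, tr_image, dsc_box _ _ _ (hh i) (hk i)]
    rw [this]; exact r2) (fun i => (continuous_dsc _ _).comp (continuous_tr _ _ i))
  refine r132.congr ?_
  intro i x
  funext m
  simp only [Function.comp, tr, dsc]
  push_cast
  ring

end Crest.Agent.BoxFlowLib
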