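import Crest.Agent.CPDefs
import Crest.Prelude.Def_Cost

/-!
# Row 191 (S0291): statements of the independent modules (blueprint; proofs go to separate files)

Each theorem below is to be PROVED in the file named in its comment, with the same name and type
in the namespace `Crest.Agent.CP`.  This file is only a specification: do not import it.
-/

set_option autoImplicit false

namespace Crest.Agent.CPSpec
open MeasureTheory Crest.Agent.CP

variable {Γ X : Type} [Group Γ] [Countable Γ] [MeasurableSpace X] [MulAction Γ X]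
  {μ : Measure X} [IsProbabilityMeasure μ]

/-! ## M1 (CPMass.lean): mass transport -/

theorem mtp (hmp : ∀ g : Γ, MeasurePreserving (fun x : X => g • x) μ μ)
    {ι κ : Type} [Countable ι] [Countable κ] (F : X × ι → X × κ → ENNReal)
    (hF : ∀ i k (g : Γ), Measurable fun x => F (x, i) (g • x, k)) :
    ∑' (i : ι) (k : κ) (g : Γ), ∫⁻ x, F (x, i) (g • x, k) ∂μ
      = ∑' (k : κ) (i : ι) (g : Γ), ∫⁻ x, F (g • x, i) (x, k) ∂μ := by
  sorry

/-- relational mass transport: if every `u ∈ A` has a `W`-partner in `B` (in its orbit) and every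
`v ∈ B` has at most `m` partners in `A`, then `vol A ≤ m * vol B`. -/
theorem rmt (hmp : ∀ g : Γ, MeasurePreserving (fun x : X => g • x) μ μ)
    (hfree : ∀ (g : Γ) (x : X), g • x = x → g = 1)
    {ι κ : Type} [Countable ι] [Countable κ] (A : Set (X × ι)) (B : Set (X × κ))
    (hA : MS A) (hB : MS B) (W : X × ι → X × κ → Prop)
    (hW : ∀ i k (g : Γ), MeasurableSet {x | W (x, i) (g • x, k)}) (m : ℕ)
    (h1 : ∀ u ∈ A, ∃ (g : Γ) (k : κ), W u (g • u.1, k) ∧ (g • u.1, k) ∈ B)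
    (h2 : ∀ v ∈ B, {u | u ∈ A ∧ W u v}.encard ≤ m) :
    vol μ A ≤ m * vol μ B := by
  sorry

/-- almost everywhere version: `h1` only for `u` outside a null set of base points -/
theorem rmt_ae (hmp : ∀ g : Γ, MeasurePreserving (fun x : X => g • x) μ μ)
    (hfree : ∀ (g : Γ) (x : X), g • x = x → g = 1)
    {ι κ : Type} [Countable ι] [Countable κ] (A : Set (X × ι)) (B : Set (X × κ))
    (hA : MS A) (hB : MS B) (W : X × ι → X × κ → Prop)
    (hW : ∀ i k (g : Γ), MeasurableSet {x | W (x, i) (g • x, k)}) (m : ℕ)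
    (N : Set X) (hN : μ N = 0)
    (h1 : ∀ u ∈ A, u.1 ∉ N → ∃ (g : Γ) (k : κ), W u (g • u.1, k) ∧ (g • u.1, k) ∈ B)
    (h2 : ∀ v ∈ B, {u | u ∈ A ∧ W u v}.encard ≤ m) :
    vol μ A ≤ m * vol μ B := by
  sorry

/-! ## M7 (CPKernel.lean): kernel lemma.
Proof idea: `Θ_x : ℓ²(B ∩ orbit) → ℓ²(A ∩ orbit)`; `T = 1 - Θ*Θ/C`, `T' = 1 - ΘΘ*/C` positive
contractions (`C ≥ ‖Θ‖²`); if `vol B > vol A`, then for every `m`,
`τ_B(T^m) = vol B - vol A + τ_A(T'^m) ≥ vol B - vol A > 0`, where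
`τ_B(T) = ∑_i ∫ ⟨T δ_(x,i), δ_(x,i)⟩` (mass transport gives `τ_B((Θ*Θ)^k) = τ_A((ΘΘ*)^k)`, `k ≥ 1`);
but `ker Θ_x = 0` for all `x` gives Cesàro means of `T^m δ → 0`
(`ContinuousLinearMap.tendsto_birkhoffAverage_orthogonalProjection`), dominated convergence. -/
theorem kernel_lemma (hmp : ∀ g : Γ, MeasurePreserving (fun x : X => g • x) μ μ)
    (hfree : ∀ (g : Γ) (x : X), g • x = x → g = 1)
    {ι κ : Type} [Countable ι] [Countable κ]
    (B : Set (X × ι)) (A : Set (X × κ)) (hB : MS B) (hA : MS A)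
    (hBf : vol μ B ≠ ⊤) (hAf : vol μ A ≠ ⊤)
    (θ : X × κ → X × ι → ℝ)
    (hθm : ∀ (i : ι) (k : κ) (g : Γ), Measurable fun x => θ (x, k) (g • x, i))
    (hθ0 : ∀ v u, θ v u ≠ 0 → v ∈ A ∧ u ∈ B ∧ ∃ g : Γ, u.1 = g • v.1)
    (c : ℝ) (hθc : ∀ v u, |θ v u| ≤ c)
    (d : ℕ) (hd1 : ∀ v, {u | θ v u ≠ 0}.encard ≤ d) (hd2 : ∀ u, {v | θ v u ≠ 0}.encard ≤ d)
    (hker : ∀ f : X × ι → ℝ, (∃ x : X, ∀ u, f u ≠ 0 → u ∈ B ∧ ∃ g : Γ, u.1 = g • x) →
      Summable (fun u => f u ^ 2) → (∀ v, ∑ᶠ u, θ v u * f u = 0) → f = 0) :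
    vol μ B ≤ vol μ A := by
  sorry

/-! ## M11 (CPCheeger.lean): isoperimetry ⇒ norm bound.
Proof: with `N = ∫f²+∫g²`, `D = ∫_E (f(src)²+g(tgt)²) ≤ 100 N`, `P = ∫_E f(src) g(tgt)`,
`∫_E min(f²,g²) ≤ 11 N` (layer cake), `(∫_E |f²-g²|)² ≤ (D+2P)(D-2P)` (Cauchy-Schwarz),
`∫_E|f²-g²| = D - 2∫min ≥ D - 22 N`; so `4P² ≤ D² - (D-22N)²  ≤ 44·89 N²` if `D ≥ 22 N`
(`4P²=44N(D-11N)`), and `P ≤ D/2 ≤ 11 N` otherwise; so `2P ≤ 63 N`; then rescale `f, g`. -/
theorem cheeger {Ω E : Type} [MeasurableSpace Ω] [MeasurableSpace E] (lam : Measure Ω)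
    [SFinite lam] (ε : Measure E) [SFinite ε] (src tgt : E → Ω) (hs : Measurable src) (ht : Measurable tgt)
    (h1 : ∀ Y, MeasurableSet Y → ε (src ⁻¹' Y) ≤ 100 * lam Y)
    (h2 : ∀ Y, MeasurableSet Y → ε (tgt ⁻¹' Y) ≤ 100 * lam Y)
    (iso : ∀ Y Z, MeasurableSet Y → MeasurableSet Z →
      ε (src ⁻¹' Y ∩ tgt ⁻¹' Z) ≤ 11 * (lam Y + lam Z))
    (f g : Ω → ENNReal) (hf : Measurable f) (hg : Measurable g)
    (hf2 : ∫⁻ u, f u ^ 2 ∂lam ≠ ⊤) (hg2 : ∫⁻ u, g u ^ 2 ∂lam ≠ ⊤) :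
    (∫⁻ e, f (src e) * g (tgt e) ∂ε) ^ 2 ≤ 63 ^ 2 * (∫⁻ u, f u ^ 2 ∂lam) * ∫⁻ u, g u ^ 2 ∂lam := by
  sorry

/-! ## M18 (CPBern.lean): the expensive action (free part of the Bernoulli shift) with the gap.
Gap proof: Walsh functions `χ_A(ω) = ∏_{g∈A} ±1` for finite `A ⊂ Γ`; `F = ⟨x_i⟩` free acts freely on
nonempty finite subsets of `Γ`; `Σ_i Σ_A F(x_i A) G(A) ≤ 2√100 ‖F‖‖G‖` by splitting
according to whether the reduced `F`-word of `A` starts with `x_i` / `x_i⁻¹` (Cauchy–Schwarz);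
cylinder functions are dense (`exists_measure_symmDiff_lt_of_generateFrom_isSetSemiring`...). -/
theorem exists_bernoulli (Γ : Type) [Group Γ] [Countable Γ] (x : Fin 100 → Γ)
    (hx : Function.Injective (FreeGroup.lift x)) :
    ∃ (X : Type) (_ : MeasurableSpace X) (_ : StandardBorelSpace X) (μ : Measure X)
      (_ : IsProbabilityMeasure μ) (_ : MulAction Γ X),
      (∀ g : Γ, MeasurePreserving (fun x : X => g • x) μ μ) ∧
      (∀ (g : Γ) (x : X), g • x = x → g = 1) ∧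
      Gap μ x ∧
      (∀ β : ENNReal, 0 < β → ∃ (N : ℕ) (f : X → Fin N), Measurable f ∧ ∀ k, μ (f ⁻¹' {k}) ≤ β) := by
  sorry

/-! ## M17b (CPCheap.lean): the cheap actions.
`Y = X × Fin M` (`a` shifts the level); graphing: `a` on levels `1..M-1`, `a^M` and all `x_l` on level
0; cost `(M-1)/M + 1/M + 101/M`. -/
theorem cheap {X : Type} [MeasurableSpace X] [StandardBorelSpace X] (Γ : Type) [Group Γ] [Countable Γ]
    (a : Γ) (x : XL → Γ)
    (hgen : Subgroup.closure (Set.range x ∪ {a}) = ⊤)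
    (hconj : ∀ l, a * x l * a⁻¹ ∈ Subgroup.closure (Set.range x))
    (δ : Γ →* Multiplicative ℤ) (hδa : δ a = Multiplicative.ofAdd 1) (hδx : ∀ l, δ (x l) = 1)
    (μ : Measure X) [IsProbabilityMeasure μ] [MulAction Γ X]
    (hmp : ∀ g : Γ, MeasurePreserving (fun x : X => g • x) μ μ)
    (hfree : ∀ (g : Γ) (x : X), g • x = x → g = 1) (M : ℕ) (hM : 0 < M) :
    ∃ (Y : Type) (_ : MeasurableSpace Y) (_ : StandardBorelSpace Y) (ν : MeasureTheory.Measure Y)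
      (_ : MeasureTheory.IsProbabilityMeasure ν) (_ : MulAction Γ Y),
      Crest.Dynamics.IsFreePMPAction Γ Y ν ∧
      Crest.Dynamics.actionCost Γ Y ν ≤ 1 + 101 / (M : ENNReal) := by
  sorry

/-! ## M15 / M16 / M17a: the group. -/

/-- M15-M17a together (CPGroup.lean). -/
theorem exists_relData (j : ℕ) (hj : 1 ≤ j) :
    ∃ (R : ℕ) (_ : NeZero R) (Γ : Type) (_ : Group Γ) (_ : Countable Γ)
      (D : RelData j R (40 * j + 400) Γ),
      (∀ l, D.ρ none * D.ρ (some l) * (D.ρ none)⁻¹ ∈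
        Subgroup.closure (Set.range fun l => D.ρ (some l))) ∧
      (∃ δ : Γ →* Multiplicative ℤ, δ (D.ρ none) = Multiplicative.ofAdd 1 ∧
        ∀ l, δ (D.ρ (some l)) = 1) ∧
      Function.Injective (FreeGroup.lift (fun i : Fin 100 => D.ρ (some (some i)))) := by
  sorry

end Crest.Agent.CPSpec
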