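import Crest.Agent.CPBernDefs

/-!
# Row 191, `CPBern`: density of cylinder sets, small partitions
-/

set_option autoImplicit false

namespace Crest.Agent.CP.Bern
open MeasureTheory

/-- cylinder sets are dense -/
theorem cyl_dense {Γ : Type} {S : Set (Γ → Bool)} (hS : MeasurableSet S) {ε : ENNReal}
    (hε : 0 < ε) :
    ∃ (I : Finset Γ) (T : Set (Γ → Bool)), MeasurableSet T ∧
      (∀ ω ω' : Γ → Bool, (∀ g ∈ I, ω g = ω' g) → (ω ∈ T ↔ ω' ∈ T)) ∧
      bern Γ (symmDiff S T) < ε := by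
  obtain ⟨T, hT, h⟩ := exists_measure_symmDiff_lt_of_generateFrom_isSetRing (μ := bern Γ)
    isSetRing_measurableCylinders
    ⟨{Set.univ}, Set.countable_singleton _, Set.singleton_subset_iff.2 (univ_mem_measurableCylinders _), by simp⟩
    generateFrom_measurableCylinders.symm hS hε
  obtain ⟨I, B, hB, rfl⟩ := (mem_measurableCylinders T).1 hT
  refine ⟨I, _, MeasurableSet.cylinder I hB, ?_, by rwa [symmDiff_comm]⟩
  intro ω ω' hω
  have : I.restrict ω = I.restrict ω' := by
    funext g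
    exact hω g.1 g.2
  simp only [mem_cylinder, this]

theorem bern_cyl {Γ : Type} (I : Finset Γ) (b : Γ → Bool) :
    bern Γ {ω | ∀ g ∈ I, ω g = b g} = (2 : ENNReal)⁻¹ ^ I.card := by
  have h := Measure.infinitePi_pi (μ := fun _ : Γ => coin) (s := I) (t := fun g => {b g})
    (fun g _ => MeasurableSet.singleton _)
  have h2 : {ω : Γ → Bool | ∀ g ∈ I, ω g = b g} = Set.pi I (fun g => {b g}) := by
    ext ω; simp [Set.pi]
  rw [h2, bern, h]
  simp [coin_singleton]

/-- small partitions -/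
theorem small_part {Γ : Type} [Infinite Γ] (β : ENNReal) (hβ : 0 < β) :
    ∃ (N : ℕ) (f : (Γ → Bool) → Fin N), Measurable f ∧ ∀ k, bern Γ (f ⁻¹' {k}) ≤ β := by
  classical
  obtain ⟨n, hn⟩ : ∃ n : ℕ, (2 : ENNReal)⁻¹ ^ n < β :=
    ENNReal.exists_inv_two_pow_lt hβ.ne'
  obtain ⟨e⟩ : Nonempty (Fin n ↪ Γ) := by
    exact ⟨(Fin.valEmbedding).trans (Infinite.natEmbedding Γ)⟩
  let E : (Fin n → Bool) ≃ Fin (Fintype.card (Fin n → Bool)) := Fintype.equivFin _
  refine ⟨Fintype.card (Fin n → Bool), fun ω => E (fun i => ω (e i)), ?_, ?_⟩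
  · have h1 : Measurable (fun ω : Γ → Bool => (fun i => ω (e i) : Fin n → Bool)) := by
      fun_prop
    exact (measurable_of_finite E).comp h1
  · intro k
    have h2 : (fun ω : Γ → Bool => E (fun i => ω (e i))) ⁻¹' {k} ⊆
        {ω | ∀ g ∈ Finset.univ.map e, ω g =
          (if h : ∃ i, e i = g then (E.symm k) h.choose else false)} := by
      intro ω hω g hg
      simp only [Set.mem_preimage, Set.mem_singleton_iff] at hω
      obtain ⟨i, -, rfl⟩ := Finset.mem_map.1 hg
      have hex : ∃ i', e i' = e i := ⟨i, rfl⟩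
      rw [dif_pos hex]
      have h3 : hex.choose = i := e.injective hex.choose_spec
      rw [h3, ← hω, Equiv.symm_apply_apply]
    calc bern Γ ((fun ω : Γ → Bool => E (fun i => ω (e i))) ⁻¹' {k})
        ≤ _ := measure_mono h2
      _ = (2 : ENNReal)⁻¹ ^ (Finset.univ.map e).card := bern_cyl _ _
      _ = (2 : ENNReal)⁻¹ ^ n := by simp
      _ ≤ β := hn.le

end Crest.Agent.CP.Bern
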