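import Crest.Agent.CPDefs

/-!
# Row 191: the fair-coin Bernoulli measure (definitions shared by the `CPBern*` files)
-/

set_option autoImplicit false

namespace Crest.Agent.CP.Bern
open MeasureTheory

/-- the fair coin -/
noncomputable def coin : Measure Bool :=
  (2 : ENNReal)⁻¹ • (Measure.dirac false + Measure.dirac true)

instance : IsProbabilityMeasure coin := by
  constructor
  simp only [coin, Measure.smul_apply, Measure.add_apply, measure_univ, smul_eq_mul]
  rw [one_add_one_eq_two]
  exact ENNReal.inv_mul_cancel (by norm_num) (by norm_num)

theorem coin_singleton (b : Bool) : coin {b} = (2 : ENNReal)⁻¹ := by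
  cases b <;> simp [coin]

/-- the Bernoulli measure on `Γ → Bool` -/
noncomputable def bern (Γ : Type) : Measure (Γ → Bool) := Measure.infinitePi (fun _ => coin)

instance (Γ : Type) : IsProbabilityMeasure (bern Γ) := by
  unfold bern; infer_instance

end Crest.Agent.CP.Bern
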