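import Crest.Agent.CPBernD

/-!
# Row 191: the gap for cylinder sets implies the gap for measurable sets
-/

set_option autoImplicit false

namespace Crest.Agent.CP
open MeasureTheory Filter Topology

namespace Bern

/-- `S` depends only on finitely many coordinates -/
def Cyl {Γ : Type} (S : Set (Om Γ)) : Prop :=
  ∃ I : Finset (Γ × ℕ), ∀ ω ω' : Om Γ, (∀ p ∈ I, ω p = ω' p) → (ω ∈ S ↔ ω' ∈ S)

theorem cyl_dense {Γ : Type} {S : Set (Om Γ)} (hS : MeasurableSet S) {ε : ENNReal}
    (hε : 0 < ε) :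
    ∃ T : Set (Om Γ), MeasurableSet T ∧ Cyl T ∧ bern Γ (symmDiff S T) < ε := by
  obtain ⟨T, hT, h⟩ := exists_measure_symmDiff_lt_of_generateFrom_isSetRing (μ := bern Γ)
    isSetRing_measurableCylinders
    ⟨{Set.univ}, Set.countable_singleton _,
      Set.singleton_subset_iff.2 (univ_mem_measurableCylinders _), by simp⟩
    generateFrom_measurableCylinders.symm hS hε
  obtain ⟨I, B, hB, rfl⟩ := (mem_measurableCylinders T).1 hT
  refine ⟨_, MeasurableSet.cylinder I hB, ⟨I, ?_⟩, by rwa [symmDiff_comm]⟩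
  intro ω ω' hω
  have : I.restrict ω = I.restrict ω' := by
    funext g
    exact hω g.1 g.2
  simp only [mem_cylinder, this]

theorem gap_of_cyl {Γ : Type} [Group Γ] (x : Fin 100 → Γ)
    (hcyl : ∀ S S' : Set (Om Γ), MeasurableSet S → MeasurableSet S' → Cyl S → Cyl S' →
      ∑ i : Fin 100, (bern Γ (S ∩ {ω | sh (x i) ω ∈ S'})).toReal
        ≤ 100 * (bern Γ S).toReal * (bern Γ S').toReal
          + 20 * Real.sqrt ((bern Γ S).toReal * (bern Γ S').toReal))
    (S S' : Set (Om Γ)) (hS : MeasurableSet S) (hS' : MeasurableSet S') :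
    ∑ i : Fin 100, (bern Γ (S ∩ {ω | sh (x i) ω ∈ S'})).toReal
        ≤ 100 * (bern Γ S).toReal * (bern Γ S').toReal
          + 20 * Real.sqrt ((bern Γ S).toReal * (bern Γ S').toReal) := by
  set a := (bern Γ S).toReal with ha
  set b := (bern Γ S').toReal with hb
  have ha0 : 0 ≤ a := ENNReal.toReal_nonneg
  have hb0 : 0 ≤ b := ENNReal.toReal_nonneg
  have key : ∀ ε : ℝ, 0 < ε → ∑ i : Fin 100, (bern Γ (S ∩ {ω | sh (x i) ω ∈ S'})).toReal
      ≤ 100 * (a + ε) * (b + ε) + 20 * Real.sqrt ((a + ε) * (b + ε)) + 200 * ε := by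
    intro ε hε
    obtain ⟨T, hT, cT, hST⟩ := cyl_dense hS (ENNReal.ofReal_pos.2 hε)
    obtain ⟨T', hT', cT', hST'⟩ := cyl_dense hS' (ENNReal.ofReal_pos.2 hε)
    have h1 : (bern Γ (symmDiff S T)).toReal ≤ ε := by
      have := ENNReal.toReal_mono ENNReal.ofReal_ne_top hST.le
      rwa [ENNReal.toReal_ofReal hε.le] at this
    have h2 : (bern Γ (symmDiff S' T')).toReal ≤ ε := by
      have := ENNReal.toReal_mono ENNReal.ofReal_ne_top hST'.le
      rwa [ENNReal.toReal_ofReal hε.le] at this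
    have sub : ∀ A B C D : Set (Om Γ), A ⊆ B ∪ C ∪ D →
        (bern Γ A).toReal ≤ (bern Γ B).toReal + (bern Γ C).toReal + (bern Γ D).toReal := by
      intro A B C D h
      have h3 : bern Γ A ≤ bern Γ B + bern Γ C + bern Γ D :=
        (measure_mono h).trans ((measure_union_le _ _).trans
          (add_le_add (measure_union_le _ _) le_rfl))
      have h4 := ENNReal.toReal_mono (ENNReal.add_ne_top.2 ⟨ENNReal.add_ne_top.2
        ⟨measure_ne_top _ _, measure_ne_top _ _⟩, measure_ne_top _ _⟩) h3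
      rwa [ENNReal.toReal_add (ENNReal.add_ne_top.2 ⟨measure_ne_top _ _, measure_ne_top _ _⟩)
        (measure_ne_top _ _), ENNReal.toReal_add (measure_ne_top _ _) (measure_ne_top _ _)] at h4
    have hTa : (bern Γ T).toReal ≤ a + ε := by
      have := sub T S (symmDiff S T) ∅ (by
        intro ω hω
        by_cases h : ω ∈ S
        · exact Or.inl (Or.inl h)
        · exact Or.inl (Or.inr (Or.inr ⟨hω, h⟩)))
      simp only [measure_empty, ENNReal.toReal_zero, add_zero] at this
      linarith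
    have hTb : (bern Γ T').toReal ≤ b + ε := by
      have := sub T' S' (symmDiff S' T') ∅ (by
        intro ω hω
        by_cases h : ω ∈ S'
        · exact Or.inl (Or.inl h)
        · exact Or.inl (Or.inr (Or.inr ⟨hω, h⟩)))
      simp only [measure_empty, ENNReal.toReal_zero, add_zero] at this
      linarith
    have hi : ∀ i : Fin 100, (bern Γ (S ∩ {ω | sh (x i) ω ∈ S'})).toReal
        ≤ (bern Γ (T ∩ {ω | sh (x i) ω ∈ T'})).toReal + 2 * ε := by
      intro i
      have h3 : (bern Γ (sh (x i) ⁻¹' (symmDiff S' T'))).toReal ≤ ε := by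
        rw [(mp_sh (x i)).measure_preimage (hS'.symmDiff hT').nullMeasurableSet]
        exact h2
      have := sub (S ∩ {ω | sh (x i) ω ∈ S'}) (T ∩ {ω | sh (x i) ω ∈ T'}) (symmDiff S T)
        (sh (x i) ⁻¹' (symmDiff S' T')) (by
        rintro ω ⟨hω1, hω2⟩
        by_cases h : ω ∈ T
        · by_cases h' : sh (x i) ω ∈ T'
          · exact Or.inl (Or.inl ⟨h, h'⟩)
          · exact Or.inr (Or.inl ⟨hω2, h'⟩)
        · exact Or.inl (Or.inr (Or.inl ⟨hω1, h⟩)))
      linarith
    have hT0 : 0 ≤ (bern Γ T).toReal := ENNReal.toReal_nonneg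
    have hT0' : 0 ≤ (bern Γ T').toReal := ENNReal.toReal_nonneg
    calc ∑ i : Fin 100, (bern Γ (S ∩ {ω | sh (x i) ω ∈ S'})).toReal
        ≤ ∑ i : Fin 100, ((bern Γ (T ∩ {ω | sh (x i) ω ∈ T'})).toReal + 2 * ε) :=
          Finset.sum_le_sum fun i _ => hi i
      _ = (∑ i : Fin 100, (bern Γ (T ∩ {ω | sh (x i) ω ∈ T'})).toReal) + 200 * ε := by
          rw [Finset.sum_add_distrib]
          simp
          ring
      _ ≤ (100 * (bern Γ T).toReal * (bern Γ T').toReal
          + 20 * Real.sqrt ((bern Γ T).toReal * (bern Γ T').toReal)) + 200 * ε := by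
          gcongr
          exact hcyl T T' hT hT' cT cT'
      _ ≤ 100 * (a + ε) * (b + ε) + 20 * Real.sqrt ((a + ε) * (b + ε)) + 200 * ε := by
          gcongr
  have hcont : Continuous fun ε : ℝ =>
      100 * (a + ε) * (b + ε) + 20 * Real.sqrt ((a + ε) * (b + ε)) + 200 * ε := by fun_prop
  have hlim := (hcont.tendsto 0).mono_left (nhdsWithin_le_nhds (s := Set.Ioi 0))
  simp only [add_zero, mul_zero] at hlim
  refine ge_of_tendsto hlim ?_
  filter_upwards [self_mem_nhdsWithin] with ε hε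
  exact key ε hε

end Bern

end Crest.Agent.CP
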