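import Crest.Agent.CPGraph
import Crest.Prelude.Def_Cost

/-!
# Row 191 (S0291): statements of the graph modules (SPEC; do not import)
-/

set_option autoImplicit false

namespace Crest.Agent.CPSpec
open MeasureTheory Crest.Agent.CP Crest.Agent.CP.PG

variable {Γ X : Type} [Group Γ] [Countable Γ] [MeasurableSpace X] [MulAction Γ X]
  {μ : Measure X} [IsProbabilityMeasure μ]
  (hmp : ∀ g : Γ, MeasurePreserving (fun x : X => g • x) μ μ)
  (hfree : ∀ (g : Γ) (x : X), g • x = x → g = 1)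
  {j R q : ℕ} [NeZero R] (D : RelData j R q Γ)

/-! ## G0 (CPPath.lean): basic path lemmas (append, reverse, position, measurability of `Path`,
uniqueness in folded graphs, invariance of sums in folded graphs under free reduction, mapping
paths by morphisms). -/

theorem path_append {ρ : AL → Γ} {ι : Type} (K : PG ρ X ι) (a b : List (AL × Bool))
    (u v : X × ι) : K.Path (a ++ b) u v ↔ ∃ w, K.Path a u w ∧ K.Path b w v := by sorry

theorem path_pos {ρ : AL → Γ} {ι : Type} (K : PG ρ X ι) (a : List (AL × Bool))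
    (u v : X × ι) (h : K.Path a u v) : v.1 = (wval ρ a)⁻¹ • u.1 := by sorry

theorem path_winv {ρ : AL → Γ} {ι : Type} (K : PG ρ X ι) (a : List (AL × Bool))
    (u v : X × ι) : K.Path (winv a) v u ↔ K.Path a u v := by sorry

theorem path_meas {ρ : AL → Γ} {ι : Type} [Countable ι] (hm : ∀ g : Γ, Measurable (fun x : X => g • x))
    (K : PG ρ X ι) (a : List (AL × Bool)) (i k : ι) :
    MeasurableSet {x | K.Path a (x, i) ((wval ρ a)⁻¹ • x, k)} := by sorry

theorem path_unique {ρ : AL → Γ} {ι : Type} (K : PG ρ X ι) (hK : K.Folded) (a : List (AL × Bool))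
    (u v v' : X × ι) (h : K.Path a u v) (h' : K.Path a u v') : v = v' := by sorry

/-- existence of the sum along a path -/
theorem ps_exists {ρ : AL → Γ} {ι : Type} (K : PG ρ X ι) (c : AL → X × ι → ℝ)
    (a : List (AL × Bool)) (u v : X × ι) (h : K.Path a u v) : ∃ t, K.PS c a u v t := by sorry

theorem ps_path {ρ : AL → Γ} {ι : Type} (K : PG ρ X ι) (c : AL → X × ι → ℝ)
    (a : List (AL × Bool)) (u v : X × ι) (t : ℝ) (h : K.PS c a u v t) : K.Path a u v := by sorry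

theorem ps_append {ρ : AL → Γ} {ι : Type} (K : PG ρ X ι) (c : AL → X × ι → ℝ)
    (a b : List (AL × Bool)) (u v : X × ι) (t : ℝ) :
    K.PS c (a ++ b) u v t ↔ ∃ w t1 t2, K.PS c a u w t1 ∧ K.PS c b w v t2 ∧ t = t1 + t2 := by sorry

theorem ps_winv {ρ : AL → Γ} {ι : Type} (K : PG ρ X ι) (c : AL → X × ι → ℝ)
    (a : List (AL × Bool)) (u v : X × ι) (t : ℝ) :
    K.PS c (winv a) v u t ↔ K.PS c a u v (-t) := by sorry

/-- in a folded graph the sum (and the endpoint) depends only on the free group element -/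
theorem ps_unique {ρ : AL → Γ} {ι : Type} (K : PG ρ X ι) (hK : K.Folded) (c : AL → X × ι → ℝ)
    (a b : List (AL × Bool)) (hab : FreeGroup.mk a = FreeGroup.mk b)
    (u v v' : X × ι) (t t' : ℝ) (h : K.PS c a u v t) (h' : K.PS c b u v' t') :
    v = v' ∧ t = t' := by sorry

/-- the reduced word is readable -/
theorem path_reduce {ρ : AL → Γ} {ι : Type} (K : PG ρ X ι) (hK : K.Folded)
    (a : List (AL × Bool)) (u v : X × ι) (h : K.Path a u v) :
    ∃ b, Red b ∧ FreeGroup.mk b = FreeGroup.mk a ∧ b.length ≤ a.length ∧ K.Path b u v := by sorry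

theorem path_map {ρ : AL → Γ} {ι κ : Type} (K : PG ρ X ι) (K' : PG ρ X κ) (f : X × ι → κ)
    (hf : Mor K K' f) (a : List (AL × Bool)) (u v : X × ι) (h : K.Path a u v) :
    K'.Path a (u.1, f u) (v.1, f v) := by sorry

theorem ps_map {ρ : AL → Γ} {ι κ : Type} (K : PG ρ X ι) (K' : PG ρ X κ) (f : X × ι → κ)
    (hf : Mor K K' f) (c : AL → X × κ → ℝ) (a : List (AL × Bool)) (u v : X × ι) (t : ℝ)
    (h : K.PS (fun s w => c s (w.1, f w)) a u v t) :
    K'.PS c a (u.1, f u) (v.1, f v) t := by sorry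

/-! ## M2 (CPFold.lean): folding.
`(y,i) ≈ (y,i')` iff some path `ω` joins them with `FreeGroup.mk ω = 1`; representative = minimal
code (`code : ι → ℕ` injective with `code o = 0`) in the class. -/
theorem fold_exists {ρ : AL → Γ} {ι : Type} [Countable ι]
    (hm : ∀ g : Γ, Measurable (fun x : X => g • x)) (K : PG ρ X ι) :
    ∃ (K' : PG ρ X ℕ) (f : X × ι → ℕ), K'.o = 0 ∧ K'.Folded ∧ Mor K K' f ∧
      (∀ x k, (x, k) ∈ K'.V ↔ ∃ i, (x, i) ∈ K.V ∧ f (x, i) = k) ∧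
      (∀ s x j k, (x, (j, k)) ∈ K'.E s ↔
        ∃ j' k', (x, (j', k')) ∈ K.E s ∧ f (x, j') = j ∧ f ((ρ s)⁻¹ • x, k') = k) ∧
      (∀ (c : AL → X × ℕ → ℝ) (ω : List (AL × Bool)) (x : X) (i : ι) (v : X × ℕ) (t : ℝ),
        (x, i) ∈ K.V → K'.PS c ω (x, f (x, i)) v t →
        ∃ (ω' : List (AL × Bool)) (i' : ι),
          K.PS (fun s w => c s (w.1, f w)) ω' (x, i) (v.1, i') t ∧ f (v.1, i') = v.2 ∧
          FreeGroup.mk ω' = FreeGroup.mk ω) := by sorry

/-! ## M3 (CPCore.lean): core = edges on reduced thick–thick paths. -/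
theorem core_exists {ρ : AL → Γ} (hm : ∀ g : Γ, Measurable (fun x : X => g • x))
    (K : PG ρ X ℕ) (hF : K.Folded) (hBG : K.BG) :
    ∃ K' : PG ρ X ℕ, K'.o = K.o ∧ K'.V ⊆ K.V ∧ (∀ s, K'.E s ⊆ K.E s) ∧ K'.Folded ∧ K'.Pruned ∧
      K'.BG ∧
      (∀ ω x y, Red ω → K.Path ω (x, K.o) (y, K.o) → K'.Path ω (x, K.o) (y, K.o)) ∧
      (∀ s x j k, (x, (j, k)) ∈ K'.E s → ∃ ω1 ω2 x1 x2, Red (ω1 ++ (s, true) :: ω2) ∧
        K.Path ω1 (x1, K.o) (x, j) ∧ K.Path ω2 ((ρ s)⁻¹ • x, k) (x2, K.o)) ∧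
      (∀ (ω : List (AL × Bool)) (v : X × ℕ), Red (ω ++ ω) → ω ≠ [] → K.Path ω v v →
        K'.Path ω v v) := by sorry

/-! ## M4 (CPPeel.lean): remove the first edge `e_c` of the (canonical) window of every type A cell
`c`, then take the core.  Traversal lemma: a reduced path with thick ends, or a cyclically reduced
loop, containing any window edge contains the whole window (interior vertices are thin with
exactly two directions), in one of the two directions; so by `pp`/`pp'` a cell containing a window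
edge of `c` is `c` itself, at the same offset; windows of different cells are disjoint; `e_c` occurs once
in `c`; every other cell survives.  Gen: extend a cochain on `K'` by 0 on the pruned edges and by
`e_c := -(rest of the loop)`.  `P'` = rerouted and reduced words. -/
theorem peel (K : PG D.ρ X ℕ) (P : Set (X × List (AL × Bool)))
    (hK : GoodC D μ K P (Cell D K)) :
    ∃ (K' : PG D.ρ X ℕ) (P' : Set (X × List (AL × Bool))),
      GoodC D μ K' P' (Cell D K') ∧ vol μ P' ≤ vol μ P ∧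
      vol μ K'.ES + 2 * q * vol μ (TypeA D K) ≤ vol μ K.ES ∧
      vol μ (Cell D K') ≤ vol μ (Cell D K \ TypeA D K) := by sorry

/-! ## M5 (CPBatch.lean): add the missing arcs (words `rw r l (i + (R-q)) q` from the end of the run
back to its start; fresh vertices, index type `ℕ ⊕ (...)`) of all runs in `U`, then fold. -/
theorem batch (K : PG D.ρ X ℕ) (P : Set (X × List (AL × Bool))) (C : Set (X × (ℕ × XL)))
    (hK : GoodC D μ K P C) (U : Set (X × (ℕ × XL × ZMod R))) (mU : MS U) (hUf : vol μ U ≠ ⊤)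
    (hU : ∀ y j l i, (y, (j, l, i)) ∈ U → ∃ v, K.Path (rw D.r l i (R - q)) (y, j) v) :
    ∃ (K' : PG D.ρ X ℕ) (f : X × ℕ → ℕ) (C' : Set (X × (ℕ × XL))),
      GoodC D μ K' P C' ∧ vol μ C' ≤ vol μ C + vol μ U ∧ Mor K K' f ∧
      (∀ y j l i, (y, (j, l, i)) ∈ U → K'.Path (rw D.r l i R) (y, f (y, j)) (y, f (y, j))) ∧
      Derives D K' (imE K f) := by sorry

/-! ## M6 (CPDer.lean): volume of derived edges. Stages `D_0 = S0`, `D_{t+1} = D_t ∪` edges of loops
having a run of `R-q` edges in `D_t`; each cell fires at most once and contributes ≤ q new edges. -/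
theorem der_vol (K : PG D.ρ X ℕ) (hF : K.Folded) (hfin : vol μ K.V ≠ ⊤)
    (S0 : Set (X × (AL × ℕ × ℕ))) (mS : MS S0) (hS : S0 ⊆ K.ES) (hd : Derives D K S0) :
    vol μ K.ES ≤ vol μ S0 + q * vol μ (Cell D K) := by sorry

/-- volume of the image of the edges -/
theorem imE_vol {ρ : AL → Γ} (K K' : PG ρ X ℕ) (f : X × ℕ → ℕ) (hf : Mor K K' f) :
    MS (imE K f) ∧ imE K f ⊆ K'.ES ∧ vol μ (imE K f) ≤ vol μ K.ES := by sorry

/-! ## M8 (CPRI.lean): relation inequality (from `kernel_lemma`): `Θ f = (sum of f on cells of C,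
sum on the paths of P, (d* f) on thin vertices)`; if `f ∈ ℓ²(edges of one leaf)` is killed then
`f = dG`, `G = 0` on thick vertices, `G ∈ ℓ²` by BG, `‖f‖² = ⟨d*f, G⟩ = 0`. -/
theorem relation_inequality (K : PG D.ρ X ℕ) (P : Set (X × List (AL × Bool)))
    (C : Set (X × (ℕ × XL))) (hK : GoodC D μ K P C) (hP : vol μ P ≠ ⊤) :
    vol μ K.ES + 1 ≤ vol μ C + vol μ P + vol μ K.V := by sorry

/-! ## M9 (CPExcess.lean) -/
theorem ergodic_of_gap (x : Fin 100 → Γ) (hG : Gap μ x) (S : Set X) (hS : MeasurableSet S)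
    (hinv : ∀ i, ∀ y, x i • y ∈ S ↔ y ∈ S) : μ S = 0 ∨ μ S = 1 := by sorry

/-- edges inside `Y` -/
theorem subset_excess {ρ : AL → Γ} (hgen : Subgroup.closure (Set.range ρ) = ⊤)
    (hG : Gap μ (fun i => (ρ (some (some i)))⁻¹)) (K : PG ρ X ℕ) (hBG : K.BG)
    (hfin : vol μ K.V ≠ ⊤) (hfin' : vol μ K.ES ≠ ⊤)
    (Y : Set (X × ℕ)) (mY : MS Y) (hY : Y ⊆ K.V) (hpos : vol μ Y ≠ 0) :
    vol μ {e | e ∈ K.ES ∧ (e.1, e.2.2.1) ∈ Y ∧ ((ρ e.2.1)⁻¹ • e.1, e.2.2.2) ∈ Y} + vol μ K.V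
      ≤ vol μ Y + vol μ K.ES := by sorry

/-! ## M10 (CPIso.lean): richness: number of rich x-edges from `Y` to `Z` -/
theorem iso {ρ : AL → Γ} (hgen : Subgroup.closure (Set.range ρ) = ⊤)
    (hG : Gap μ (fun i => (ρ (some (some i)))⁻¹)) (K : PG ρ X ℕ) (hF : K.Folded) (hBG : K.BG)
    (hfin : vol μ K.V ≠ ⊤) (hex : vol μ K.ES ≤ vol μ K.V + 1 / 500)
    (Y Z : Set (X × ℕ)) (mY : MS Y) (mZ : MS Z) (hY : Y ⊆ K.V) (hZ : Z ⊆ K.V) :
    vol μ {e | e ∈ K.ES ∧ (∃ i : Fin 100, e.2.1 = some (some i)) ∧ (e.1, e.2.2.1) ∈ Y ∧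
        ((ρ e.2.1)⁻¹ • e.1, e.2.2.2) ∈ Z}
      ≤ 11 * (vol μ Y + vol μ Z) := by sorry

/-- M11b (CPWalk.lean): number of positive words `t : Fin j → Fin 100` readable from `N` to `N`
(from `iso` and `cheeger`). -/
theorem walk_bound {ρ : AL → Γ} (hgen : Subgroup.closure (Set.range ρ) = ⊤)
    (hG : Gap μ (fun i => (ρ (some (some i)))⁻¹)) (K : PG ρ X ℕ) (hF : K.Folded) (hBG : K.BG)
    (hfin : vol μ K.V ≠ ⊤) (hex : vol μ K.ES ≤ vol μ K.V + 1 / 500)
    (N : Set (X × ℕ)) (mN : MS N) (hN : N ⊆ K.V) (m : ℕ) :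
    ∑ t : Fin m → Fin 100, vol μ {u | u ∈ N ∧ ∃ v, v ∈ N ∧
        K.Path (List.ofFn fun a => ((some (some (t a)), true) : AL × Bool)) u v}
      ≤ 63 ^ m * vol μ N := by sorry

/-! ## M12 (CPTypeB.lean) -/

/-- volume of the special vertices and of their directions -/
theorem special_vol {ρ : AL → Γ} (K : PG ρ X ℕ) (hF : K.Folded) (hP : K.Pruned) (hBG : K.BG)
    (hfin : vol μ K.V ≠ ⊤) (hex : vol μ K.ES ≤ vol μ K.V + 1 / 500) :
    vol μ {u | u ∈ K.V ∧ K.Special u} ≤ 4 ∧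
    vol μ {u : X × (ℕ × (AL × Bool)) | (u.1, u.2.1) ∈ K.V ∧ K.Special (u.1, u.2.1) ∧
      K.Dir (u.1, u.2.1) u.2.2} ≤ 12 := by sorry

/-- vertices within distance `m` of a special vertex -/
theorem near_vol {ρ : AL → Γ} (K : PG ρ X ℕ) (hF : K.Folded) (hP : K.Pruned) (hBG : K.BG)
    (hfin : vol μ K.V ≠ ⊤) (hex : vol μ K.ES ≤ vol μ K.V + 1 / 500) (m : ℕ) :
    vol μ {u | u ∈ K.V ∧ ∃ (ω : List (AL × Bool)) (v : X × ℕ), ω.length ≤ m ∧ K.Path ω u v ∧
      K.Special v} ≤ 4 + 12 * m := by sorry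

theorem typeB_bound (hG : Gap μ (fun i => (D.ρ (some (some i)))⁻¹)) (K : PG D.ρ X ℕ)
    (hF : K.Folded) (hP : K.Pruned) (hBG : K.BG)
    (hfin : vol μ K.V ≠ ⊤) (hex : vol μ K.ES ≤ vol μ K.V + 1 / 500) :
    100 ^ j * vol μ (Cell D K \ TypeA D K) ≤ 101 * (63 ^ j * (4 + 24 * q)) := by sorry

/-! ## M14 (CPInit.lean): from a cheap graphing to a good graph field -/
theorem init_graph (Φ : ℕ → Γ × Set X) (hΦ : ∀ i, MeasurableSet (Φ i).2)
    (hgen : ∀ (x : X) (g : Γ), Relation.EqvGen (Crest.Dynamics.GraphingStep Φ) x (g • x))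
    (hcost : Crest.Dynamics.graphingCost μ Φ < 1 + 1 / 1000) :
    ∃ (K : PG D.ρ X ℕ) (P : Set (X × List (AL × Bool))),
      GoodC D μ K P ∅ ∧ vol μ P ≤ 1 + 1 / 1000 := by sorry

/-! ## M13 (CPMain.lean): energy + potential argument: contradiction. -/
theorem main_contradiction (hj : 100 * (101 * (63 ^ j * (4 + 24 * q))) * 1000 ≤ 100 ^ j)
    (hG : Gap μ (fun i => (D.ρ (some (some i)))⁻¹))
    (htiny : ∀ β : ENNReal, 0 < β → ∃ (N : ℕ) (f : X → Fin N), Measurable f ∧ ∀ k, μ (f ⁻¹' {k}) ≤ β)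
    (K : PG D.ρ X ℕ) (P : Set (X × List (AL × Bool)))
    (hK : GoodC D μ K P ∅) (hP : vol μ P ≤ 1 + 1 / 1000) : False := by sorry

end Crest.Agent.CPSpec
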