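import Crest.Agent.CPHNN
import Crest.Agent.CPWd

/-!
# Row 191: the concrete words `W l`
-/

set_option autoImplicit false

namespace Crest.Agent.CP
namespace Words

open HNN

/-- letter of `W l` at position `p` (segments of length `j+2`: separator, `l`, the `j` digits in base
`100` of the segment number) -/
def wl (j : ℕ) (l : XL) (p : ℕ) : XL :=
  if p = 0 then l
  else if (p - 1) % (j + 2) = 0 then none
  else if (p - 1) % (j + 2) = 1 then l
  else some ⟨((p - 1) / (j + 2)) / 100 ^ ((p - 1) % (j + 2) - 2) % 100,
    Nat.mod_lt _ (by norm_num)⟩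

/-- length of `W l` -/
def len (j : ℕ) : ℕ := 100 ^ j * (j + 2) + 3

/-- the concrete words -/
def Wc (j : ℕ) (l : XL) : List (XL × Bool) :=
  (List.range (len j)).map fun p => (wl j l p, true)

lemma Wc_length (j : ℕ) (l : XL) : (Wc j l).length = len j := by simp [Wc]

lemma relWord_Wc_length (j : ℕ) (l : XL) : (relWord (Wc j) l).length = len j + 3 := by
  rw [relWord_length, Wc_length]

lemma Wc_getElem (j : ℕ) (l : XL) (p : ℕ) (hp : p < (Wc j l).length) :
    (Wc j l)[p] = (wl j l p, true) := by simp [Wc]

end Words
end Crest.Agent.CP
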