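import Crest.Agent.CPWc

/-!
# Row 191: easy facts about the concrete words (`WOK`, `cyc`, `rich`, `pp'`)
-/

set_option autoImplicit false

namespace Crest.Agent.CP
namespace Words

open HNN

theorem wl_zero (j : ℕ) (l : XL) : wl j l 0 = l := by simp [wl]

theorem wl_last (j : ℕ) (l : XL) : wl j l (len j - 1) = l := by
  have h1 : len j - 1 = (1 + (j + 2) * 100 ^ j) + 1 := by
    unfold len
    have : 100 ^ j * (j + 2) = (j + 2) * 100 ^ j := mul_comm _ _
    omega
  have h2 : (1 + (j + 2) * 100 ^ j) % (j + 2) = 1 := by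
    rw [Nat.add_mul_mod_self_left]
    exact Nat.mod_eq_of_lt (by omega)
  rw [h1]
  unfold wl
  have h3 : (1 + (j + 2) * 100 ^ j + 1 - 1) % (j + 2) = 1 := by
    rw [Nat.add_sub_cancel]; exact h2
  rw [if_neg (by omega), if_neg (by rw [h3]; norm_num), if_pos h3]

theorem len_pos (j : ℕ) : 3 ≤ len j := by unfold len; omega

theorem wok (j : ℕ) : WOK (Wc j) (len j) where
  len l := Wc_length j l
  npos := by have := len_pos j; omega
  pos l c hc := by
    unfold Wc at hc
    rw [List.mem_map] at hc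
    obtain ⟨p, _, rfl⟩ := hc
    rfl
  head l := by
    have h3 := len_pos j
    rw [List.head?_eq_getElem?, List.getElem?_eq_getElem (by rw [Wc_length]; omega), Wc_getElem,
      wl_zero]
  last l := by
    have h3 := len_pos j
    rw [List.getLast?_eq_getElem?, List.getElem?_eq_getElem (by rw [Wc_length]; omega), Wc_getElem,
      Wc_length, wl_last]

/-- closed formula for the letters of the relator -/
def rc (j : ℕ) (l : XL) (p : ℕ) : AL × Bool :=
  if p < len j then (some (wl j l p), true)
  else if p = len j then (none, true)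
  else if p = len j + 1 then (some l, false) else (none, false)

section
variable (j R : ℕ) [NeZero R] (hR : ∀ l, (relWord (Wc j) l).length = R)

include hR in
theorem R_eq : R = len j + 3 := by
  rw [← hR none, relWord_Wc_length]

theorem relWord_getElem (l : XL) (p : ℕ) (hp : p < (relWord (Wc j) l).length) :
    (relWord (Wc j) l)[p] = rc j l p := by
  have hlen : (up (Wc j l)).length = len j := by
    unfold up; rw [List.length_map, Wc_length]
  have hp' : p < len j + 3 := by rwa [relWord_Wc_length] at hp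
  unfold relWord rc
  by_cases h : p < len j
  · rw [if_pos h, List.getElem_append_left (by rw [hlen]; exact h)]
    unfold up
    rw [List.getElem_map, Wc_getElem]
  · rw [if_neg h, List.getElem_append_right (by rw [hlen]; omega)]
    have : p = len j ∨ p = len j + 1 ∨ p = len j + 2 := by omega
    rcases this with rfl | rfl | rfl
    · simp [hlen]
    · simp [hlen]
    · simp [hlen]

theorem rel_rc (l : XL) (i : ZMod R) : rel (Wc j) R hR l i = rc j l i.val := by
  rw [rel_apply, relWord_getElem]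

theorem rel_natCast (l : XL) (p : ℕ) (hp : p < R) :
    rel (Wc j) R hR l (p : ZMod R) = rc j l p := by
  rw [rel_rc, ZMod.val_natCast_of_lt hp]

theorem cyc (l : XL) (i : ZMod R) :
    rel (Wc j) R hR l (i + 1) ≠ linv (rel (Wc j) R hR l i) := by
  have hRe := R_eq j R hR
  have h3 := len_pos j
  have hv := ZMod.val_lt i
  rw [rel_rc j R hR l i]
  obtain ⟨p, hp, rfl⟩ : ∃ p : ℕ, p < R ∧ i = (p : ZMod R) := ⟨i.val, hv, (ZMod.natCast_zmod_val i).symm⟩
  rw [ZMod.val_natCast_of_lt hp]
  by_cases hlast : p = len j + 2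
  · have h0 : ((p : ZMod R) + 1) = ((0 : ℕ) : ZMod R) := by
      have h1 : ((p + 1 : ℕ) : ZMod R) = 0 := by
        rw [show p + 1 = R by omega]; simp
      push_cast at h1
      rw [h1]; simp
    rw [h0, rel_natCast j R hR l 0 (by omega), hlast]
    unfold rc
    rw [if_pos (by omega), if_neg (by omega), if_neg (by omega), if_neg (by omega), wl_zero]
    simp [linv]
  · have h0 : ((p : ZMod R) + 1) = ((p + 1 : ℕ) : ZMod R) := by push_cast; ring
    rw [h0, rel_natCast j R hR l (p + 1) (by omega)]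
    unfold rc
    by_cases h4 : p + 1 < len j
    · rw [if_pos h4, if_pos (by omega)]
      simp [linv]
    · by_cases h5 : p + 1 = len j
      · rw [if_neg h4, if_pos h5, if_pos (by omega)]
        simp [linv]
      · by_cases h6 : p = len j
        · rw [if_neg h4, if_neg h5, if_pos (by omega), if_neg (by omega), if_pos h6]
          simp [linv]
        · rw [if_neg h4, if_neg h5, if_neg (by omega), if_neg (by omega), if_neg h6,
            if_pos (by omega)]
          simp [linv]

theorem rich (l : XL) (t : Fin j → Fin 100) : ∃ i : ZMod R, ∀ m : Fin j,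
    rel (Wc j) R hR l (i + ((m : ℕ) : ZMod R)) = (some (some (t m)), true) := by
  have hRe := R_eq j R hR
  obtain ⟨s, hs⟩ : ∃ s : Fin (100 ^ j), finFunctionFinEquiv.symm s = t :=
    ⟨finFunctionFinEquiv t, by simp⟩
  refine ⟨((3 + (j + 2) * (s : ℕ) : ℕ) : ZMod R), fun m => ?_⟩
  have hm := m.2
  have hs2 := s.2
  have hlt : 3 + (j + 2) * (s : ℕ) + m < len j := by
    unfold len
    have h1 : (j + 2) * ((s : ℕ) + 1) ≤ (j + 2) * 100 ^ j := Nat.mul_le_mul_left _ hs2
    have h2 : (j + 2) * ((s : ℕ) + 1) = (j + 2) * (s : ℕ) + (j + 2) := by ring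
    have h3 : 100 ^ j * (j + 2) = (j + 2) * 100 ^ j := mul_comm _ _
    omega
  rw [← Nat.cast_add, rel_natCast j R hR l _ (by omega)]
  unfold rc
  rw [if_pos hlt]
  have h1 : 3 + (j + 2) * (s : ℕ) + m - 1 = (2 + m) + (j + 2) * (s : ℕ) := by omega
  have h2 : ((2 + (m : ℕ)) + (j + 2) * (s : ℕ)) % (j + 2) = 2 + m := by
    rw [Nat.add_mul_mod_self_left]
    exact Nat.mod_eq_of_lt (by omega)
  have h3 : ((2 + (m : ℕ)) + (j + 2) * (s : ℕ)) / (j + 2) = s := by
    rw [Nat.add_mul_div_left _ _ (by omega), Nat.div_eq_of_lt (by omega), zero_add]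
  have h4 : wl j l (3 + (j + 2) * (s : ℕ) + m) = some (t m) := by
    unfold wl
    have h5 : (3 + (j + 2) * (s : ℕ) + m - 1) % (j + 2) = 2 + m := by rw [h1, h2]
    have h6 : (3 + (j + 2) * (s : ℕ) + m - 1) / (j + 2) = s := by rw [h1, h3]
    rw [if_neg (by omega), if_neg (by omega), if_neg (by omega)]
    congr 1
    apply Fin.ext
    rw [← hs]
    simp only [h5, h6, finFunctionFinEquiv_symm_apply_val, Nat.add_sub_cancel_left]
  rw [h4]

/-- positions which do not carry a positive `x`-letter -/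
theorem rc_pos_of (l : XL) (i : ZMod R) (h0 : i ≠ ((len j : ℕ) : ZMod R))
    (h1 : i ≠ ((len j + 1 : ℕ) : ZMod R)) (h2 : i ≠ ((len j + 2 : ℕ) : ZMod R)) :
    (rel (Wc j) R hR l i).2 = true := by
  have hRe := R_eq j R hR
  have hv := ZMod.val_lt i
  have hi : i = ((i.val : ℕ) : ZMod R) := (ZMod.natCast_zmod_val i).symm
  have h3 : i.val ≠ len j := fun h => h0 (by rw [hi, h])
  have h4 : i.val ≠ len j + 1 := fun h => h1 (by rw [hi, h])
  have h5 : i.val ≠ len j + 2 := fun h => h2 (by rw [hi, h])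
  rw [rel_rc]
  unfold rc
  rw [if_pos (by omega)]

theorem pp'_aux (q : ℕ) (hq : 8 ≤ q) (hR8 : 8 ≤ R) (l l' : XL) (i i' : ZMod R) :
    ¬ ∀ m : ℕ, m < q →
      rel (Wc j) R hR l (i + (m : ZMod R)) = linv (rel (Wc j) R hR l' (i' - (m : ZMod R))) := by
  classical
  intro h
  let bad : Finset (ZMod R) :=
    {((len j : ℕ) : ZMod R) - i, ((len j + 1 : ℕ) : ZMod R) - i, ((len j + 2 : ℕ) : ZMod R) - i,
      i' - ((len j : ℕ) : ZMod R), i' - ((len j + 1 : ℕ) : ZMod R), i' - ((len j + 2 : ℕ) : ZMod R)}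
  have hbad : bad.card ≤ 6 := Finset.card_le_six
  have hinj : ((Finset.range 8).image (fun m : ℕ => (m : ZMod R))).card = 8 := by
    rw [Finset.card_image_of_injOn, Finset.card_range]
    intro a ha b hb hab
    simp only [Finset.coe_range, Set.mem_Iio] at ha hb
    have := congrArg ZMod.val hab
    simp only at this
    rwa [ZMod.val_natCast_of_lt (by omega), ZMod.val_natCast_of_lt (by omega)] at this
  obtain ⟨z, hz, hzb⟩ := Finset.exists_mem_notMem_of_card_lt_card (s := bad)
    (t := (Finset.range 8).image (fun m : ℕ => (m : ZMod R))) (by omega)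
  rw [Finset.mem_image] at hz
  obtain ⟨m, hm, rfl⟩ := hz
  rw [Finset.mem_range] at hm
  simp only [bad, Finset.mem_insert, Finset.mem_singleton, not_or] at hzb
  obtain ⟨b1, b2, b3, b4, b5, b6⟩ := hzb
  have e := h m (by omega)
  have e1 := rc_pos_of j R hR l (i + (m : ZMod R))
    (fun hh => b1 (by rw [← hh]; ring)) (fun hh => b2 (by rw [← hh]; ring))
    (fun hh => b3 (by rw [← hh]; ring))
  have e2 := rc_pos_of j R hR l' (i' - (m : ZMod R))
    (fun hh => b4 (by rw [← hh]; ring)) (fun hh => b5 (by rw [← hh]; ring))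
    (fun hh => b6 (by rw [← hh]; ring))
  have e3 := congrArg Prod.snd e
  rw [e1] at e3
  simp [linv, e2] at e3

theorem pp' (q : ℕ) (hq : 8 ≤ q) (l l' : XL) (i i' : ZMod R) :
    ¬ ∀ m : ℕ, m < q →
      rel (Wc j) R hR l (i + (m : ZMod R)) = linv (rel (Wc j) R hR l' (i' - (m : ZMod R))) := by
  refine pp'_aux j R hR q hq ?_ l l' i i'
  rw [R_eq j R hR]
  unfold len
  by_cases hj : j = 0
  · subst hj; norm_num
  · have : 1 ≤ 100 ^ j := Nat.one_le_pow _ _ (by norm_num)
    have h2 : 100 ^ 1 ≤ 100 ^ j := Nat.pow_le_pow_right (by norm_num) (by omega)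
    nlinarith

end

theorem len_big (j : ℕ) (hj : 2 ≤ j) : 8 * (40 * j + 400) + 8 ≤ len j + 3 := by
  unfold len
  have h2 : 100 ^ 2 ≤ 100 ^ j := Nat.pow_le_pow_right (by norm_num) hj
  nlinarith

end Words
end Crest.Agent.CP
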