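import Crest.Agent.EGDefs

set_option autoImplicit false

namespace Crest.Agent.EG

open Finset

/-! Basic facts on `e`, `F`, and sup bounds. -/

namespace A

theorem e_norm (x : ℝ) : ‖e x‖ = 1 := by
  unfold e
  have : 2 * (Real.pi : ℂ) * (x : ℂ) * Complex.I = ((2 * Real.pi * x : ℝ) : ℂ) * Complex.I := by
    push_cast; ring
  rw [this, Complex.norm_exp_ofReal_mul_I]

theorem e_add (x y : ℝ) : e (x + y) = e x * e y := by
  unfold e
  rw [← Complex.exp_add]
  congr 1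
  push_cast; ring

theorem e_nat (n : ℕ) : e (n : ℝ) = 1 := by
  unfold e
  have : 2 * (Real.pi : ℂ) * ((n : ℝ) : ℂ) * Complex.I = (n : ℂ) * (2 * Real.pi * Complex.I) := by
    push_cast; ring
  rw [this, Complex.exp_nat_mul_two_pi_mul_I]

theorem F_norm_le {ι : Type} [Fintype ι] (d : ι → ℕ) (x : ℝ) : ‖F d x‖ ≤ 1 := by
  unfold F
  rw [norm_div]
  have h1 : ‖∑ i, e ((d i : ℝ) * x)‖ ≤ (Fintype.card ι : ℝ) := by
    refine (norm_sum_le _ _).trans ?_
    simp [e_norm]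
  by_cases h0 : Fintype.card ι = 0
  · simp [h0]
  have hpos : (0 : ℝ) < Fintype.card ι := by positivity
  rw [Complex.norm_natCast]
  rw [div_le_one hpos]
  exact h1

/-- `F d (h/c)` only depends on `h mod c`. -/
theorem F_mod {ι : Type} [Fintype ι] (d : ι → ℕ) (h c : ℕ) (hc : 0 < c) :
    F d ((h : ℝ) / c) = F d (((h % c : ℕ) : ℝ) / c) := by
  unfold F
  congr 1
  apply Finset.sum_congr rfl
  intro i _
  have hc' : (c : ℝ) ≠ 0 := by positivity
  have h1 : (h : ℝ) = ((h % c : ℕ) : ℝ) + (c : ℝ) * ((h / c : ℕ) : ℝ) := by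
    exact_mod_cast (Nat.mod_add_div h c).symm
  have h2 : (d i : ℝ) * ((h : ℝ) / c) =
      (d i : ℝ) * (((h % c : ℕ) : ℝ) / c) + ((d i * (h / c) : ℕ) : ℝ) := by
    rw [h1]
    push_cast
    field_simp
  rw [h2, e_add, e_nat, mul_one]

/-- sup bound for the sums at fractions with denominator exactly `c`. -/
def SupB {ι : Type} [Fintype ι] (d : ι → ℕ) (c : ℕ) (ε : ℝ) : Prop :=
  ∀ h : ℕ, Nat.Coprime h c → ‖F d ((h : ℝ) / c)‖ ≤ ε

theorem F_prod {ι κ : Type} [Fintype ι] [Fintype κ] (d1 : ι → ℕ) (d2 : κ → ℕ) (x : ℝ) :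
    F (fun a : ι × κ => d1 a.1 * d2 a.2) x
      = (∑ j, F d1 ((d2 j : ℝ) * x)) / (Fintype.card κ : ℂ) := by
  unfold F
  rw [Fintype.sum_prod_type_right, Fintype.card_prod, ← Finset.sum_div, div_div]
  congr 1
  · apply Finset.sum_congr rfl
    intro j _
    apply Finset.sum_congr rfl
    intro i _
    congr 1
    push_cast; ring
  · push_cast; ring

theorem SupB.prod {ι κ : Type} [Fintype ι] [Fintype κ] [Nonempty κ] (d1 : ι → ℕ) (d2 : κ → ℕ)
    (c : ℕ) (ε : ℝ) (h1 : SupB d1 c ε) (h2 : ∀ j, Nat.Coprime (d2 j) c) :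
    SupB (fun a : ι × κ => d1 a.1 * d2 a.2) c ε := by
  intro h hh
  rw [F_prod, norm_div, Complex.norm_natCast]
  have hpos : (0 : ℝ) < Fintype.card κ := by
    have := Fintype.card_pos (α := κ)
    positivity
  rw [div_le_iff₀ hpos]
  refine (norm_sum_le _ _).trans ?_
  have : ∀ j ∈ (univ : Finset κ), ‖F d1 ((d2 j : ℝ) * ((h : ℝ) / c))‖ ≤ ε := by
    intro j _
    have h3 := h1 (d2 j * h) (Nat.Coprime.mul_left (h2 j) hh)
    have h4 : (((d2 j * h : ℕ) : ℝ)) / c = (d2 j : ℝ) * ((h : ℝ) / c) := by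
      push_cast; ring
    rwa [h4] at h3
  refine (Finset.sum_le_card_nsmul _ _ _ this).trans ?_
  rw [nsmul_eq_mul, Finset.card_univ, mul_comm]

/-- reindexing -/
theorem F_equiv {ι κ : Type} [Fintype ι] [Fintype κ] (f : ι ≃ κ) (d : κ → ℕ) (x : ℝ) :
    F (fun i => d (f i)) x = F d x := by
  unfold F
  rw [Fintype.card_congr f]
  congr 1
  exact Equiv.sum_comp f (fun k => e ((d k : ℝ) * x))

/-- the block equivalence -/
def blockEquiv (ι : Type) (j : ℕ) :
    (ι × (Fin j → Bool)) × Bool ≃ ι × (Fin (j + 1) → Bool) :=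
  (Equiv.prodAssoc ι (Fin j → Bool) Bool).trans
    (Equiv.prodCongr (Equiv.refl ι)
      ((Equiv.prodComm _ _).trans (Fin.snocEquiv (fun _ => Bool))))

theorem dB_succ {ι : Type} (d : ι → ℕ) (pq : ℕ → ℕ × ℕ) (j : ℕ)
    (a : (ι × (Fin j → Bool)) × Bool) :
    dB d pq (j + 1) (blockEquiv ι j a) = dStep (dB d pq j) (pq j).1 (pq j).2 a := by
  obtain ⟨⟨i, b⟩, c⟩ := a
  simp only [dB, dStep, blockEquiv, Equiv.trans_apply, Equiv.prodAssoc_apply, Equiv.prodCongr_apply,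
    Prod.map_apply, Equiv.refl_apply, Equiv.prodComm_apply, Prod.swap_prod_mk]
  rw [Fin.prod_univ_castSucc]
  simp [Fin.snocEquiv, mul_assoc]

theorem F_dB_succ {ι : Type} [Fintype ι] (d : ι → ℕ) (pq : ℕ → ℕ × ℕ) (j : ℕ) (x : ℝ) :
    F (dB d pq (j + 1)) x = F (dStep (dB d pq j) (pq j).1 (pq j).2) x := by
  rw [← F_equiv (blockEquiv ι j)]
  congr 1
  funext a
  exact dB_succ d pq j a

theorem SupB.step {ι : Type} [Fintype ι] (d : ι → ℕ) (pq : ℕ → ℕ × ℕ) (j c : ℕ) (ε : ℝ)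
    (h1 : SupB (dB d pq j) c ε) (hp : Nat.Coprime (pq j).1 c) (hq : Nat.Coprime (pq j).2 c) :
    SupB (dB d pq (j + 1)) c ε := by
  intro h hh
  rw [F_dB_succ]
  have := SupB.prod (dB d pq j) (fun b : Bool => if b then (pq j).1 else (pq j).2) c ε h1
    (by intro b; cases b <;> simpa) h hh
  exact this

theorem SupB.mono_j {ι : Type} [Fintype ι] (d : ι → ℕ) (pq : ℕ → ℕ × ℕ) (j B c : ℕ) (ε : ℝ)
    (hjB : j ≤ B) (h1 : SupB (dB d pq j) c ε)
    (hp : ∀ l < B, Nat.Coprime (pq l).1 c ∧ Nat.Coprime (pq l).2 c) :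
    SupB (dB d pq B) c ε := by
  induction B, hjB using Nat.le_induction with
  | base => exact h1
  | succ n hn ih =>
    apply SupB.step
    · exact ih (fun l hl => hp l (by omega))
    · exact (hp n (by omega)).1
    · exact (hp n (by omega)).2

end A

end Crest.Agent.EG
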