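import Crest.Agent.EGCoreA

set_option autoImplicit false

namespace Crest.Agent.EG

open Finset

namespace A

theorem e_sum {α : Type} (s : Finset α) (f : α → ℝ) : e (∑ i ∈ s, f i) = ∏ i ∈ s, e (f i) := by
  classical
  induction s using Finset.induction_on with
  | empty => simpa using e_nat 0
  | insert a s ha ih => rw [Finset.sum_insert ha, Finset.prod_insert ha, e_add, ih]

theorem F_pow {ι : Type} [Fintype ι] (d : ι → ℕ) (K : ℕ) (x : ℝ) :
    F d x ^ K = (∑ v : Fin K → ι, e (((∑ i, d (v i) : ℕ) : ℝ) * x)) / ((Fintype.card ι : ℂ)) ^ K := by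
  unfold F
  rw [div_pow, Fintype.sum_pow]
  congr 1
  apply Finset.sum_congr rfl
  intro v _
  rw [← e_sum]
  congr 1
  push_cast
  rw [Finset.sum_mul]

theorem ls_app (hLS : LSStmt) {ι : Type} [Fintype ι] (d : ι → ℕ) (K D Z : ℕ)
    (hZ : 1 ≤ Z) (hD : ∀ i, d i ≤ D) :
    ∑ c ∈ Icc 1 Z, ∑ h ∈ (range c).filter (fun h => Nat.Coprime h c),
        ‖F d ((h : ℝ) / (c : ℝ))‖ ^ (2 * K)
      ≤ 20 * (((K * D : ℕ) : ℝ) + 1 + (Z : ℝ) ^ 2) * En d K := by
  have h1 := hLS (Fin K → ι) (fun v => ∑ i, d (v i)) (K * D) Z hZ (by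
    intro v
    refine (Finset.sum_le_card_nsmul _ _ D (fun i _ => hD _)).trans ?_
    simp)
  by_cases hcard : Fintype.card ι = 0 ∧ 0 < K
  · -- degenerate case
    have hF : ∀ x, F d x = 0 := by
      intro x
      unfold F
      rw [hcard.1]
      simp
    have h2 : ∀ c ∈ Icc 1 Z, ∑ h ∈ (range c).filter (fun h => Nat.Coprime h c),
        ‖F d ((h : ℝ) / (c : ℝ))‖ ^ (2 * K) = 0 := by
      intro c _
      apply Finset.sum_eq_zero
      intro h _
      rw [hF]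
      simp
      omega
    rw [Finset.sum_eq_zero h2]
    have : 0 ≤ En d K := by unfold En; positivity
    positivity
  have hc : (0 : ℝ) < (Fintype.card ι : ℝ) ^ (2 * K) := by
    rw [not_and_or] at hcard
    rcases hcard with h | h
    · have : 0 < Fintype.card ι := Nat.pos_of_ne_zero h
      positivity
    · have : K = 0 := by omega
      subst this
      simp
  have key : ∀ x : ℝ, ‖F d x‖ ^ (2 * K) =
      ‖∑ v : Fin K → ι, e (((∑ i, d (v i) : ℕ) : ℝ) * x)‖ ^ 2 / (Fintype.card ι : ℝ) ^ (2 * K) := by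
    intro x
    have h3 : ‖F d x‖ ^ (2 * K) = ‖F d x ^ K‖ ^ 2 := by
      rw [norm_pow, ← pow_mul, mul_comm]
    rw [h3, F_pow, norm_div, div_pow, norm_pow, Complex.norm_natCast, ← pow_mul, mul_comm K 2]
  have h4 : ∑ c ∈ Icc 1 Z, ∑ h ∈ (range c).filter (fun h => Nat.Coprime h c),
        ‖F d ((h : ℝ) / (c : ℝ))‖ ^ (2 * K) =
      (∑ c ∈ Icc 1 Z, ∑ h ∈ (range c).filter (fun h => Nat.Coprime h c),
        ‖∑ v : Fin K → ι, e (((∑ i, d (v i) : ℕ) : ℝ) * ((h : ℝ) / (c : ℝ)))‖ ^ 2)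
        / (Fintype.card ι : ℝ) ^ (2 * K) := by
    rw [Finset.sum_div]
    apply Finset.sum_congr rfl
    intro c _
    rw [Finset.sum_div]
    apply Finset.sum_congr rfl
    intro h _
    exact key _
  rw [h4, div_le_iff₀ hc]
  refine h1.trans (le_of_eq ?_)
  unfold En
  field_simp

/-- the large-conductor bad set at dyadic scale `i` -/
noncomputable def V {ι : Type} [Fintype ι] (d : ι → ℕ) (K c : ℕ) : ℝ :=
  ∑ h ∈ (range c).filter (fun h => Nat.Coprime h c), ‖F d ((h : ℝ) / (c : ℝ))‖ ^ (2 * K)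

theorem V_nonneg {ι : Type} [Fintype ι] (d : ι → ℕ) (K c : ℕ) : 0 ≤ V d K c :=
  Finset.sum_nonneg (fun _ _ => by positivity)

theorem le_V {ι : Type} [Fintype ι] (d : ι → ℕ) (K c h : ℕ) (hc : 0 < c)
    (hh : Nat.Coprime h c) : ‖F d ((h : ℝ) / c)‖ ^ (2 * K) ≤ V d K c := by
  rw [F_mod d h c hc]
  unfold V
  refine Finset.single_le_sum (f := fun h : ℕ => ‖F d ((h : ℝ) / (c : ℝ))‖ ^ (2 * K))
    (fun _ _ => by positivity) ?_
  rw [Finset.mem_filter, Finset.mem_range]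
  refine ⟨Nat.mod_lt _ hc, ?_⟩
  have := hh
  unfold Nat.Coprime at this ⊢
  rw [Nat.gcd_comm, Nat.gcd_rec] at this
  exact this

open Classical in
/-- number of `c ≤ Z` with `V > τ`. -/
theorem bad_card (hLS : LSStmt) {ι : Type} [Fintype ι] (d : ι → ℕ) (K D Z : ℕ) (τ : ℝ)
    (hZ : 1 ≤ Z) (hD : ∀ i, d i ≤ D) :
    (((Icc 1 Z).filter (fun c => τ < V d K c)).card : ℝ) * τ
      ≤ 20 * (((K * D : ℕ) : ℝ) + 1 + (Z : ℝ) ^ 2) * En d K := by
  refine le_trans ?_ (ls_app hLS d K D Z hZ hD)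
  calc (((Icc 1 Z).filter (fun c => τ < V d K c)).card : ℝ) * τ
      = ∑ c ∈ (Icc 1 Z).filter (fun c => τ < V d K c), τ := by simp
    _ ≤ ∑ c ∈ (Icc 1 Z).filter (fun c => τ < V d K c), V d K c := by
        apply Finset.sum_le_sum
        intro c hc
        exact (Finset.mem_filter.mp hc).2.le
    _ ≤ ∑ c ∈ Icc 1 Z, V d K c := by
        apply Finset.sum_le_sum_of_subset_of_nonneg (Finset.filter_subset _ _)
        intro c _ _
        exact V_nonneg d K c
    _ = _ := rfl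

end A

end Crest.Agent.EG
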