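import Crest.Agent.EGCoreB

set_option autoImplicit false

namespace Crest.Agent.EG

open Finset Filter

namespace A

/-- primes up to `s` -/
noncomputable def Pr (s : ℕ) : Finset ℕ := (Finset.range (s + 1)).filter Nat.Prime

/-- primes in `(2^(294 l), 2^(300 l)]` -/
noncomputable def AA (l : ℕ) : Finset ℕ := (Finset.Ioc (2 ^ (294 * l)) (2 ^ (300 * l))).filter Nat.Prime

theorem card_Pr (s : ℕ) : (Pr s).card = Nat.primeCounting s := by
  unfold Pr Nat.primeCounting Nat.primeCounting'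
  rw [Nat.count_eq_card_filter_range]

theorem pi_pow_ge (m : ℕ) (hm : 1 ≤ m) :
    (2 : ℝ) ^ m ≤ m * (Nat.primeCounting (2 ^ m) : ℝ) + m + 1 := by
  have h := Chebyshev.pi_ge (2 ^ m)
  have hl2 : 0 < Real.log 2 := Real.log_pos (by norm_num)
  have h1 : Real.log ((2 ^ m : ℕ) : ℝ) = m * Real.log 2 := by
    push_cast
    rw [Real.log_pow]
  have h2 : Real.log (((2 ^ m : ℕ) : ℝ) + 1) ≤ (m + 1) * Real.log 2 := by
    have : ((m : ℝ) + 1) * Real.log 2 = Real.log ((2 : ℝ) ^ (m + 1)) := by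
      rw [Real.log_pow]; push_cast; ring
    rw [this]
    apply Real.log_le_log (by positivity)
    push_cast
    have : (1 : ℝ) ≤ 2 ^ m := one_le_pow₀ (by norm_num)
    rw [pow_succ]
    linarith
  have hm0 : (0 : ℝ) < m * Real.log 2 := by positivity
  rw [h1, div_le_iff₀ hm0] at h
  push_cast at h h2
  have h3 : (2 : ℝ) ^ m * Real.log 2 ≤
      (m * (Nat.primeCounting (2 ^ m) : ℝ) + m + 1) * Real.log 2 := by
    nlinarith
  exact le_of_mul_le_mul_right h3 hl2

theorem card_AA (l : ℕ) (hl : 8 ≤ l) : (2 : ℝ) ^ (298 * l) ≤ ((AA l).card : ℝ) := by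
  have h1 := pi_pow_ge (300 * l) (by omega)
  have h2 : Nat.primeCounting (2 ^ (300 * l)) ≤ (AA l).card + 2 ^ (294 * l) := by
    rw [← card_Pr]
    have : Pr (2 ^ (300 * l)) ⊆ AA l ∪ Finset.Ioc 0 (2 ^ (294 * l)) := by
      intro p hp
      simp only [Pr, Finset.mem_filter, Finset.mem_range] at hp
      simp only [AA, Finset.mem_union, Finset.mem_filter, Finset.mem_Ioc]
      by_cases h : p ≤ 2 ^ (294 * l)
      · right; exact ⟨hp.2.pos, h⟩
      · left; exact ⟨⟨by omega, by omega⟩, hp.2⟩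
    refine (Finset.card_le_card this).trans ?_
    refine (Finset.card_union_le _ _).trans ?_
    simp
  have h2' : (Nat.primeCounting (2 ^ (300 * l)) : ℝ) ≤ (AA l).card + 2 ^ (294 * l) := by
    exact_mod_cast h2
  -- arithmetic
  have hl2 : ∀ l : ℕ, 8 ≤ l → (1000 : ℝ) * l ≤ 2 ^ (2 * l) := by
    intro l hl
    induction l, hl using Nat.le_induction with
    | base => norm_num
    | succ n hn ih =>
      have : (2 : ℝ) ^ (2 * (n + 1)) = 4 * 2 ^ (2 * n) := by
        rw [show 2 * (n + 1) = 2 * n + 2 by ring, pow_add]; ring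
      rw [this]
      push_cast
      have : (8 : ℝ) ≤ n := by exact_mod_cast hn
      nlinarith
  have e1 : (2 : ℝ) ^ (300 * l) = 2 ^ (2 * l) * 2 ^ (298 * l) := by
    rw [← pow_add]; congr 1; ring
  have e2 : (2 : ℝ) ^ (294 * l) ≤ 2 ^ (298 * l) / 2 := by
    have : (2 : ℝ) ^ (298 * l) = 2 ^ (4 * l) * 2 ^ (294 * l) := by
      rw [← pow_add]; congr 1; ring
    rw [this]
    have h16 : (2 : ℝ) ≤ 2 ^ (4 * l) := by
      calc (2 : ℝ) = 2 ^ 1 := by norm_num
        _ ≤ 2 ^ (4 * l) := pow_le_pow_right₀ (by norm_num) (by omega)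
    have : (0 : ℝ) < 2 ^ (294 * l) := by positivity
    nlinarith
  have h3 := hl2 l hl
  have hlpos : (8 : ℝ) ≤ l := by exact_mod_cast hl
  have hbig : (1 : ℝ) ≤ 2 ^ (298 * l) := one_le_pow₀ (by norm_num)
  have hP : (0 : ℝ) < 2 ^ (298 * l) := by positivity
  push_cast at h1
  rw [e1] at h1
  -- 2^(2l) * P ≤ 300 l (card + P/2) + 300 l + 1
  have h4 : (2 : ℝ) ^ (2 * l) * 2 ^ (298 * l) ≤
      300 * l * ((AA l).card + 2 ^ (298 * l) / 2) + 300 * l + 1 := by
    refine h1.trans ?_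
    have : (300 : ℝ) * l * (Nat.primeCounting (2 ^ (300 * l)) : ℝ) ≤
        300 * l * ((AA l).card + 2 ^ (298 * l) / 2) := by
      apply mul_le_mul_of_nonneg_left _ (by positivity)
      linarith
    linarith
  have h5 : (1000 : ℝ) * l * 2 ^ (298 * l) ≤ 2 ^ (2 * l) * 2 ^ (298 * l) :=
    mul_le_mul_of_nonneg_right h3 hP.le
  by_contra hcon
  push Not at hcon
  have h6 : (300 : ℝ) * l * ((AA l).card + 2 ^ (298 * l) / 2) ≤
      300 * l * (2 ^ (298 * l) + 2 ^ (298 * l) / 2) := by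
    apply mul_le_mul_of_nonneg_left _ (by positivity)
    linarith
  have h7 : (l : ℝ) ≤ l * 2 ^ (298 * l) := by nlinarith
  nlinarith

theorem pi_large : ∀ᶠ s : ℕ in atTop, (s : ℝ) ≤ 2 * Real.log s * ((Pr s).card : ℝ) := by
  have h1 : ∀ᶠ s : ℕ in atTop, Real.log ((s : ℝ) + 1) ≤ (1 / 10) * s := by
    have := (Real.isLittleO_log_id_atTop).comp_tendsto
      (tendsto_atTop_add_const_right _ (1 : ℝ) tendsto_natCast_atTop_atTop)
    have h2 := this.def (show (0 : ℝ) < 1 / 20 by norm_num)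
    filter_upwards [h2, eventually_ge_atTop 1] with s hs hs1
    simp only [Function.comp, id] at hs
    have hs1' : (1 : ℝ) ≤ s := by exact_mod_cast hs1
    rw [Real.norm_eq_abs, Real.norm_eq_abs, abs_of_nonneg (Real.log_nonneg (by linarith)),
      abs_of_nonneg (by linarith)] at hs
    linarith
  filter_upwards [h1, eventually_ge_atTop 3] with s hs hs3
  have h := Chebyshev.pi_ge s
  rw [card_Pr]
  have hs3' : (3 : ℝ) ≤ s := by exact_mod_cast hs3
  have hlog : 0 < Real.log s := Real.log_pos (by linarith)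
  rw [div_le_iff₀ hlog] at h
  have hl2 : (0.69 : ℝ) < Real.log 2 := by
    have := Real.log_two_gt_d9; linarith
  nlinarith

theorem small_eventually (t : ℕ) : ∀ᶠ s : ℕ in atTop,
    (1 + 6 * (Nat.factorial t : ℝ) * ((s : ℝ) / ((Pr s).card : ℝ)) ^ t) / Real.sqrt s
      ≤ (s : ℝ) ^ (-(1 / 4 : ℝ)) := by
  have h1 := pi_large
  -- (1 + 6 t! (2 log s)^t) ≤ s^(1/4)
  have h2 : Tendsto (fun s : ℕ => (1 + 6 * (Nat.factorial t : ℝ) * (2 * Real.log s) ^ t)
      * (s : ℝ) ^ (-(1 / 4 : ℝ))) atTop (nhds 0) := by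
    have ha : Tendsto (fun x : ℝ => Real.log x ^ t * x ^ (-(1 / 4 : ℝ))) atTop (nhds 0) := by
      have := (isLittleO_log_rpow_rpow_atTop (t : ℝ) (show (0 : ℝ) < 1 / 4 by norm_num)).tendsto_div_nhds_zero
      refine this.congr' ?_
      filter_upwards [eventually_gt_atTop 0] with x hx
      rw [Real.rpow_natCast, Real.rpow_neg hx.le, div_eq_mul_inv]
    have hb : Tendsto (fun x : ℝ => x ^ (-(1 / 4 : ℝ))) atTop (nhds 0) :=
      tendsto_rpow_neg_atTop (by norm_num)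
    have hc := (hb.add (ha.const_mul (6 * (Nat.factorial t : ℝ) * 2 ^ t))).comp
      (tendsto_natCast_atTop_atTop (R := ℝ))
    simp only [mul_zero, add_zero] at hc
    refine hc.congr ?_
    intro s
    simp only [Function.comp]
    rw [mul_pow]; ring
  have h3 : ∀ᶠ s : ℕ in atTop, (1 + 6 * (Nat.factorial t : ℝ) * (2 * Real.log s) ^ t)
      * (s : ℝ) ^ (-(1 / 4 : ℝ)) ≤ 1 := by
    have := h2.eventually (gt_mem_nhds (show (0 : ℝ) < 1 by norm_num))
    filter_upwards [this] with s hs using hs.le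
  filter_upwards [h1, h3, eventually_ge_atTop 3] with s hs1 hs2 hs3
  have hs3' : (3 : ℝ) ≤ s := by exact_mod_cast hs3
  have hspos : (0 : ℝ) < s := by linarith
  have hcard : 0 < ((Pr s).card : ℝ) := by
    by_contra h
    have h0 : ((Pr s).card : ℝ) = 0 := le_antisymm (by simpa using h) (by positivity)
    rw [h0] at hs1
    simp at hs1
    linarith
  have hle : (s : ℝ) / ((Pr s).card : ℝ) ≤ 2 * Real.log s := by
    rw [div_le_iff₀ hcard]; exact hs1
  have h5 : (1 + 6 * (Nat.factorial t : ℝ) * ((s : ℝ) / ((Pr s).card : ℝ)) ^ t) ≤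
      1 + 6 * (Nat.factorial t : ℝ) * (2 * Real.log s) ^ t := by
    have : ((s : ℝ) / ((Pr s).card : ℝ)) ^ t ≤ (2 * Real.log s) ^ t :=
      pow_le_pow_left₀ (by positivity) hle t
    have h6 : 0 ≤ 6 * (Nat.factorial t : ℝ) := by positivity
    nlinarith
  have hsq : Real.sqrt s = (s : ℝ) ^ (1 / 2 : ℝ) := Real.sqrt_eq_rpow _
  rw [hsq, div_le_iff₀ (by positivity), ← Real.rpow_add hspos]
  norm_num
  have h7 : (s : ℝ) ^ (-(1 / 4 : ℝ)) * (s : ℝ) ^ (1 / 4 : ℝ) = 1 := by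
    rw [← Real.rpow_add hspos]; norm_num
  have h8 : 0 < (s : ℝ) ^ (1 / 4 : ℝ) := by positivity
  have h9 : (1 + 6 * (Nat.factorial t : ℝ) * (2 * Real.log s) ^ t) ≤ (s : ℝ) ^ (1 / 4 : ℝ) := by
    have := mul_le_mul_of_nonneg_right hs2 h8.le
    rw [mul_assoc, h7] at this
    linarith
  linarith

theorem Pr_card_pow : ∀ᶠ s : ℕ in atTop, (2 : ℝ) ^ (4 * Nat.log 2 s) ≤ ((Pr s).card : ℝ) ^ 5 := by
  have h1 := pi_large
  have h3 : ∀ᶠ s : ℕ in atTop, (2 * Real.log s) ^ 5 ≤ (s : ℝ) := by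
    have ha : Tendsto (fun x : ℝ => Real.log x ^ 5 * x ^ (-(1 : ℝ))) atTop (nhds 0) := by
      have := (isLittleO_log_rpow_rpow_atTop (5 : ℝ) (show (0 : ℝ) < 1 by norm_num)).tendsto_div_nhds_zero
      refine this.congr' ?_
      filter_upwards [eventually_gt_atTop 0] with x hx
      rw [show (5 : ℝ) = ((5 : ℕ) : ℝ) by norm_num, Real.rpow_natCast, Real.rpow_neg hx.le,
        div_eq_mul_inv]
    have hc := (ha.comp (tendsto_natCast_atTop_atTop (R := ℝ))).eventually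
      (gt_mem_nhds (show (0 : ℝ) < 1 / 32 by norm_num))
    filter_upwards [hc, eventually_ge_atTop 1] with s hs hs1
    have hspos : (0 : ℝ) < s := by exact_mod_cast hs1
    simp only [Function.comp] at hs
    rw [Real.rpow_neg hspos.le, Real.rpow_one, ← div_eq_mul_inv, div_lt_iff₀ hspos] at hs
    rw [mul_pow]
    linarith
  filter_upwards [h1, h3, eventually_ge_atTop 3] with s hs1 hs2 hs3
  have hs3' : (3 : ℝ) ≤ s := by exact_mod_cast hs3
  have hspos : (0 : ℝ) < s := by linarith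
  have hlog : 0 < Real.log s := Real.log_pos (by linarith)
  have h4 : (s : ℝ) ^ 5 ≤ (2 * Real.log s) ^ 5 * ((Pr s).card : ℝ) ^ 5 := by
    rw [← mul_pow]; exact pow_le_pow_left₀ hspos.le hs1 5
  have h5 : (s : ℝ) ^ 5 ≤ s * ((Pr s).card : ℝ) ^ 5 := by
    refine h4.trans ?_
    apply mul_le_mul_of_nonneg_right hs2 (by positivity)
  have h6 : (s : ℝ) ^ 4 ≤ ((Pr s).card : ℝ) ^ 5 := by
    have : (s : ℝ) * s ^ 4 ≤ s * ((Pr s).card : ℝ) ^ 5 := by
      calc (s : ℝ) * s ^ 4 = s ^ 5 := by ring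
        _ ≤ _ := h5
    exact le_of_mul_le_mul_left this hspos
  refine le_trans ?_ h6
  have : (2 : ℕ) ^ (Nat.log 2 s) ≤ s := Nat.pow_log_le_self 2 (by omega)
  have h7 : (2 : ℝ) ^ (Nat.log 2 s) ≤ s := by exact_mod_cast this
  calc (2 : ℝ) ^ (4 * Nat.log 2 s) = ((2 : ℝ) ^ (Nat.log 2 s)) ^ 4 := by
        rw [← pow_mul, mul_comm]
    _ ≤ (s : ℝ) ^ 4 := pow_le_pow_left₀ (by positivity) h7 4

end A

end Crest.Agent.EG
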