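import Crest.Agent.EGCoreC

set_option autoImplicit false

namespace Crest.Agent.EG

open Finset Filter

namespace A

/-- the number of `t`-tuples of primes with given product is at most `t!`. -/
theorem tuples_card (S : Finset ℕ) (hS : ∀ p ∈ S, p.Prime) (t : ℕ) : ∀ n : ℕ,
    (univ.filter (fun v : Fin t → {x // x ∈ S} => ∏ i, (v i).val = n)).card ≤ Nat.factorial t := by
  classical
  induction t with
  | zero =>
    intro n
    refine (Finset.card_le_univ _).trans ?_
    simp
  | succ t ih =>
    intro n
    by_cases hne : (univ.filter (fun v : Fin (t + 1) → {x // x ∈ S} => ∏ i, (v i).val = n)).Nonempty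
    · obtain ⟨w, hw⟩ := hne
      rw [Finset.mem_filter] at hw
      have hw := hw.2
      -- the set of possible first values
      have hmaps : ∀ v ∈ univ.filter (fun v : Fin (t + 1) → {x // x ∈ S} => ∏ i, (v i).val = n),
          v 0 ∈ univ.image w := by
        intro v hv
        rw [Finset.mem_filter] at hv
        have hv := hv.2
        have hp : (v 0).val.Prime := hS _ (v 0).2
        have hdvd : (v 0).val ∣ ∏ i, (w i).val := by
          rw [hw, ← hv]
          exact Finset.dvd_prod_of_mem _ (Finset.mem_univ 0)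
        rw [hp.prime.dvd_finset_prod_iff] at hdvd
        obtain ⟨i, _, hi⟩ := hdvd
        rw [Nat.prime_dvd_prime_iff_eq hp (hS _ (w i).2)] at hi
        rw [Finset.mem_image]
        exact ⟨i, Finset.mem_univ _, Subtype.ext hi.symm⟩
      rw [Finset.card_eq_sum_card_fiberwise hmaps]
      have hfib : ∀ b ∈ univ.image w,
          ((univ.filter (fun v : Fin (t + 1) → {x // x ∈ S} => ∏ i, (v i).val = n)).filter
            (fun v => v 0 = b)).card ≤ Nat.factorial t := by
        intro b _
        have hb : b.val.Prime := hS _ b.2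
        refine le_trans ?_ (ih (n / b.val))
        refine Finset.card_le_card_of_injOn (fun v => fun i => v i.succ) ?_ ?_
        · intro v hv
          simp only [Finset.coe_filter, Finset.mem_filter, Finset.mem_univ, true_and,
            Set.mem_setOf_eq] at hv ⊢
          obtain ⟨hv1, hv2⟩ := hv
          rw [Fin.prod_univ_succ, hv2] at hv1
          rw [← hv1, Nat.mul_div_cancel_left _ hb.pos]
        · intro v hv v' hv' hvv
          simp only [Finset.coe_filter, Finset.mem_filter, Finset.mem_univ, true_and,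
            Set.mem_setOf_eq] at hv hv'
          funext i
          refine Fin.cases ?_ (fun i => ?_) i
          · rw [hv.2, hv'.2]
          · exact congrFun hvv i
      refine (Finset.sum_le_card_nsmul _ _ _ hfib).trans ?_
      rw [smul_eq_mul, Nat.factorial_succ]
      apply Nat.mul_le_mul_right
      refine Finset.card_image_le.trans ?_
      simp
    · rw [Finset.not_nonempty_iff_eq_empty] at hne
      rw [hne]
      simp

theorem pairs_card (S : Finset ℕ) (hS : ∀ p ∈ S, p.Prime) (t : ℕ) :
    (univ.filter (fun vw : (Fin t → {x // x ∈ S}) × (Fin t → {x // x ∈ S}) =>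
      ∏ i, (vw.1 i).val = ∏ i, (vw.2 i).val)).card ≤ Nat.factorial t * S.card ^ t := by
  classical
  have hmaps : ∀ vw ∈ univ.filter (fun vw : (Fin t → {x // x ∈ S}) × (Fin t → {x // x ∈ S}) =>
      ∏ i, (vw.1 i).val = ∏ i, (vw.2 i).val), vw.2 ∈ (univ : Finset (Fin t → {x // x ∈ S})) :=
    fun _ _ => Finset.mem_univ _
  rw [Finset.card_eq_sum_card_fiberwise hmaps]
  have hfib : ∀ w ∈ (univ : Finset (Fin t → {x // x ∈ S})),
      ((univ.filter (fun vw : (Fin t → {x // x ∈ S}) × (Fin t → {x // x ∈ S}) =>
      ∏ i, (vw.1 i).val = ∏ i, (vw.2 i).val)).filter (fun vw => vw.2 = w)).card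
        ≤ Nat.factorial t := by
    intro w _
    refine le_trans ?_ (tuples_card S hS t (∏ i, (w i).val))
    refine Finset.card_le_card_of_injOn (fun vw => vw.1) ?_ ?_
    · intro vw hvw
      simp only [Finset.coe_filter, Finset.mem_filter, Finset.mem_univ, true_and,
        Set.mem_setOf_eq] at hvw ⊢
      rw [hvw.1, hvw.2]
    · intro a ha b hb hab
      simp only [Finset.coe_filter, Finset.mem_filter, Finset.mem_univ, true_and,
        Set.mem_setOf_eq] at ha hb
      exact Prod.ext hab (ha.2.trans hb.2.symm)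
  refine (Finset.sum_le_card_nsmul _ _ _ hfib).trans ?_
  rw [smul_eq_mul, mul_comm]
  apply Nat.mul_le_mul_left
  rw [Finset.card_univ, Fintype.card_pi]
  simp

theorem En_one_le (S : Finset ℕ) (hS : ∀ p ∈ S, p.Prime) (t : ℕ) (hne : S.Nonempty) :
    En (fun a : Fin t → {x // x ∈ S} => ∏ i, (a i).val) 1
      ≤ (Nat.factorial t : ℝ) / (S.card : ℝ) ^ t := by
  classical
  have hpos : (0 : ℝ) < (S.card : ℝ) := by exact_mod_cast hne.card_pos
  unfold En
  have hc : (Fintype.card (Fin t → {x // x ∈ S}) : ℝ) = (S.card : ℝ) ^ t := by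
    rw [Fintype.card_pi]; simp
  rw [hc]
  have h1 : (univ.filter (fun vw : (Fin 1 → (Fin t → {x // x ∈ S})) × (Fin 1 → (Fin t → {x // x ∈ S})) =>
      ∑ i, (∏ k, ((vw.1 i) k).val) = ∑ i, (∏ k, ((vw.2 i) k).val))).card
      ≤ Nat.factorial t * S.card ^ t := by
    refine le_trans ?_ (pairs_card S hS t)
    refine Finset.card_le_card_of_injOn (fun vw => (vw.1 0, vw.2 0)) ?_ ?_
    · intro vw hvw
      simp only [Finset.coe_filter, Finset.mem_univ, true_and, Set.mem_setOf_eq,
        Fin.sum_univ_one] at hvw ⊢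
      exact hvw
    · intro a _ b _ hab
      simp only [Prod.mk.injEq] at hab
      refine Prod.ext ?_ ?_
      · funext i; rw [Subsingleton.elim i 0]; exact hab.1
      · funext i; rw [Subsingleton.elim i 0]; exact hab.2
  have h2 : ((univ.filter (fun vw : (Fin 1 → (Fin t → {x // x ∈ S})) × (Fin 1 → (Fin t → {x // x ∈ S})) =>
      ∑ i, (∏ k, ((vw.1 i) k).val) = ∑ i, (∏ k, ((vw.2 i) k).val))).card : ℝ)
      ≤ (Nat.factorial t : ℝ) * (S.card : ℝ) ^ t := by exact_mod_cast h1
  rw [div_le_div_iff₀ (by positivity) (by positivity)]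
  calc _ ≤ (Nat.factorial t : ℝ) * (S.card : ℝ) ^ t * (S.card : ℝ) ^ t :=
        mul_le_mul_of_nonneg_right h2 (by positivity)
    _ = _ := by ring

/-- few large primes divide a given number -/
theorem card_dvd_le (S : Finset ℕ) (a n e r : ℕ) (hS : ∀ p ∈ S, p.Prime ∧ 2 ^ a < p) (hn : 0 < n)
    (hne : n < 2 ^ e) (hr : e ≤ a * (r + 1)) : (S.filter (· ∣ n)).card ≤ r := by
  by_contra hcon
  push Not at hcon
  have h1 : ∏ p ∈ S.filter (· ∣ n), p ∣ n := by
    apply Finset.prod_primes_dvd
    · intro p hp
      exact ((hS p (Finset.mem_filter.mp hp).1).1).prime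
    · intro p hp
      exact (Finset.mem_filter.mp hp).2
  have h2 : (2 ^ a) ^ (S.filter (· ∣ n)).card ≤ ∏ p ∈ S.filter (· ∣ n), p := by
    apply Finset.pow_card_le_prod
    intro p hp
    exact (hS p (Finset.mem_filter.mp hp).1).2.le
  have h3 := Nat.le_of_dvd hn h1
  have h4 : 2 ^ e ≤ (2 ^ a) ^ (S.filter (· ∣ n)).card := by
    rw [← pow_mul]
    apply Nat.pow_le_pow_right (by norm_num)
    refine hr.trans (Nat.mul_le_mul_left _ hcon)
  omega

end A

end Crest.Agent.EG
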