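import Crest.Agent.EGCoreD

set_option autoImplicit false

namespace Crest.Agent.EG

open Finset Filter

namespace A

/-- number of prime factors used in the second family -/
def T1 : ℕ := 900
/-- number of prime factors used in the first family -/
def T0 : ℕ := 10000

/-- the parameters -/
structure Par (x s l B : ℕ) : Prop where
  hl : 1000 ≤ l
  hs1 : 2 ^ l ≤ s
  hs2 : s < 2 ^ (l + 1)
  hx1 : s * s ≤ x
  hx2 : x < 2 ^ (2 * l + 2)
  hB : B = 2 * x / (300 * l) + 1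
  hPr : (2 : ℝ) ^ (4 * l) ≤ ((Pr s).card : ℝ) ^ 5
  hfac : (Nat.factorial T1 : ℝ) ≤ 2 ^ (120 * l)
  hSC : (1 + 6 * (Nat.factorial T0 : ℝ) * ((s : ℝ) / ((Pr s).card : ℝ)) ^ T0) / Real.sqrt s
      ≤ (s : ℝ) ^ (-(1 / 4 : ℝ))

/-- the second family (products of `T1` primes) -/
noncomputable def d1 (s : ℕ) (a : Fin T1 → {x // x ∈ Pr s}) : ℕ := ∏ i, (a i).val

theorem Pr_prime (s : ℕ) : ∀ p ∈ Pr s, p.Prime := fun _ hp => (Finset.mem_filter.mp hp).2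

theorem Pr_le (s : ℕ) : ∀ p ∈ Pr s, p ≤ s := fun p hp => by
  have := Finset.mem_range.mp (Finset.mem_filter.mp hp).1
  omega

theorem Pr_ne (s : ℕ) (hs : 2 ≤ s) : (Pr s).Nonempty :=
  ⟨2, by simp only [Pr, Finset.mem_filter, Finset.mem_range]; exact ⟨by omega, Nat.prime_two⟩⟩

/-! numerics -/

theorem num1 (l : ℕ) : (1 - (1 / 100 : ℝ) / 2) ^ (4 * (15000 * l)) ≤ (1 / 2) ^ (300 * l) := by
  have h1 : (1 - (1 / 100 : ℝ) / 2) ^ (4 * (15000 * l)) = ((1 - (1 / 100 : ℝ) / 2) ^ 200) ^ (300 * l) := by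
    rw [← pow_mul]; congr 1; ring
  rw [h1]
  apply pow_le_pow_left₀ (by positivity)
  norm_num

theorem num2 (l : ℕ) : (1 + (1 / 100 : ℝ) ^ 2 / 2) ^ (2 * (15000 * l)) ≤ 2 ^ (3 * l) := by
  have h2 : (1 + (1 / 100 : ℝ) ^ 2 / 2) ≤ Real.exp (1 / 20000) := by
    have := Real.add_one_le_exp (1 / 20000 : ℝ)
    norm_num at this ⊢
    linarith
  generalize hz : (1 + (1 / 100 : ℝ) ^ 2 / 2) = z at h2 ⊢
  have hz0 : 0 ≤ z := by rw [← hz]; positivity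
  have h3 : z ^ (2 * (15000 * l)) ≤ Real.exp (1 / 20000) ^ (2 * (15000 * l)) :=
    pow_le_pow_left₀ hz0 h2 _
  refine h3.trans ?_
  rw [← Real.exp_nat_mul]
  have h4 : ((2 * (15000 * l) : ℕ) : ℝ) * (1 / 20000) ≤ (l : ℝ) * 2 := by
    push_cast
    have : (0 : ℝ) ≤ l := Nat.cast_nonneg l
    linarith
  refine (Real.exp_le_exp.mpr h4).trans ?_
  rw [Real.exp_nat_mul, mul_comm 3 l, pow_mul']
  apply pow_le_pow_left₀ (Real.exp_pos _).le
  have h5 : Real.exp 2 = Real.exp 1 ^ 2 := by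
    rw [← Real.exp_nat_mul]; norm_num
  have h6 := Real.exp_one_lt_d9
  have h7 := Real.exp_pos 1
  rw [h5]
  nlinarith

theorem sqrt_theta (l : ℕ) : Real.sqrt ((1 / 2 : ℝ) ^ (600 * l)) = (1 / 2) ^ (300 * l) := by
  have : (1 / 2 : ℝ) ^ (600 * l) = ((1 / 2) ^ (300 * l)) ^ 2 := by
    rw [← pow_mul]; congr 1; ring
  rw [this, Real.sqrt_sq (by positivity)]

theorem half_pow_le (a : ℕ) (ha : 10 ≤ a) : (1 / 2 : ℝ) ^ a ≤ 1 / 1024 := by
  calc (1 / 2 : ℝ) ^ a ≤ (1 / 2) ^ 10 := pow_le_pow_of_le_one (by norm_num) (by norm_num) ha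
    _ = 1 / 1024 := by norm_num

theorem num3 (l : ℕ) (hl : 1000 ≤ l) (r : ℝ) (hr0 : 0 ≤ r) (hr : r ≤ (1 / 2) ^ (296 * l - 6)) :
    2 * (1 - (1 / 100 : ℝ) / 2) ^ (4 * (15000 * l))
      + 4 * (1 + (1 / 100 : ℝ) ^ 2 / 2) ^ (2 * (15000 * l)) *
        (r + 2 * Real.sqrt ((1 / 2 : ℝ) ^ (600 * l))) ≤ (1 / 2) ^ (292 * l) / 2 := by
  rw [sqrt_theta]
  have h1 := num1 l
  have h2 := num2 l
  have hz : (0 : ℝ) < (1 / 2) ^ (292 * l) := by positivity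
  have e1 : (1 / 2 : ℝ) ^ (300 * l) = (1 / 2) ^ (292 * l) * (1 / 2) ^ (8 * l) := by
    rw [← pow_add]; congr 1; ring
  have e2 : (2 : ℝ) ^ (3 * l) * (1 / 2) ^ (296 * l - 6) = (1 / 2) ^ (292 * l) * (1 / 2) ^ (l - 6) := by
    have : (1 / 2 : ℝ) ^ (296 * l - 6) = (1 / 2) ^ (3 * l) * ((1 / 2) ^ (292 * l) * (1 / 2) ^ (l - 6)) := by
      rw [← pow_add, ← pow_add]; congr 1; omega
    rw [this, ← mul_assoc, ← mul_pow]; norm_num
  have e3 : (2 : ℝ) ^ (3 * l) * (1 / 2) ^ (300 * l) = (1 / 2) ^ (292 * l) * (1 / 2) ^ (5 * l) := by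
    have : (1 / 2 : ℝ) ^ (300 * l) = (1 / 2) ^ (3 * l) * ((1 / 2) ^ (292 * l) * (1 / 2) ^ (5 * l)) := by
      rw [← pow_add, ← pow_add]; congr 1; omega
    rw [this, ← mul_assoc, ← mul_pow]; norm_num
  have f1 := half_pow_le (8 * l) (by omega)
  have f2 := half_pow_le (l - 6) (by omega)
  have f3 := half_pow_le (5 * l) (by omega)
  have g : (1 + (1 / 100 : ℝ) ^ 2 / 2) ^ (2 * (15000 * l)) * (r + 2 * (1 / 2) ^ (300 * l)) ≤
      2 ^ (3 * l) * ((1 / 2) ^ (296 * l - 6) + 2 * (1 / 2) ^ (300 * l)) := by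
    apply mul_le_mul h2 (by linarith) (by positivity) (by positivity)
  have g2 : (2 : ℝ) ^ (3 * l) * ((1 / 2) ^ (296 * l - 6) + 2 * (1 / 2) ^ (300 * l)) =
      (1 / 2) ^ (292 * l) * (1 / 2) ^ (l - 6) + 2 * ((1 / 2) ^ (292 * l) * (1 / 2) ^ (5 * l)) := by
    rw [mul_add, e2, mul_left_comm, e3]
  rw [g2] at g
  rw [e1] at h1
  have k1 : (1 / 2 : ℝ) ^ (292 * l) * (1 / 2) ^ (8 * l) ≤ (1 / 2) ^ (292 * l) * (1 / 1024) :=
    mul_le_mul_of_nonneg_left f1 hz.le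
  have k2 : (1 / 2 : ℝ) ^ (292 * l) * (1 / 2) ^ (l - 6) ≤ (1 / 2) ^ (292 * l) * (1 / 1024) :=
    mul_le_mul_of_nonneg_left f2 hz.le
  have k3 : (1 / 2 : ℝ) ^ (292 * l) * (1 / 2) ^ (5 * l) ≤ (1 / 2) ^ (292 * l) * (1 / 1024) :=
    mul_le_mul_of_nonneg_left f3 hz.le
  have m1 : 4 * (1 + (1 / 100 : ℝ) ^ 2 / 2) ^ (2 * (15000 * l)) * (r + 2 * (1 / 2) ^ (300 * l)) =
    4 * ((1 + (1 / 100 : ℝ) ^ 2 / 2) ^ (2 * (15000 * l)) * (r + 2 * (1 / 2) ^ (300 * l))) := by ring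
  rw [e1] at m1 g
  rw [e1, m1]
  linarith

theorem num4 (l j : ℕ) (hl : 1000 ≤ l) :
    8 * (1 + (1 / 100 : ℝ) ^ 2 / 2) ^ (2 * (15000 * l)) *
      ((1 / 2 : ℝ) ^ (600 * l) / 2 ^ j) ^ (15000 * l + 1) ≤ ((1 / 2) ^ (292 * l)) ^ (j + 1) := by
  have h2 := num2 l
  have e1 : ((1 / 2 : ℝ) ^ (600 * l) / 2 ^ j) ^ (15000 * l + 1) =
      (1 / 2) ^ ((600 * l + j) * (15000 * l + 1)) := by
    rw [pow_mul _ (600 * l + j) (15000 * l + 1), pow_add _ (600 * l) j, div_eq_mul_inv]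
    rw [show ((2 : ℝ) ^ j)⁻¹ = (1 / 2) ^ j by rw [one_div, inv_pow]]
  rw [e1, ← pow_mul]
  have hexp : 292 * l * (j + 1) + (3 + 3 * l) ≤ (600 * l + j) * (15000 * l + 1) := by
    have h3 : 0 ≤ l * j := Nat.zero_le _
    nlinarith
  have h4 : (1 / 2 : ℝ) ^ ((600 * l + j) * (15000 * l + 1)) ≤
      (1 / 2) ^ (292 * l * (j + 1) + (3 + 3 * l)) :=
    pow_le_pow_of_le_one (by norm_num) (by norm_num) hexp
  have h5 : 8 * (1 + (1 / 100 : ℝ) ^ 2 / 2) ^ (2 * (15000 * l)) ≤ 2 ^ (3 + 3 * l) := by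
    rw [pow_add]; norm_num at h2 ⊢; linarith
  calc 8 * (1 + (1 / 100 : ℝ) ^ 2 / 2) ^ (2 * (15000 * l)) * (1 / 2) ^ ((600 * l + j) * (15000 * l + 1))
      ≤ 2 ^ (3 + 3 * l) * (1 / 2) ^ (292 * l * (j + 1) + (3 + 3 * l)) :=
        mul_le_mul h5 h4 (by positivity) (by positivity)
    _ = (1 / 2) ^ (292 * l * (j + 1)) := by
        rw [pow_add _ (292 * l * (j + 1)) (3 + 3 * l), mul_left_comm, ← mul_pow]; norm_num

theorem pow_two_gt (l : ℕ) (hl : 1000 ≤ l) : 15000 * l < 2 ^ l := by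
  induction l, hl using Nat.le_induction with
  | base =>
    have : 2 ^ 24 ≤ 2 ^ 1000 := Nat.pow_le_pow_right (by norm_num) (by norm_num)
    have h2 : 15000 * 1000 < 2 ^ 24 := by norm_num
    exact lt_of_lt_of_le h2 this
  | succ n hn ih => rw [pow_succ]; omega

theorem B_le {x s l B : ℕ} (P : Par x s l B) : B < 2 ^ (2 * l + 3) := by
  have h1 := P.hB
  have h2 := P.hx2
  have hl := P.hl
  have h3 : 2 * x / (300 * l) ≤ x := by
    apply Nat.div_le_of_le_mul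
    nlinarith
  have : 2 ^ (2 * l + 3) = 2 * 2 ^ (2 * l + 2) := by rw [pow_succ]; ring
  omega

theorem card_AA_nat {l : ℕ} (hl : 1000 ≤ l) : 2 ^ (298 * l) ≤ (AA l).card := by
  have := card_AA l (by omega)
  exact_mod_cast this

theorem AA_mem {l p : ℕ} (hp : p ∈ AA l) : p.Prime ∧ 2 ^ (294 * l) < p ∧ p ≤ 2 ^ (300 * l) := by
  simp only [AA, Finset.mem_filter, Finset.mem_Ioc] at hp
  exact ⟨hp.2, hp.1.1, hp.1.2⟩

theorem d1_pos (s : ℕ) (a : Fin T1 → {x // x ∈ Pr s}) : 0 < d1 s a :=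
  Finset.prod_pos (fun i _ => (Pr_prime s _ (a i).2).pos)

theorem d1_le (s : ℕ) (a : Fin T1 → {x // x ∈ Pr s}) : d1 s a ≤ s ^ T1 := by
  unfold d1
  refine (Finset.prod_le_pow_card _ _ s (fun i _ => Pr_le s _ (a i).2)).trans ?_
  simp

theorem d1_dvd (s : ℕ) (a : Fin T1 → {x // x ∈ Pr s}) {p : ℕ} (hp : p.Prime) (h : p ∣ d1 s a) :
    p ≤ s := by
  unfold d1 at h
  rw [hp.prime.dvd_finsetProd_iff] at h
  obtain ⟨i, _, hi⟩ := h
  rw [Nat.prime_dvd_prime_iff_eq hp (Pr_prime s _ (a i).2)] at hi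
  rw [hi]
  exact Pr_le s _ (a i).2

theorem s_pow_le {x s l B : ℕ} (P : Par x s l B) (t : ℕ) : s ^ t ≤ 2 ^ ((l + 1) * t) := by
  rw [pow_mul]
  exact Nat.pow_le_pow_left P.hs2.le t

theorem en_app (hEN : ENStmt) {x s l B : ℕ} (P : Par x s l B) :
    ∃ pq : ℕ → ℕ × ℕ, (∀ j < B, (pq j).1 ∈ AA l ∧ (pq j).2 ∈ AA l) ∧
      ∀ j ≤ B, En (dB (d1 s) pq j) (2 * (15000 * l)) ≤ 2 * ((1 / 2 : ℝ) ^ (292 * l)) ^ j := by
  have hl := P.hl
  have hs2 : 2 ≤ s := by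
    have := P.hs1
    have h2 : 2 ^ 1 ≤ 2 ^ l := Nat.pow_le_pow_right (by norm_num) (by omega)
    omega
  have hne : (Pr s).Nonempty := Pr_ne s hs2
  have : Nonempty {x // x ∈ Pr s} := hne.to_subtype
  have hB := B_le P
  have hAA := card_AA_nat hl
  have hTT : T1 = 900 := rfl
  have hcardpos : (0 : ℝ) < ((Pr s).card : ℝ) := by exact_mod_cast hne.card_pos
  refine hEN (Fin T1 → {x // x ∈ Pr s}) (d1 s) (AA l) (15000 * l) B (2 ^ (300 * l)) (s ^ T1)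
    (2 * B + 10) ((1 / 2) ^ (600 * l)) (1 / 100) ((1 / 2) ^ (292 * l)) (by omega) ?_ ?_ ?_ ?_ ?_
    (by positivity) (pow_le_one₀ (by norm_num) (by norm_num)) ?_ (by norm_num) (by norm_num)
    (by positivity) ?_ ?_
  · intro p hp
    obtain ⟨h1, h2, h3⟩ := AA_mem hp
    refine ⟨h1, ?_, h3⟩
    have : 2 ^ 1 ≤ 2 ^ (294 * l) := Nat.pow_le_pow_right (by norm_num) (by omega)
    omega
  · intro a
    exact ⟨d1_pos s a, d1_le s a⟩
  · intro p hp a hdvd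
    obtain ⟨h1, h2, h3⟩ := AA_mem hp
    have h4 := d1_dvd s a h1 hdvd
    have h5 := P.hs2
    have : 2 ^ (l + 1) ≤ 2 ^ (294 * l) := Nat.pow_le_pow_right (by norm_num) (by omega)
    omega
  · intro n hn hn2
    refine card_dvd_le (AA l) (294 * l) n (300 * l * (B + 1) + l + (l + 1) * T1) (2 * B + 10)
      (fun p hp => ⟨(AA_mem hp).1, (AA_mem hp).2.1⟩) hn ?_ ?_
    · refine lt_of_le_of_lt hn2 ?_
      have h1 := pow_two_gt l hl
      have h2 := s_pow_le P T1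
      have e1 : 2 ^ (300 * l * (B + 1) + l + (l + 1) * T1) =
          2 ^ (300 * l) * (2 ^ l * (2 ^ ((l + 1) * T1) * (2 ^ (300 * l)) ^ B)) := by
        rw [← pow_mul, ← pow_add, ← pow_add, ← pow_add]
        congr 1; ring
      rw [e1]
      apply Nat.mul_lt_mul_of_pos_left _ (by positivity)
      apply Nat.mul_lt_mul_of_lt_of_le h1 _ (by positivity)
      exact Nat.mul_le_mul_right _ h2
    · rw [hTT]
      have : 0 ≤ l * B := Nat.zero_le _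
      nlinarith
  · refine (En_one_le (Pr s) (Pr_prime s) T1 hne).trans ?_
    have h5 : (2 : ℝ) ^ (720 * l) ≤ ((Pr s).card : ℝ) ^ T1 := by
      have e1 : (2 : ℝ) ^ (720 * l) = (2 ^ (4 * l)) ^ 180 := by
        rw [← pow_mul]; congr 1; ring
      have e2 : ((Pr s).card : ℝ) ^ T1 = (((Pr s).card : ℝ) ^ 5) ^ 180 := by
        rw [← pow_mul]; congr 1
      rw [e1, e2]
      exact pow_le_pow_left₀ (by positivity) P.hPr _
    rw [div_le_iff₀ (by positivity)]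
    have h6 := P.hfac
    calc (Nat.factorial T1 : ℝ) ≤ 2 ^ (120 * l) := h6
      _ = (1 / 2) ^ (600 * l) * 2 ^ (720 * l) := by
          have : (2 : ℝ) ^ (720 * l) = 2 ^ (600 * l) * 2 ^ (120 * l) := by
            rw [← pow_add]; congr 1; ring
          rw [this, ← mul_assoc, ← mul_pow]; norm_num
      _ ≤ _ := mul_le_mul_of_nonneg_left h5 (by positivity)
  · have h1 : 2 ^ (2 * l + 6) ≤ 2 ^ (298 * l) := Nat.pow_le_pow_right (by norm_num) (by omega)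
    have h2 : 2 ^ (2 * l + 6) = 8 * 2 ^ (2 * l + 3) := by
      rw [show 2 * l + 6 = 3 + (2 * l + 3) by ring, pow_add]; norm_num
    have h3 : 1 ≤ 2 ^ (2 * l + 3) := Nat.one_le_two_pow
    omega
  · have hr : 2 * ((2 * B + 10 : ℕ) : ℝ) / ((AA l).card : ℝ) ≤ (1 / 2) ^ (296 * l - 6) := by
      have hc : (2 : ℝ) ^ (298 * l) ≤ ((AA l).card : ℝ) := card_AA l (by omega)
      have hcpos : (0 : ℝ) < ((AA l).card : ℝ) := lt_of_lt_of_le (by positivity) hc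
      rw [div_le_iff₀ hcpos]
      have h1 : 2 * (2 * B + 10) ≤ 2 ^ (2 * l + 6) := by
        have h2 : 2 ^ (2 * l + 6) = 8 * 2 ^ (2 * l + 3) := by
          rw [show 2 * l + 6 = 3 + (2 * l + 3) by ring, pow_add]; norm_num
        have h3 : 2 ^ 5 ≤ 2 ^ (2 * l + 3) := Nat.pow_le_pow_right (by norm_num) (by omega)
        omega
      have h1' : 2 * ((2 * B + 10 : ℕ) : ℝ) ≤ 2 ^ (2 * l + 6) := by exact_mod_cast h1
      refine h1'.trans ?_
      calc (2 : ℝ) ^ (2 * l + 6) = (1 / 2) ^ (296 * l - 6) * 2 ^ (298 * l) := by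
            have : (2 : ℝ) ^ (298 * l) = 2 ^ (296 * l - 6) * 2 ^ (2 * l + 6) := by
              rw [← pow_add]; congr 1; omega
            rw [this, ← mul_assoc, ← mul_pow]; norm_num
        _ ≤ _ := mul_le_mul_of_nonneg_left hc (by positivity)
    exact num3 l hl _ (by positivity) hr
  · intro j _
    exact num4 l j hl

end A

end Crest.Agent.EG
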