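import Crest.Agent.EGCoreE

set_option autoImplicit false

namespace Crest.Agent.EG

open Finset Filter

namespace A

theorem pow_two_gt' (l : ℕ) (hl : 1000 ≤ l) : 1000000 * l < 2 ^ l := by
  induction l, hl using Nat.le_induction with
  | base =>
    have : 2 ^ 30 ≤ 2 ^ 1000 := Nat.pow_le_pow_right (by norm_num) (by norm_num)
    have h2 : 1000000 * 1000 < 2 ^ 30 := by norm_num
    exact lt_of_lt_of_le h2 this
  | succ n hn ih => rw [pow_succ]; omega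

theorem En_nonneg {ι : Type} [Fintype ι] (d : ι → ℕ) (k : ℕ) : 0 ≤ En d k := by
  unfold En; positivity

theorem s_big {x s l B : ℕ} (P : Par x s l B) : 1000000 * l ≤ s :=
  (pow_two_gt' l P.hl).le.trans P.hs1

theorem x_big1 {x s l B : ℕ} (P : Par x s l B) : 1000000 * (l * s) ≤ x := by
  refine le_trans ?_ P.hx1
  have := Nat.mul_le_mul_right s (s_big P)
  rwa [mul_assoc] at this

theorem x_big2 {x s l B : ℕ} (P : Par x s l B) : 1000000000000 * (l * l) ≤ x := by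
  refine le_trans ?_ (x_big1 P)
  have := Nat.mul_le_mul_left l (s_big P)
  have h2 : l * (1000000 * l) = 1000000 * (l * l) := by ring
  rw [h2] at this
  omega

/-- the number of blocks used at scale `i` -/
def jj (l i : ℕ) : ℕ := 2 * i / (300 * l) + 1

theorem jj_upper {l i : ℕ} : 300 * (l * jj l i) ≤ 2 * i + 300 * l := by
  unfold jj
  have := Nat.mul_div_le (2 * i) (300 * l)
  have h2 : 300 * (l * (2 * i / (300 * l) + 1)) = 300 * l * (2 * i / (300 * l)) + 300 * l := by ring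
  omega

theorem jj_lower {l i : ℕ} (hl : 0 < l) : 2 * i ≤ 300 * (l * jj l i) := by
  unfold jj
  have := Nat.lt_mul_div_succ (2 * i) (show 0 < 300 * l by omega)
  have h2 : 300 * (l * (2 * i / (300 * l) + 1)) = 300 * l * (2 * i / (300 * l) + 1) := by ring
  omega

theorem jj_le {x s l B : ℕ} (P : Par x s l B) {i : ℕ} (hi : i ≤ x) : jj l i ≤ B := by
  rw [P.hB]
  unfold jj
  have : 2 * i / (300 * l) ≤ 2 * x / (300 * l) := Nat.div_le_div_right (by omega)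
  omega

theorem dB_le {s l B : ℕ} (pq : ℕ → ℕ × ℕ) (h1 : ∀ j < B, (pq j).1 ∈ AA l ∧ (pq j).2 ∈ AA l)
    (j : ℕ) (hj : j ≤ B) (a : (Fin T1 → {x // x ∈ Pr s}) × (Fin j → Bool)) :
    dB (d1 s) pq j a ≤ s ^ T1 * 2 ^ (300 * (l * j)) := by
  unfold dB
  apply Nat.mul_le_mul (d1_le s a.1)
  have : ∏ k : Fin j, (if a.2 k then (pq k).1 else (pq k).2) ≤ ∏ k : Fin j, 2 ^ (300 * l) := by
    apply Finset.prod_le_prod' 
    intro k _
    have := h1 k (by omega)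
    split_ifs
    · exact (AA_mem this.1).2.2
    · exact (AA_mem this.2).2.2
  refine this.trans (le_of_eq ?_)
  rw [Finset.prod_const, Finset.card_univ, Fintype.card_fin, ← pow_mul]
  congr 1; ring

open Classical in
theorem badi_card (hLS : LSStmt) {x s l B : ℕ} (P : Par x s l B) (pq : ℕ → ℕ × ℕ)
    (h1 : ∀ j < B, (pq j).1 ∈ AA l ∧ (pq j).2 ∈ AA l)
    (h2 : ∀ j ≤ B, En (dB (d1 s) pq j) (2 * (15000 * l)) ≤ 2 * ((1 / 2 : ℝ) ^ (292 * l)) ^ j)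
    (i : ℕ) (hi : T0 * l ≤ i) (hix : i ≤ x) :
    ((Icc 1 (2 ^ i)).filter (fun c => (1 / 2 : ℝ) ^ (i / 10) <
      V (dB (d1 s) pq (jj l i)) (2 * (15000 * l)) c)).card ≤ 2 ^ (i / 4) := by
  have hl := P.hl
  have hT0 : T0 = 10000 := rfl
  have hjB := jj_le P hix
  set j := jj l i with hj
  have hup : 300 * (l * j) ≤ 2 * i + 300 * l := jj_upper
  have hlo : 2 * i ≤ 300 * (l * j) := jj_lower (by omega)
  have hb := bad_card hLS (dB (d1 s) pq j) (2 * (15000 * l)) (s ^ T1 * 2 ^ (300 * (l * j))) (2 ^ i)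
    ((1 / 2 : ℝ) ^ (i / 10)) Nat.one_le_two_pow (dB_le pq h1 j hjB)
  have hE := h2 j hjB
  set cnt := ((Icc 1 (2 ^ i)).filter (fun c => (1 / 2 : ℝ) ^ (i / 10) <
      V (dB (d1 s) pq j) (2 * (15000 * l)) c)).card with hcnt
  -- bound of the bracket
  have g1 : 2 * (15000 * l) * (s ^ T1 * 2 ^ (300 * (l * j))) + 1 + (2 ^ i) ^ 2 ≤
      3 * 2 ^ (901 * (l + 1) + 300 * (l * j)) := by
    have a1 := pow_two_gt l hl
    have a2 := s_pow_le P T1
    have e1 : 2 ^ (901 * (l + 1) + 300 * (l * j)) = (2 * 2 ^ l) * (2 ^ ((l + 1) * T1) * 2 ^ (300 * (l * j))) := by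
      rw [← pow_succ', ← pow_add, ← pow_add]; congr 1
      have : T1 = 900 := rfl
      rw [this]; ring
    have a3 : 2 * (15000 * l) * (s ^ T1 * 2 ^ (300 * (l * j))) ≤
        (2 * 2 ^ l) * (2 ^ ((l + 1) * T1) * 2 ^ (300 * (l * j))) := by
      apply Nat.mul_le_mul (by omega)
      exact Nat.mul_le_mul_right _ a2
    rw [← e1] at a3
    have a4 : (2 ^ i) ^ 2 ≤ 2 ^ (901 * (l + 1) + 300 * (l * j)) := by
      rw [← pow_mul]
      apply Nat.pow_le_pow_right (by norm_num)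
      omega
    have a5 : 1 ≤ 2 ^ (901 * (l + 1) + 300 * (l * j)) := Nat.one_le_two_pow
    omega
  have g1' : (((2 * (15000 * l) * (s ^ T1 * 2 ^ (300 * (l * j))) : ℕ) : ℝ) + 1 + ((2 ^ i : ℕ) : ℝ) ^ 2) ≤
      3 * 2 ^ (901 * (l + 1) + 300 * (l * j)) := by exact_mod_cast g1
  have g2 : (cnt : ℝ) * (1 / 2 : ℝ) ^ (i / 10) ≤
      20 * (3 * 2 ^ (901 * (l + 1) + 300 * (l * j))) * (2 * ((1 / 2 : ℝ) ^ (292 * l)) ^ j) := by
    refine hb.trans ?_
    apply mul_le_mul _ hE _ (by positivity)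
    · apply mul_le_mul_of_nonneg_left g1' (by norm_num)
    · exact En_nonneg _ _
  have g3 : (20 : ℝ) * (3 * 2 ^ (901 * (l + 1) + 300 * (l * j))) * (2 * ((1 / 2 : ℝ) ^ (292 * l)) ^ j) ≤
      2 ^ (7 + 901 * (l + 1) + 8 * (l * j)) := by
    have e1 : (2 : ℝ) ^ (901 * (l + 1) + 300 * (l * j)) = 2 ^ (901 * (l + 1) + 8 * (l * j)) * 2 ^ (292 * (l * j)) := by
      rw [← pow_add]; congr 1; ring
    have e2 : ((1 / 2 : ℝ) ^ (292 * l)) ^ j = (1 / 2) ^ (292 * (l * j)) := by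
      rw [← pow_mul]; congr 1; ring
    have e3 : (2 : ℝ) ^ (292 * (l * j)) * (1 / 2) ^ (292 * (l * j)) = 1 := by
      rw [← mul_pow]; norm_num
    have e4 : (2 : ℝ) ^ (7 + 901 * (l + 1) + 8 * (l * j)) = 128 * 2 ^ (901 * (l + 1) + 8 * (l * j)) := by
      rw [add_assoc, pow_add _ 7]; norm_num
    rw [e1, e2, e4]
    have : (20 : ℝ) * (3 * (2 ^ (901 * (l + 1) + 8 * (l * j)) * 2 ^ (292 * (l * j)))) *
        (2 * (1 / 2) ^ (292 * (l * j))) = 120 * 2 ^ (901 * (l + 1) + 8 * (l * j)) *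
          (2 ^ (292 * (l * j)) * (1 / 2) ^ (292 * (l * j))) := by ring
    rw [this, e3]
    have : (0 : ℝ) < 2 ^ (901 * (l + 1) + 8 * (l * j)) := by positivity
    linarith
  have g4 : (cnt : ℝ) ≤ 2 ^ (7 + 901 * (l + 1) + 8 * (l * j) + i / 10) := by
    have := g2.trans g3
    rw [pow_add _ (7 + 901 * (l + 1) + 8 * (l * j)) (i / 10)]
    calc (cnt : ℝ) = cnt * (1 / 2 : ℝ) ^ (i / 10) * 2 ^ (i / 10) := by
          rw [mul_assoc, ← mul_pow]; norm_num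
      _ ≤ _ := mul_le_mul_of_nonneg_right this (by positivity)
  have g5 : cnt ≤ 2 ^ (7 + 901 * (l + 1) + 8 * (l * j) + i / 10) := by exact_mod_cast g4
  refine g5.trans (Nat.pow_le_pow_right (by norm_num) ?_)
  rw [hT0] at hi
  omega

/-- prime power bad divisors -/
noncomputable def M1 (s : ℕ) : Finset ℕ :=
  ((Icc 1 s).filter (fun p => p.Prime ∧ p ≠ 2)).image
    (fun p => p ^ (4 * (Nat.factorial s).factorization p + 1))

/-- bad primes -/
def M2 (B P0 : ℕ) (pq : ℕ → ℕ × ℕ) : Finset ℕ :=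
  ((range B).image (fun j => (pq j).1) ∪ (range B).image (fun j => (pq j).2)) ∪ {P0}

open Classical in
/-- bad conductors -/
noncomputable def M3 (x s l : ℕ) (pq : ℕ → ℕ × ℕ) : Finset ℕ :=
  (Icc (T0 * l) x).biUnion (fun i => (Ioc (2 ^ (i - 1)) (2 ^ i)).filter (fun c => Odd c ∧
    (1 / 2 : ℝ) ^ (i / 10) < V (dB (d1 s) pq (jj l i)) (2 * (15000 * l)) c))

theorem M1_ge (s : ℕ) (m : ℕ) (hm : m ∈ M1 s) : s ^ 2 ≤ m ∧ Odd m := by
  unfold M1 at hm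
  rw [Finset.mem_image] at hm
  obtain ⟨p, hp, rfl⟩ := hm
  simp only [Finset.mem_filter, Finset.mem_Icc] at hp
  obtain ⟨⟨hp1, hps⟩, hp, hp2⟩ := hp
  constructor
  · -- a = log_p s
    have hs0 : s ≠ 0 := by omega
    have ha : 1 ≤ Nat.log p s := Nat.log_pos hp.one_lt hps
    have hv : Nat.log p s ≤ (Nat.factorial s).factorization p := by
      have hd : p ^ Nat.log p s ∣ Nat.factorial s := by
        apply Nat.dvd_factorial (pow_pos hp.pos _) (Nat.pow_log_le_self p hs0)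
      exact (hp.pow_dvd_iff_le_factorization (Nat.factorial_ne_zero s)).mp hd
    have hlt : s < p ^ (Nat.log p s + 1) := Nat.lt_pow_succ_log_self hp.one_lt s
    calc s ^ 2 ≤ (p ^ (Nat.log p s + 1)) ^ 2 := Nat.pow_le_pow_left hlt.le 2
      _ = p ^ ((Nat.log p s + 1) * 2) := by rw [pow_mul]
      _ ≤ _ := Nat.pow_le_pow_right hp.pos (by omega)
  · exact (hp.odd_of_ne_two hp2).pow

theorem M1_card (s : ℕ) : (M1 s).card ≤ s := by
  unfold M1
  refine Finset.card_image_le.trans ((Finset.card_filter_le _ _).trans ?_)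
  simp

theorem M2_card (B P0 : ℕ) (pq : ℕ → ℕ × ℕ) : (M2 B P0 pq).card ≤ 2 * B + 1 := by
  unfold M2
  refine (Finset.card_union_le _ _).trans ?_
  have h1 := Finset.card_union_le ((range B).image (fun j => (pq j).1)) ((range B).image (fun j => (pq j).2))
  have h2 : ((range B).image (fun j => (pq j).1)).card ≤ B := by
    refine Finset.card_image_le.trans ?_; simp
  have h3 : ((range B).image (fun j => (pq j).2)).card ≤ B := by
    refine Finset.card_image_le.trans ?_; simp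
  simp only [Finset.card_singleton]
  omega

theorem sum_inv_le (S : Finset ℕ) (r a : ℝ) (ha : 0 < a) (h : ∀ m ∈ S, a ≤ (m : ℝ)) (hr : (S.card : ℝ) ≤ r) :
    ∑ m ∈ S, (1 : ℝ) / (m : ℝ) ≤ r * (1 / a) := by
  calc ∑ m ∈ S, (1 : ℝ) / (m : ℝ) ≤ ∑ m ∈ S, 1 / a := by
        apply Finset.sum_le_sum
        intro m hm
        exact one_div_le_one_div_of_le ha (h m hm)
    _ = S.card * (1 / a) := by rw [Finset.sum_const, nsmul_eq_mul]
    _ ≤ _ := mul_le_mul_of_nonneg_right hr (by positivity)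

theorem M1_sum {x s l B : ℕ} (P : Par x s l B) : ∑ m ∈ M1 s, (1 : ℝ) / (m : ℝ) ≤ 1 / 100 := by
  have hs := s_big P
  have hl := P.hl
  have hs' : (1000 : ℝ) ≤ s := by
    have : 1000 ≤ s := by omega
    exact_mod_cast this
  refine (sum_inv_le (M1 s) s ((s : ℝ) ^ 2) (by positivity) (fun m hm => by
    exact_mod_cast (M1_ge s m hm).1) (by exact_mod_cast M1_card s)).trans ?_
  rw [mul_one_div, div_le_div_iff₀ (by positivity) (by norm_num)]
  nlinarith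

theorem M2_sum {x s l B P0 : ℕ} (P : Par x s l B) (pq : ℕ → ℕ × ℕ)
    (h1 : ∀ j < B, (pq j).1 ∈ AA l ∧ (pq j).2 ∈ AA l) (hP0 : s < P0) :
    ∑ m ∈ M2 B P0 pq, (1 : ℝ) / (m : ℝ) ≤ 2 / 100 := by
  have hs := s_big P
  have hl := P.hl
  have hB := B_le P
  have h0 : ∀ f : ℕ → ℕ, (∀ j < B, f j ∈ AA l) → ∑ m ∈ (range B).image f, (1 : ℝ) / (m : ℝ) ≤ 1 / 1000 := by
    intro f hf
    have hc : (((range B).image f).card : ℝ) ≤ 2 ^ (2 * l + 3) := by
      have : ((range B).image f).card ≤ B := by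
        refine Finset.card_image_le.trans ?_; simp
      have h2 : ((range B).image f).card ≤ 2 ^ (2 * l + 3) := by omega
      exact_mod_cast h2
    refine (sum_inv_le _ _ ((2 : ℝ) ^ (294 * l)) (by positivity) ?_ hc).trans ?_
    · intro m hm
      rw [Finset.mem_image] at hm
      obtain ⟨j, hj, rfl⟩ := hm
      have := (AA_mem (hf j (Finset.mem_range.mp hj))).2.1.le
      exact_mod_cast this
    · rw [mul_one_div, div_le_div_iff₀ (by positivity) (by norm_num)]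
      have e1 : (2 : ℝ) ^ (294 * l) = 2 ^ (2 * l + 3) * 2 ^ (292 * l - 3) := by
        rw [← pow_add]; congr 1; omega
      have e2 : (2 : ℝ) ^ 10 ≤ 2 ^ (292 * l - 3) := pow_le_pow_right₀ (by norm_num) (by omega)
      rw [e1, one_mul]
      apply mul_le_mul_of_nonneg_left _ (by positivity)
      refine le_trans ?_ e2
      norm_num
  have ha := h0 (fun j => (pq j).1) (fun j hj => (h1 j hj).1)
  have hb := h0 (fun j => (pq j).2) (fun j hj => (h1 j hj).2)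
  have hc : ∑ m ∈ ({P0} : Finset ℕ), (1 : ℝ) / (m : ℝ) ≤ 1 / 1000 := by
    rw [Finset.sum_singleton]
    apply one_div_le_one_div_of_le (by norm_num)
    have : 1000 ≤ P0 := by omega
    exact_mod_cast this
  have hun : ∀ (S T : Finset ℕ), ∑ m ∈ S ∪ T, (1 : ℝ) / (m : ℝ) ≤
      ∑ m ∈ S, (1 : ℝ) / (m : ℝ) + ∑ m ∈ T, (1 : ℝ) / (m : ℝ) := by
    intro S T
    rw [← Finset.sum_union_inter]
    have : 0 ≤ ∑ m ∈ S ∩ T, (1 : ℝ) / (m : ℝ) := Finset.sum_nonneg (fun _ _ => by positivity)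
    linarith
  unfold M2
  refine (hun _ _).trans ?_
  have := hun ((range B).image (fun j => (pq j).1)) ((range B).image (fun j => (pq j).2))
  linarith

theorem M3_mem {x s l m : ℕ} {pq : ℕ → ℕ × ℕ} (hm : m ∈ M3 x s l pq) :
    ∃ i, T0 * l ≤ i ∧ i ≤ x ∧ 2 ^ (i - 1) < m ∧ Odd m := by
  unfold M3 at hm
  simp only [Finset.mem_biUnion, Finset.mem_filter, Finset.mem_Icc, Finset.mem_Ioc] at hm
  obtain ⟨i, ⟨hi1, hi2⟩, ⟨hm1, _⟩, hm2, _⟩ := hm
  exact ⟨i, hi1, hi2, hm1, hm2⟩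

open Classical in
theorem M3_card (hLS : LSStmt) {x s l B : ℕ} (P : Par x s l B) (pq : ℕ → ℕ × ℕ)
    (h1 : ∀ j < B, (pq j).1 ∈ AA l ∧ (pq j).2 ∈ AA l)
    (h2 : ∀ j ≤ B, En (dB (d1 s) pq j) (2 * (15000 * l)) ≤ 2 * ((1 / 2 : ℝ) ^ (292 * l)) ^ j) :
    (M3 x s l pq).card ≤ (x + 1) * 2 ^ (x / 4) := by
  unfold M3
  refine Finset.card_biUnion_le.trans ?_
  have : ∀ i ∈ Icc (T0 * l) x, ((Ioc (2 ^ (i - 1)) (2 ^ i)).filter (fun c => Odd c ∧
    (1 / 2 : ℝ) ^ (i / 10) < V (dB (d1 s) pq (jj l i)) (2 * (15000 * l)) c)).card ≤ 2 ^ (x / 4) := by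
    intro i hi
    rw [Finset.mem_Icc] at hi
    have hb := badi_card hLS P pq h1 h2 i hi.1 hi.2
    refine le_trans (Finset.card_le_card ?_) (hb.trans (Nat.pow_le_pow_right (by norm_num) (by omega)))
    intro c hc
    simp only [Finset.mem_filter, Finset.mem_Ioc, Finset.mem_Icc] at hc ⊢
    exact ⟨⟨Nat.lt_of_le_of_lt (Nat.zero_le _) hc.1.1, hc.1.2⟩, hc.2.2⟩
  refine (Finset.sum_le_card_nsmul _ _ _ this).trans ?_
  rw [smul_eq_mul, Nat.card_Icc]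
  exact Nat.mul_le_mul_right _ (by omega)

theorem sum_biUnion_le' {α : Type} (S : Finset α) (t : α → Finset ℕ) (f : ℕ → ℝ)
    (hf : ∀ m, 0 ≤ f m) : ∑ m ∈ S.biUnion t, f m ≤ ∑ i ∈ S, ∑ m ∈ t i, f m := by
  classical
  induction S using Finset.induction_on with
  | empty => simp
  | insert a S ha ih =>
    rw [Finset.biUnion_insert, Finset.sum_insert ha]
    have : ∑ m ∈ t a ∪ S.biUnion t, f m ≤ ∑ m ∈ t a, f m + ∑ m ∈ S.biUnion t, f m := by
      rw [← Finset.sum_union_inter]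
      have : 0 ≤ ∑ m ∈ t a ∩ S.biUnion t, f m := Finset.sum_nonneg (fun _ _ => hf _)
      linarith
    linarith

open Classical in
theorem M3_sum (hLS : LSStmt) {x s l B : ℕ} (P : Par x s l B) (pq : ℕ → ℕ × ℕ)
    (h1 : ∀ j < B, (pq j).1 ∈ AA l ∧ (pq j).2 ∈ AA l)
    (h2 : ∀ j ≤ B, En (dB (d1 s) pq j) (2 * (15000 * l)) ≤ 2 * ((1 / 2 : ℝ) ^ (292 * l)) ^ j) :
    ∑ m ∈ M3 x s l pq, (1 : ℝ) / (m : ℝ) ≤ 1 / 100 := by
  have hl := P.hl
  have hT0 : T0 = 10000 := rfl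
  have hle : ∑ m ∈ M3 x s l pq, (1 : ℝ) / (m : ℝ) ≤ ∑ i ∈ Icc (T0 * l) x,
      ∑ m ∈ (Ioc (2 ^ (i - 1)) (2 ^ i)).filter (fun c => Odd c ∧
    (1 / 2 : ℝ) ^ (i / 10) < V (dB (d1 s) pq (jj l i)) (2 * (15000 * l)) c), (1 : ℝ) / (m : ℝ) := by
    unfold M3
    exact sum_biUnion_le' _ _ (fun m => (1 : ℝ) / (m : ℝ)) (fun m => by positivity)
  refine hle.trans ?_
  have hterm : ∀ i ∈ Icc (T0 * l) x,
      ∑ m ∈ (Ioc (2 ^ (i - 1)) (2 ^ i)).filter (fun c => Odd c ∧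
    (1 / 2 : ℝ) ^ (i / 10) < V (dB (d1 s) pq (jj l i)) (2 * (15000 * l)) c), (1 : ℝ) / (m : ℝ)
      ≤ (1 / 2) ^ (7000 * l) := by
    intro i hi
    rw [Finset.mem_Icc] at hi
    have hb := badi_card hLS P pq h1 h2 i hi.1 hi.2
    have hi1 := hi.1
    rw [hT0] at hi1
    refine (sum_inv_le _ (2 ^ (i / 4)) ((2 : ℝ) ^ (i - 1)) (by positivity) ?_ ?_).trans ?_
    · intro m hm
      simp only [Finset.mem_filter, Finset.mem_Ioc] at hm
      have := hm.1.1.le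
      exact_mod_cast this
    · have : ((Ioc (2 ^ (i - 1)) (2 ^ i)).filter (fun c => Odd c ∧
        (1 / 2 : ℝ) ^ (i / 10) < V (dB (d1 s) pq (jj l i)) (2 * (15000 * l)) c)).card ≤ 2 ^ (i / 4) := by
        refine le_trans (Finset.card_le_card ?_) hb
        intro c hc
        simp only [Finset.mem_filter, Finset.mem_Ioc, Finset.mem_Icc] at hc ⊢
        exact ⟨⟨Nat.lt_of_le_of_lt (Nat.zero_le _) hc.1.1, hc.1.2⟩, hc.2.2⟩
      exact_mod_cast this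
    · have e1 : (2 : ℝ) ^ (i - 1) = 2 ^ (i / 4) * 2 ^ (i - 1 - i / 4) := by
        rw [← pow_add]; congr 1; omega
      rw [e1, one_div, mul_inv, ← mul_assoc, mul_inv_cancel₀ (by positivity), one_mul]
      rw [← inv_pow, ← one_div]
      apply pow_le_pow_of_le_one (by norm_num) (by norm_num)
      omega
  refine (Finset.sum_le_card_nsmul _ _ _ hterm).trans ?_
  rw [nsmul_eq_mul, Nat.card_Icc]
  have hx := P.hx2
  have hcard : x + 1 - T0 * l ≤ 2 ^ (2 * l + 2) := by omega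
  have hcard' : ((x + 1 - T0 * l : ℕ) : ℝ) ≤ 2 ^ (2 * l + 2) := by exact_mod_cast hcard
  calc ((x + 1 - T0 * l : ℕ) : ℝ) * (1 / 2) ^ (7000 * l) ≤ 2 ^ (2 * l + 2) * (1 / 2) ^ (7000 * l) :=
        mul_le_mul_of_nonneg_right hcard' (by positivity)
    _ = (1 / 2) ^ (6998 * l - 2) := by
        have : (1 / 2 : ℝ) ^ (7000 * l) = (1 / 2) ^ (2 * l + 2) * (1 / 2) ^ (6998 * l - 2) := by
          rw [← pow_add]; congr 1; omega
        rw [this, ← mul_assoc, ← mul_pow]; norm_num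
    _ ≤ 1 / 1024 := half_pow_le _ (by omega)
    _ ≤ 1 / 100 := by norm_num

/-- the full bad set -/
noncomputable def MM (x s l B P0 : ℕ) (pq : ℕ → ℕ × ℕ) : Finset ℕ :=
  (M1 s ∪ M2 B P0 pq) ∪ M3 x s l pq

theorem MM_sum (hLS : LSStmt) {x s l B P0 : ℕ} (P : Par x s l B) (pq : ℕ → ℕ × ℕ)
    (h1 : ∀ j < B, (pq j).1 ∈ AA l ∧ (pq j).2 ∈ AA l)
    (h2 : ∀ j ≤ B, En (dB (d1 s) pq j) (2 * (15000 * l)) ≤ 2 * ((1 / 2 : ℝ) ^ (292 * l)) ^ j)
    (hP0 : s < P0) :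
    ∑ m ∈ MM x s l B P0 pq, (1 : ℝ) / (m : ℝ) ≤ 1 / 8 := by
  have hun : ∀ (S T : Finset ℕ), ∑ m ∈ S ∪ T, (1 : ℝ) / (m : ℝ) ≤
      ∑ m ∈ S, (1 : ℝ) / (m : ℝ) + ∑ m ∈ T, (1 : ℝ) / (m : ℝ) := by
    intro S T
    rw [← Finset.sum_union_inter]
    have : 0 ≤ ∑ m ∈ S ∩ T, (1 : ℝ) / (m : ℝ) := Finset.sum_nonneg (fun _ _ => by positivity)
    linarith
  unfold MM
  have a1 := hun (M1 s ∪ M2 B P0 pq) (M3 x s l pq)
  have a2 := hun (M1 s) (M2 B P0 pq)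
  have a3 := M1_sum P
  have a4 := M2_sum P pq h1 hP0
  have a5 := M3_sum hLS P pq h1 h2
  linarith

theorem MM_card (hLS : LSStmt) {x s l B P0 : ℕ} (P : Par x s l B) (pq : ℕ → ℕ × ℕ)
    (h1 : ∀ j < B, (pq j).1 ∈ AA l ∧ (pq j).2 ∈ AA l)
    (h2 : ∀ j ≤ B, En (dB (d1 s) pq j) (2 * (15000 * l)) ≤ 2 * ((1 / 2 : ℝ) ^ (292 * l)) ^ j) :
    8 * (MM x s l B P0 pq).card ≤ 2 ^ (x / 3) := by
  have hl := P.hl
  have hx := x_big2 P
  have b1 := Finset.card_union_le (M1 s ∪ M2 B P0 pq) (M3 x s l pq)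
  have b2 := Finset.card_union_le (M1 s) (M2 B P0 pq)
  have b3 := M1_card s
  have b4 := M2_card B P0 pq
  have b5 := M3_card hLS P pq h1 h2
  have hB := B_le P
  have hx2 := P.hx2
  have hs2 := P.hs2
  have hll : 1000 * l ≤ l * l := Nat.mul_le_mul_right l hl
  unfold MM
  have e1 : 2 ^ (2 * l + 3) = 2 ^ (2 * l) * 8 := by rw [pow_add]; norm_num
  have e2 : 2 ^ (2 * l + 2) = 2 ^ (2 * l) * 4 := by rw [pow_add]; norm_num
  have e3 : 2 ^ (l + 1) ≤ 2 ^ (2 * l) := Nat.pow_le_pow_right (by norm_num) (by omega)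
  have e4 : 2 ^ (x / 3) = 2 ^ (x / 3 - x / 4) * 2 ^ (x / 4) := by
    rw [← pow_add]; congr 1; omega
  have e5 : 2 ^ (2 * l + 9) ≤ 2 ^ (x / 3 - x / 4) := Nat.pow_le_pow_right (by norm_num) (by omega)
  have e6 : 2 ^ (2 * l + 9) = 2 ^ (2 * l) * 512 := by rw [pow_add]; norm_num
  have e7 : 1 ≤ 2 ^ (x / 4) := Nat.one_le_two_pow
  rw [e4]
  have k1 : 2 ^ (2 * l) * 512 * 2 ^ (x / 4) ≤ 2 ^ (x / 3 - x / 4) * 2 ^ (x / 4) := by
    rw [← e6]; exact Nat.mul_le_mul_right _ e5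
  have k2 : (x + 1) * 2 ^ (x / 4) ≤ 2 ^ (2 * l) * 4 * 2 ^ (x / 4) := by
    apply Nat.mul_le_mul_right; omega
  have k3 : s + 2 * B + 1 ≤ 2 ^ (2 * l) * 18 * 2 ^ (x / 4) := by
    have : s + 2 * B + 1 ≤ 2 ^ (2 * l) * 18 := by omega
    exact this.trans (Nat.le_mul_of_pos_right _ (by omega))
  have k4 : 2 ^ (2 * l) * 512 * 2 ^ (x / 4) = 512 * (2 ^ (2 * l) * 2 ^ (x / 4)) := by ring
  have k5 : 2 ^ (2 * l) * 4 * 2 ^ (x / 4) = 4 * (2 ^ (2 * l) * 2 ^ (x / 4)) := by ring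
  have k6 : 2 ^ (2 * l) * 18 * 2 ^ (x / 4) = 18 * (2 ^ (2 * l) * 2 ^ (x / 4)) := by ring
  rw [k4] at k1
  rw [k5] at k2
  rw [k6] at k3
  omega

theorem MM_odd {x s l B P0 : ℕ} (P : Par x s l B) (pq : ℕ → ℕ × ℕ)
    (h1 : ∀ j < B, (pq j).1 ∈ AA l ∧ (pq j).2 ∈ AA l) (hP0 : s < P0) (hPp : P0.Prime) :
    ∀ m ∈ MM x s l B P0 pq, Odd m ∧ 1 < m := by
  have hs := s_big P
  have hl := P.hl
  have hA : ∀ p ∈ AA l, Odd p ∧ 1 < p := by
    intro p hp
    obtain ⟨h1, h2, h3⟩ := AA_mem hp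
    have : 2 ^ 1 ≤ 2 ^ (294 * l) := Nat.pow_le_pow_right (by norm_num) (by omega)
    exact ⟨h1.odd_of_ne_two (by omega), h1.one_lt⟩
  intro m hm
  unfold MM at hm
  rw [Finset.mem_union, Finset.mem_union] at hm
  rcases hm with (hm | hm) | hm
  · obtain ⟨h1, h2⟩ := M1_ge s m hm
    refine ⟨h2, ?_⟩
    nlinarith
  · unfold M2 at hm
    simp only [Finset.mem_union, Finset.mem_image, Finset.mem_range, Finset.mem_singleton] at hm
    rcases hm with (⟨j, hj, rfl⟩ | ⟨j, hj, rfl⟩) | rfl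
    · exact hA _ (h1 j hj).1
    · exact hA _ (h1 j hj).2
    · exact ⟨hPp.odd_of_ne_two (by omega), hPp.one_lt⟩
  · obtain ⟨i, hi1, hi2, hi3, hi4⟩ := M3_mem hm
    refine ⟨hi4, ?_⟩
    have : 1 ≤ 2 ^ (i - 1) := Nat.one_le_two_pow
    omega

end A

end Crest.Agent.EG
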