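import Crest.Agent.EGCoreF

set_option autoImplicit false

namespace Crest.Agent.EG

open Finset Filter

namespace A

/-- the base divisor -/
def G0 (x s : ℕ) : ℕ := 2 ^ x * (Nat.factorial s) ^ 4

theorem G0_pos (x s : ℕ) : 0 < G0 x s := by
  unfold G0
  have := Nat.factorial_pos s
  positivity

/-- after removing the smooth part all prime factors are large -/
theorem rough (x s c : ℕ) (hc : 1 ≤ c) (hcx : c ≤ 2 ^ x) (hM : ∀ m ∈ M1 s, ¬ m ∣ c) :
    ∀ p : ℕ, p.Prime → p ∣ c / Nat.gcd c (G0 x s) → s < p := by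
  intro p hp hpd
  by_contra hps
  push Not at hps
  have hc0 : c ≠ 0 := by omega
  set g := Nat.gcd c (G0 x s) with hg
  have hgc : g * (c / g) = c := Nat.mul_div_cancel' (Nat.gcd_dvd_left _ _)
  set a := c.factorization p with ha
  have hpa : p ^ a ∣ c := Nat.ordProj_dvd c p
  have hG : p ^ a ∣ G0 x s := by
    unfold G0
    by_cases h2 : p = 2
    · subst h2
      have h3 : 2 ^ a ≤ 2 ^ x := (Nat.le_of_dvd (by omega) hpa).trans hcx
      have h4 : a ≤ x := (Nat.pow_le_pow_iff_right (by norm_num)).mp h3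
      exact Dvd.dvd.mul_right (pow_dvd_pow 2 h4) _
    · have hm : p ^ (4 * (Nat.factorial s).factorization p + 1) ∈ M1 s := by
        unfold M1
        rw [Finset.mem_image]
        refine ⟨p, ?_, rfl⟩
        simp only [Finset.mem_filter, Finset.mem_Icc]
        exact ⟨⟨hp.pos, hps⟩, hp, h2⟩
      have h5 := hM _ hm
      have h6 : a ≤ 4 * (Nat.factorial s).factorization p := by
        by_contra h7
        push Not at h7
        exact h5 ((pow_dvd_pow p h7).trans hpa)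
      have h8 : p ^ a ∣ (p ^ (Nat.factorial s).factorization p) ^ 4 := by
        rw [← pow_mul]
        exact pow_dvd_pow p (by omega)
      exact Dvd.dvd.mul_left (h8.trans (pow_dvd_pow_of_dvd (Nat.ordProj_dvd _ p) 4)) _
  have hga : p ^ a ∣ g := Nat.dvd_gcd hpa hG
  have : p ^ (a + 1) ∣ c := by
    rw [pow_succ, ← hgc]
    exact Nat.mul_dvd_mul hga hpd
  exact Nat.pow_succ_factorization_not_dvd hc0 hp this

/-- first family -/
noncomputable def dA (s : ℕ) (a : Fin s × (Fin T0 → {x // x ∈ Pr s})) : ℕ :=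
  (a.1.val + 1) * ∏ i, (a.2 i).val

/-- the full family -/
noncomputable def dF (s B : ℕ) (pq : ℕ → ℕ × ℕ)
    (a : (Fin s × (Fin T0 → {x // x ∈ Pr s})) × ((Fin T1 → {x // x ∈ Pr s}) × (Fin B → Bool))) : ℕ :=
  dA s a.1 * dB (d1 s) pq B a.2

theorem dA_dvd (s : ℕ) (a : Fin s × (Fin T0 → {x // x ∈ Pr s})) {p : ℕ} (hp : p.Prime)
    (h : p ∣ dA s a) : p ≤ s := by
  unfold dA at h
  rw [hp.dvd_mul] at h
  rcases h with h | h
  · have := Nat.le_of_dvd (by omega) h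
    have := a.1.2
    omega
  · rw [hp.prime.dvd_finsetProd_iff] at h
    obtain ⟨i, _, hi⟩ := h
    rw [Nat.prime_dvd_prime_iff_eq hp (Pr_prime s _ (a.2 i).2)] at hi
    rw [hi]
    exact Pr_le s _ (a.2 i).2

theorem dA_pos (s : ℕ) (a : Fin s × (Fin T0 → {x // x ∈ Pr s})) : 0 < dA s a := by
  unfold dA
  exact Nat.mul_pos (by omega) (Finset.prod_pos (fun i _ => (Pr_prime s _ (a.2 i).2).pos))

theorem dA_le (s : ℕ) (a : Fin s × (Fin T0 → {x // x ∈ Pr s})) : dA s a ≤ s * s ^ T0 := by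
  unfold dA
  apply Nat.mul_le_mul a.1.2
  refine (Finset.prod_le_pow_card _ _ s (fun i _ => Pr_le s _ (a.2 i).2)).trans ?_
  simp

theorem dB_dvd_prime {s l B : ℕ} (pq : ℕ → ℕ × ℕ)
    (h1 : ∀ j < B, (pq j).1 ∈ AA l ∧ (pq j).2 ∈ AA l)
    (j : ℕ) (hj : j ≤ B) (a : (Fin T1 → {x // x ∈ Pr s}) × (Fin j → Bool)) {p : ℕ} (hp : p.Prime)
    (h : p ∣ dB (d1 s) pq j a) : p ≤ s ∨ ∃ i < B, p = (pq i).1 ∨ p = (pq i).2 := by
  unfold dB at h
  rw [hp.dvd_mul] at h
  rcases h with h | h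
  · left; exact d1_dvd s _ hp h
  · right
    rw [hp.prime.dvd_finsetProd_iff] at h
    obtain ⟨i, _, hi⟩ := h
    refine ⟨i, by omega, ?_⟩
    have := h1 i (by omega)
    split_ifs at hi with hb
    · left; exact (Nat.prime_dvd_prime_iff_eq hp (AA_mem this.1).1).mp hi
    · right; exact (Nat.prime_dvd_prime_iff_eq hp (AA_mem this.2).1).mp hi

theorem dB_ge {s l B : ℕ} (pq : ℕ → ℕ × ℕ)
    (h1 : ∀ j < B, (pq j).1 ∈ AA l ∧ (pq j).2 ∈ AA l)
    (a : (Fin T1 → {x // x ∈ Pr s}) × (Fin B → Bool)) :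
    2 ^ (294 * (l * B)) ≤ dB (d1 s) pq B a := by
  unfold dB
  have hd := d1_pos s a.1
  have : ∏ k : Fin B, 2 ^ (294 * l) ≤ ∏ k : Fin B, (if a.2 k then (pq k).1 else (pq k).2) := by
    apply Finset.prod_le_prod'
    intro k _
    have := h1 k (by omega)
    split_ifs
    · exact (AA_mem this.1).2.1.le
    · exact (AA_mem this.2).2.1.le
  rw [Finset.prod_const, Finset.card_univ, Fintype.card_fin, ← pow_mul] at this
  calc 2 ^ (294 * (l * B)) = 2 ^ (294 * l * B) := by congr 1; ring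
    _ ≤ _ := this
    _ ≤ _ := Nat.le_mul_of_pos_left _ hd

theorem F_swap {ι κ : Type} [Fintype ι] [Fintype κ] (d1 : ι → ℕ) (d2 : κ → ℕ) (x : ℝ) :
    F (fun a : ι × κ => d1 a.1 * d2 a.2) x = F (fun a : κ × ι => d2 a.1 * d1 a.2) x := by
  rw [← F_equiv (Equiv.prodComm ι κ)]
  congr 1
  funext a
  simp only [Equiv.prodComm_apply, Prod.fst_swap, Prod.snd_swap]
  rw [mul_comm]

/-- sup bound for the full family: small conductor -/
theorem sup_small (hSC : SCStmt) {x s l B : ℕ} (P : Par x s l B) (pq : ℕ → ℕ × ℕ)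
    (c' : ℕ) (hc1 : s < c') (hc2 : c' ≤ s ^ T0)
    (hcop : ∀ a : (Fin T1 → {x // x ∈ Pr s}) × (Fin B → Bool), Nat.Coprime (dB (d1 s) pq B a) c')
    (h : ℕ) (hh : Nat.Coprime h c') :
    ‖F (dF s B pq) ((h : ℝ) / c')‖ ^ (2400000 * l) ≤ 1 / (c' : ℝ) ^ 3 := by
  have hl := P.hl
  have hs := s_big P
  have hs1 : 1 ≤ s := by omega
  have hT0 : T0 = 10000 := rfl
  have hne := Pr_ne s (by omega)
  have : Nonempty {x // x ∈ Pr s} := hne.to_subtype
  have hsup : SupB (dA s) c' ((s : ℝ) ^ (-(1 / 4 : ℝ))) := by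
    intro h hh
    refine (hSC s T0 c' h (Pr s) hs1 (by rw [hT0]; norm_num) hne
      (fun p hp => ⟨Pr_prime s p hp, Pr_le s p hp⟩) hc1 hc2 hh).trans P.hSC
  have h2 := SupB.prod (dA s) (dB (d1 s) pq B) c' _ hsup hcop h hh
  change ‖F (dF s B pq) ((h : ℝ) / c')‖ ≤ _ at h2
  set w := (s : ℝ) ^ (-(1 / 4 : ℝ)) with hw
  have hspos : (0 : ℝ) < s := by exact_mod_cast hs1
  have hs1' : (1 : ℝ) ≤ s := by exact_mod_cast hs1
  have hw0 : 0 ≤ w := by positivity
  have hw1 : w ≤ 1 := Real.rpow_le_one_of_one_le_of_nonpos hs1' (by norm_num)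
  have hw4 : w ^ 4 = 1 / s := by
    rw [hw, ← Real.rpow_natCast, ← Real.rpow_mul hspos.le]
    norm_num
    rw [Real.rpow_neg_one]
  calc ‖F (dF s B pq) ((h : ℝ) / c')‖ ^ (2400000 * l) ≤ w ^ (2400000 * l) :=
        pow_le_pow_left₀ (norm_nonneg _) h2 _
    _ ≤ w ^ (4 * (T0 * 3)) := pow_le_pow_of_le_one hw0 hw1 (by rw [hT0]; omega)
    _ = 1 / ((s : ℝ) ^ T0) ^ 3 := by
        rw [pow_mul w 4, hw4, one_div, inv_pow, pow_mul, one_div]
    _ ≤ 1 / (c' : ℝ) ^ 3 := by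
        apply one_div_le_one_div_of_le
        · have : 0 < c' := by omega
          positivity
        · apply pow_le_pow_left₀ (by positivity)
          exact_mod_cast hc2

theorem root_bound (y τ : ℝ) (n : ℕ) (hn : n ≠ 0) (_hy : 0 ≤ y) (hτ : 0 ≤ τ) (h : y ^ n ≤ τ) :
    y ≤ τ ^ ((n : ℝ)⁻¹) := by
  by_contra hcon
  push Not at hcon
  have h1 := Real.rpow_inv_natCast_pow hτ hn
  have h2 : (τ ^ ((n : ℝ)⁻¹)) ^ n < y ^ n := pow_lt_pow_left₀ hcon (by positivity) hn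
  linarith

open Classical in
/-- sup bound for the full family: large conductor -/
theorem sup_large {x s l B : ℕ} (P : Par x s l B) (pq : ℕ → ℕ × ℕ)
    (c' : ℕ) (hc1 : s ^ T0 < c') (hc2 : c' ≤ 2 ^ x) (hodd : Odd c') (hM : c' ∉ M3 x s l pq)
    (hcopA : ∀ a, Nat.Coprime (dA s a) c')
    (hcopB : ∀ j < B, Nat.Coprime (pq j).1 c' ∧ Nat.Coprime (pq j).2 c')
    (h : ℕ) (hh : Nat.Coprime h c') :
    ‖F (dF s B pq) ((h : ℝ) / c')‖ ^ (2400000 * l) ≤ 1 / (c' : ℝ) ^ 3 := by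
  have hl := P.hl
  have hs := s_big P
  have hs1 : 1 ≤ s := by omega
  have hT0 : T0 = 10000 := rfl
  have hne := Pr_ne s (by omega)
  have : Nonempty {x // x ∈ Pr s} := hne.to_subtype
  have : Nonempty (Fin s) := ⟨⟨0, by omega⟩⟩
  set i := Nat.clog 2 c' with hi
  have hc'1 : 1 < c' := by
    have : 1 ≤ s ^ T0 := Nat.one_le_pow _ _ hs1
    omega
  have hi1 : 2 ^ (i - 1) < c' := Nat.pow_pred_clog_lt_self (by norm_num) hc'1
  have hi2 : c' ≤ 2 ^ i := Nat.le_pow_clog (by norm_num) _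
  have hix : i ≤ x := Nat.clog_le_of_le_pow hc2
  have hi3 : T0 * l ≤ i := by
    have h1 : 2 ^ (l * T0) ≤ s ^ T0 := by
      rw [pow_mul]; exact Nat.pow_le_pow_left P.hs1 _
    have h2 : 2 ^ (l * T0) ≤ 2 ^ i := by omega
    have h3 := (Nat.pow_le_pow_iff_right (by norm_num)).mp h2
    rwa [mul_comm] at h3
  have hV : V (dB (d1 s) pq (jj l i)) (2 * (15000 * l)) c' ≤ (1 / 2 : ℝ) ^ (i / 10) := by
    by_contra hcon
    push Not at hcon
    apply hM
    unfold M3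
    simp only [Finset.mem_biUnion, Finset.mem_filter, Finset.mem_Icc, Finset.mem_Ioc]
    exact ⟨i, ⟨hi3, hix⟩, ⟨hi1, hi2⟩, hodd, hcon⟩
  set τ := (1 / 2 : ℝ) ^ (i / 10) with hτ
  have hτ0 : 0 ≤ τ := by positivity
  set n := 2 * (2 * (15000 * l)) with hn
  have hn0 : n ≠ 0 := by omega
  have hsup : SupB (dB (d1 s) pq (jj l i)) c' (τ ^ ((n : ℝ)⁻¹)) := by
    intro h hh
    apply root_bound _ _ _ hn0 (norm_nonneg _) hτ0
    exact (le_V _ _ c' h (by omega) hh).trans hV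
  have hsupB := SupB.mono_j (d1 s) pq (jj l i) B c' _ (jj_le P hix) hsup hcopB
  have hprod := SupB.prod (dB (d1 s) pq B) (dA s) c' _ hsupB hcopA h hh
  have heq : F (dF s B pq) ((h : ℝ) / c') =
      F (fun a : ((Fin T1 → {x // x ∈ Pr s}) × (Fin B → Bool)) ×
        (Fin s × (Fin T0 → {x // x ∈ Pr s})) => dB (d1 s) pq B a.1 * dA s a.2) ((h : ℝ) / c') := by
    exact F_swap (dA s) (dB (d1 s) pq B) _
  rw [heq]
  set y := τ ^ ((n : ℝ)⁻¹) with hy
  have hyn : y ^ n = τ := Real.rpow_inv_natCast_pow hτ0 hn0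
  have hc'pos : (0 : ℝ) < c' := by
    have : 0 < c' := by omega
    exact_mod_cast this
  have hK : 2400000 * l = n * 40 := by rw [hn]; ring
  rw [hK]
  calc _ ≤ y ^ (n * 40) := pow_le_pow_left₀ (norm_nonneg _) hprod _
    _ = τ ^ 40 := by rw [pow_mul, hyn]
    _ = (1 / 2) ^ (i / 10 * 40) := by rw [hτ, ← pow_mul]
    _ ≤ (1 / 2) ^ (i * 3) := by
        apply pow_le_pow_of_le_one (by norm_num) (by norm_num)
        rw [hT0] at hi3
        omega
    _ = 1 / ((2 : ℝ) ^ i) ^ 3 := by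
        rw [← pow_mul, one_div, inv_pow, one_div]
    _ ≤ 1 / (c' : ℝ) ^ 3 := by
        apply one_div_le_one_div_of_le (by positivity)
        apply pow_le_pow_left₀ hc'pos.le
        exact_mod_cast hi2

end A

end Crest.Agent.EG
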