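import Crest.Agent.EGCoreG

set_option autoImplicit false

namespace Crest.Agent.EG

open Finset Filter

namespace A

/-- the friendly integer -/
def NN (x s l B P0 : ℕ) (pq : ℕ → ℕ × ℕ) : ℕ :=
  G0 x s * (P0 ^ (2400000 * l) *
    ((Nat.factorial s * Nat.factorial s ^ T0) *
      (Nat.factorial s ^ T1 * ∏ j ∈ range B, ((pq j).1 * (pq j).2))))

theorem dA_dvd_fac (s : ℕ) (a : Fin s × (Fin T0 → {x // x ∈ Pr s})) :
    dA s a ∣ Nat.factorial s * Nat.factorial s ^ T0 := by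
  unfold dA
  apply Nat.mul_dvd_mul
  · exact Nat.dvd_factorial (by omega) a.1.2
  · have : ∏ i, (a.2 i).val ∣ ∏ _i : Fin T0, Nat.factorial s := by
      apply Finset.prod_dvd_prod_of_dvd
      intro i _
      exact Nat.dvd_factorial (Pr_prime s _ (a.2 i).2).pos (Pr_le s _ (a.2 i).2)
    simpa using this

theorem dB_dvd_fac (s B : ℕ) (pq : ℕ → ℕ × ℕ) (a : (Fin T1 → {x // x ∈ Pr s}) × (Fin B → Bool)) :
    dB (d1 s) pq B a ∣ Nat.factorial s ^ T1 * ∏ j ∈ range B, ((pq j).1 * (pq j).2) := by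
  unfold dB
  apply Nat.mul_dvd_mul
  · unfold d1
    have : ∏ i, (a.1 i).val ∣ ∏ _i : Fin T1, Nat.factorial s := by
      apply Finset.prod_dvd_prod_of_dvd
      intro i _
      exact Nat.dvd_factorial (Pr_prime s _ (a.1 i).2).pos (Pr_le s _ (a.1 i).2)
    simpa using this
  · rw [Finset.prod_range]
    apply Finset.prod_dvd_prod_of_dvd
    intro i _
    split_ifs
    · exact Dvd.intro _ rfl
    · exact Dvd.intro_left _ rfl

theorem fac_le {x s l B : ℕ} (P : Par x s l B) : Nat.factorial s ≤ 2 ^ ((l + 1) * s) := by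
  refine (Nat.factorial_le_pow s).trans ?_
  exact s_pow_le P s

theorem NN_le {x s l B P0 : ℕ} (P : Par x s l B) (pq : ℕ → ℕ × ℕ)
    (h1 : ∀ j < B, (pq j).1 ∈ AA l ∧ (pq j).2 ∈ AA l) (hP0 : P0 ≤ 2 * s) :
    NN x s l B P0 pq ≤ 2 ^ (6 * x) := by
  have hl := P.hl
  have hfac := fac_le P
  have hT0 : T0 = 10000 := rfl
  have hT1 : T1 = 900 := rfl
  have hP02 : P0 ≤ 2 ^ (l + 2) := by
    have := P.hs2
    have e : 2 ^ (l + 2) = 2 * 2 ^ (l + 1) := by rw [pow_succ]; ring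
    omega
  have a1 : G0 x s ≤ 2 ^ x * (2 ^ ((l + 1) * s)) ^ 4 := by
    unfold G0
    exact Nat.mul_le_mul_left _ (Nat.pow_le_pow_left hfac 4)
  have a2 : P0 ^ (2400000 * l) ≤ (2 ^ (l + 2)) ^ (2400000 * l) := Nat.pow_le_pow_left hP02 _
  have a3 : Nat.factorial s * Nat.factorial s ^ T0 ≤ 2 ^ ((l + 1) * s) * (2 ^ ((l + 1) * s)) ^ T0 :=
    Nat.mul_le_mul hfac (Nat.pow_le_pow_left hfac _)
  have a4 : Nat.factorial s ^ T1 ≤ (2 ^ ((l + 1) * s)) ^ T1 := Nat.pow_le_pow_left hfac _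
  have a5 : ∏ j ∈ range B, ((pq j).1 * (pq j).2) ≤ (2 ^ (600 * l)) ^ B := by
    refine (Finset.prod_le_pow_card _ _ (2 ^ (600 * l)) ?_).trans (by simp)
    intro j hj
    have := h1 j (Finset.mem_range.mp hj)
    have e : 2 ^ (600 * l) = 2 ^ (300 * l) * 2 ^ (300 * l) := by rw [← pow_add]; congr 1; ring
    rw [e]
    exact Nat.mul_le_mul (AA_mem this.1).2.2 (AA_mem this.2).2.2
  have hall : NN x s l B P0 pq ≤ (2 ^ x * (2 ^ ((l + 1) * s)) ^ 4) * ((2 ^ (l + 2)) ^ (2400000 * l) *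
      ((2 ^ ((l + 1) * s) * (2 ^ ((l + 1) * s)) ^ T0) * ((2 ^ ((l + 1) * s)) ^ T1 * (2 ^ (600 * l)) ^ B))) := by
    unfold NN
    exact Nat.mul_le_mul a1 (Nat.mul_le_mul a2 (Nat.mul_le_mul a3 (Nat.mul_le_mul a4 a5)))
  refine hall.trans ?_
  simp only [← pow_mul, ← pow_add]
  apply Nat.pow_le_pow_right (by norm_num)
  rw [hT0, hT1]
  have x1 := x_big1 P
  have x2 := x_big2 P
  have hs := s_big P
  have hm : 300 * (l * B) ≤ 2 * x + 300 * l := by
    have := @jj_upper l x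
    unfold jj at this
    rwa [← P.hB] at this
  have hls : 1000 * s ≤ l * s := Nat.mul_le_mul_right s hl
  have hll : 1000 * l ≤ l * l := Nat.mul_le_mul_right l hl
  have e1 : x + (l + 1) * s * 4 + ((l + 2) * (2400000 * l) + ((l + 1) * s + (l + 1) * s * 10000 +
      ((l + 1) * s * 900 + 600 * l * B))) =
      x + 10905 * (l * s) + 10905 * s + 2400000 * (l * l) + 4800000 * l + 600 * (l * B) := by ring
  rw [e1]
  omega

theorem ratio {x s l B : ℕ} (P : Par x s l B) :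
    (l + 2) * (2400000 * l) + ((l + 1) * (T0 + 1) + ((l + 1) * T1 + 300 * (l * B))) ≤
      294 * (l * B) + x / 10 := by
  have hl := P.hl
  have hT0 : T0 = 10000 := rfl
  have hT1 : T1 = 900 := rfl
  rw [hT0, hT1]
  have x2 := x_big2 P
  have hm : 300 * (l * B) ≤ 2 * x + 300 * l := by
    have := @jj_upper l x
    unfold jj at this
    rwa [← P.hB] at this
  have hll : 1000 * l ≤ l * l := Nat.mul_le_mul_right l hl
  have e1 : (l + 2) * (2400000 * l) = 2400000 * (l * l) + 4800000 * l := by ring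
  rw [e1]
  omega

theorem pow_mul_inj {P0 a b i j : ℕ} (hP0 : P0.Prime) (ha : ¬ P0 ∣ a) (hb : ¬ P0 ∣ b)
    (h : P0 ^ i * a = P0 ^ j * b) : i = j := by
  rcases lt_trichotomy i j with hij | hij | hij
  · exfalso
    obtain ⟨k, rfl⟩ := Nat.exists_eq_add_of_lt hij
    have : P0 ^ i * a = P0 ^ i * (P0 ^ (k + 1) * b) := by rw [h]; ring
    have h2 := Nat.eq_of_mul_eq_mul_left (pow_pos hP0.pos i) this
    apply ha
    rw [h2, pow_succ]
    exact Dvd.dvd.mul_right (Dvd.intro_left _ rfl) _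
  · exact hij
  · exfalso
    obtain ⟨k, rfl⟩ := Nat.exists_eq_add_of_lt hij
    have : P0 ^ j * (P0 ^ (k + 1) * a) = P0 ^ j * b := by rw [← h]; ring
    have h2 := Nat.eq_of_mul_eq_mul_left (pow_pos hP0.pos j) this
    apply hb
    rw [← h2, pow_succ]
    exact Dvd.dvd.mul_right (Dvd.intro_left _ rfl) _

theorem main (hLS : LSStmt) (hEN : ENStmt) (hSC : SCStmt) (hSol : SolStmt) {x s l B : ℕ}
    (P : Par x s l B) : ∃ (N D0 : ℕ) (𝓜 : Finset ℕ),
    0 < N ∧ N ≤ 2 ^ (6 * x) ∧ 0 < D0 ∧ (∀ m ∈ 𝓜, Odd m ∧ 1 < m) ∧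
    ∑ m ∈ 𝓜, (1 : ℝ) / (m : ℝ) ≤ 1 / 8 ∧ 8 * 𝓜.card ≤ 2 ^ (x / 3) ∧
    ∀ c : ℕ, 1 ≤ c → c ≤ 2 ^ x → (∀ m ∈ 𝓜, ¬ m ∣ c) →
      ∃ 𝒟 : Finset ℕ, 𝒟.Nonempty ∧ 𝒟.card ≤ 2400000 * Nat.log 2 x ∧
        (∀ d ∈ 𝒟, d ∣ N ∧ D0 ≤ d ∧ d ≤ D0 * 2 ^ (x / 10)) ∧ c ∣ ∑ d ∈ 𝒟, d := by
  classical
  have hl := P.hl
  have hs := s_big P
  have hs1 : 1 ≤ s := by omega
  have hne := Pr_ne s (by omega)
  have : Nonempty {x // x ∈ Pr s} := hne.to_subtype
  have : Nonempty (Fin s) := ⟨⟨0, by omega⟩⟩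
  obtain ⟨pq, h1, h2⟩ := en_app hEN P
  obtain ⟨P0, hPp, hP1, hP2⟩ := Nat.exists_prime_lt_and_le_two_mul s (by omega)
  have hApos : ∀ p ∈ AA l, 0 < p := fun p hp => (AA_mem hp).1.pos
  refine ⟨NN x s l B P0 pq, G0 x s * 2 ^ (294 * (l * B)), MM x s l B P0 pq, ?_,
    NN_le P pq h1 hP2, ?_, MM_odd P pq h1 hP1 hPp, MM_sum hLS P pq h1 h2 hP1,
    MM_card hLS P pq h1 h2, ?_⟩
  · unfold NN
    have a1 := G0_pos x s
    have a2 := Nat.factorial_pos s
    have a3 : 0 < ∏ j ∈ range B, ((pq j).1 * (pq j).2) := by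
      apply Finset.prod_pos
      intro j hj
      have := h1 j (Finset.mem_range.mp hj)
      exact Nat.mul_pos (hApos _ this.1) (hApos _ this.2)
    have a4 := hPp.pos
    positivity
  · exact Nat.mul_pos (G0_pos x s) (by positivity)
  intro c hc1 hcx hcM
  have hrough := rough x s c hc1 hcx (fun m hm => hcM m (by
    unfold MM; rw [Finset.mem_union, Finset.mem_union]; exact Or.inl (Or.inl hm)))
  set g := Nat.gcd c (G0 x s) with hg
  have hgc : g * (c / g) = c := Nat.mul_div_cancel' (Nat.gcd_dvd_left _ _)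
  set c2 := c / g with hc2
  have hc2c : c2 ∣ c := Dvd.intro_left _ hgc
  have hc2pos : 1 ≤ c2 := Nat.pos_of_ne_zero (by rintro h0; rw [h0] at hgc; omega)
  -- the special primes do not divide c2
  have hbad : ∀ m ∈ M2 B P0 pq, ¬ m ∣ c2 := fun m hm hd => hcM m (by
    unfold MM; rw [Finset.mem_union, Finset.mem_union]; exact Or.inl (Or.inr hm)) (hd.trans hc2c)
  have hbad1 : ∀ j < B, ¬ (pq j).1 ∣ c2 ∧ ¬ (pq j).2 ∣ c2 := by
    intro j hj
    constructor
    · apply hbad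
      unfold M2
      simp only [Finset.mem_union, Finset.mem_image, Finset.mem_range, Finset.mem_singleton]
      exact Or.inl (Or.inl ⟨j, hj, rfl⟩)
    · apply hbad
      unfold M2
      simp only [Finset.mem_union, Finset.mem_image, Finset.mem_range, Finset.mem_singleton]
      exact Or.inl (Or.inr ⟨j, hj, rfl⟩)
  have hbad0 : ¬ P0 ∣ c2 := by
    apply hbad
    unfold M2
    simp
  -- coprimality facts for divisors of c2
  have copA : ∀ c' : ℕ, c' ∣ c2 → ∀ a, Nat.Coprime (dA s a) c' := by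
    intro c' hc' a
    apply Nat.coprime_of_dvd
    intro p hp hpa hpc
    have h3 := dA_dvd s a hp hpa
    have h4 := hrough p hp (hpc.trans hc')
    omega
  have copB : ∀ c' : ℕ, c' ∣ c2 → ∀ a, Nat.Coprime (dB (d1 s) pq B a) c' := by
    intro c' hc' a
    apply Nat.coprime_of_dvd
    intro p hp hpa hpc
    rcases dB_dvd_prime pq h1 B le_rfl a hp hpa with h3 | ⟨i, hi, h3 | h3⟩
    · have h4 := hrough p hp (hpc.trans hc')
      omega
    · exact (hbad1 i hi).1 (h3 ▸ hpc.trans hc')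
    · exact (hbad1 i hi).2 (h3 ▸ hpc.trans hc')
  have copQ : ∀ c' : ℕ, c' ∣ c2 → ∀ j < B, Nat.Coprime (pq j).1 c' ∧ Nat.Coprime (pq j).2 c' := by
    intro c' hc' j hj
    have h3 := h1 j hj
    constructor
    · rw [(AA_mem h3.1).1.coprime_iff_not_dvd]
      exact fun hd => (hbad1 j hj).1 (hd.trans hc')
    · rw [(AA_mem h3.2).1.coprime_iff_not_dvd]
      exact fun hd => (hbad1 j hj).2 (hd.trans hc')
  have hcop0 : Nat.Coprime P0 c2 := by
    rw [hPp.coprime_iff_not_dvd]; exact hbad0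
  have hK1 : 1 ≤ 2400000 * l := by omega
  obtain ⟨v, hv⟩ := hSol _ (dF s B pq) (2400000 * l) P0 c2 hK1 hc2pos hcop0 (by
    intro c' hc' hc'1
    have hc's : s < c' := by
      obtain ⟨p, hp, hpd⟩ := Nat.exists_prime_and_dvd (show c' ≠ 1 by omega)
      have h3 := hrough p hp (hpd.trans hc')
      have h4 := Nat.le_of_dvd (by omega) hpd
      omega
    refine ⟨by omega, ?_⟩
    intro h hh
    by_cases hsmall : c' ≤ s ^ T0
    · exact sup_small hSC P pq c' hc's hsmall (copB c' hc') h hh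
    · push Not at hsmall
      have hodd : Odd c' := by
        rw [← Nat.not_even_iff_odd, even_iff_two_dvd]
        intro h2d
        have := hrough 2 Nat.prime_two (h2d.trans hc')
        omega
      have hc'x : c' ≤ 2 ^ x := (Nat.le_of_dvd (by omega) (hc'.trans hc2c)).trans hcx
      refine sup_large P pq c' hsmall hc'x hodd ?_ (copA c' hc') (copQ c' hc') h hh
      intro hm
      exact hcM c' (by unfold MM; rw [Finset.mem_union]; exact Or.inr hm) (hc'.trans hc2c))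
  -- P0 does not divide the values
  have hP0v : ∀ a, ¬ P0 ∣ dF s B pq a := by
    intro a hd
    unfold dF at hd
    rw [hPp.dvd_mul] at hd
    rcases hd with hd | hd
    · have := dA_dvd s a.1 hPp hd
      omega
    · have h294 : 2 * s < 2 ^ (294 * l) := by
        have h3 := P.hs2
        have h4 : 2 ^ (l + 2) ≤ 2 ^ (294 * l) := Nat.pow_le_pow_right (by norm_num) (by omega)
        have e : 2 ^ (l + 2) = 2 * 2 ^ (l + 1) := by rw [pow_succ]; ring
        omega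
      rcases dB_dvd_prime pq h1 B le_rfl a.2 hPp hd with h3 | ⟨i, hi, h3 | h3⟩
      · omega
      · have := (AA_mem (h1 i hi).1).2.1
        omega
      · have := (AA_mem (h1 i hi).2).2.1
        omega
  set f : Fin (2400000 * l) → ℕ := fun i => G0 x s * (P0 ^ (i : ℕ) * dF s B pq (v i)) with hf
  have hinj : Function.Injective f := by
    intro i j hij
    rw [hf] at hij
    have h3 := Nat.eq_of_mul_eq_mul_left (G0_pos x s) hij
    exact Fin.ext (pow_mul_inj hPp (hP0v _) (hP0v _) h3)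
  refine ⟨univ.image f, ?_, ?_, ?_, ?_⟩
  · exact ⟨f ⟨0, by omega⟩, Finset.mem_image_of_mem _ (Finset.mem_univ _)⟩
  · refine Finset.card_image_le.trans ?_
    rw [Finset.card_univ, Fintype.card_fin]
    apply Nat.mul_le_mul_left
    apply Nat.le_log_of_pow_le (by norm_num)
    exact P.hs1.trans ((Nat.le_mul_of_pos_left s (by omega)).trans P.hx1)
  · intro d hd
    rw [Finset.mem_image] at hd
    obtain ⟨i, _, rfl⟩ := hd
    refine ⟨?_, ?_, ?_⟩
    · rw [hf]
      unfold NN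
      apply Nat.mul_dvd_mul_left
      apply Nat.mul_dvd_mul
      · exact pow_dvd_pow _ i.2.le
      · unfold dF
        exact Nat.mul_dvd_mul (dA_dvd_fac s _) (dB_dvd_fac s B pq _)
    · rw [hf]
      apply Nat.mul_le_mul_left
      have h3 := dB_ge pq h1 (v i).2
      unfold dF
      have h4 := dA_pos s (v i).1
      have h5 : 0 < P0 ^ (i : ℕ) := pow_pos hPp.pos _
      calc 2 ^ (294 * (l * B)) ≤ dB (d1 s) pq B (v i).2 := h3
        _ ≤ dA s (v i).1 * dB (d1 s) pq B (v i).2 := Nat.le_mul_of_pos_left _ h4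
        _ ≤ _ := Nat.le_mul_of_pos_left _ h5
    · rw [hf, mul_assoc]
      apply Nat.mul_le_mul_left
      have hP02 : P0 ≤ 2 ^ (l + 2) := by
        have := P.hs2
        have e : 2 ^ (l + 2) = 2 * 2 ^ (l + 1) := by rw [pow_succ]; ring
        omega
      have b1 : P0 ^ (i : ℕ) ≤ (2 ^ (l + 2)) ^ (2400000 * l) :=
        (Nat.pow_le_pow_right hPp.pos i.2.le).trans (Nat.pow_le_pow_left hP02 _)
      have b2 : dA s (v i).1 ≤ 2 ^ ((l + 1) * (T0 + 1)) := by
        refine (dA_le s _).trans ?_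
        rw [← pow_succ']
        exact s_pow_le P _
      have b3 : dB (d1 s) pq B (v i).2 ≤ 2 ^ ((l + 1) * T1) * 2 ^ (300 * (l * B)) :=
        (dB_le pq h1 B le_rfl _).trans (Nat.mul_le_mul_right _ (s_pow_le P _))
      unfold dF
      refine (Nat.mul_le_mul b1 (Nat.mul_le_mul b2 b3)).trans ?_
      simp only [← pow_mul, ← pow_add]
      exact Nat.pow_le_pow_right (by norm_num) (ratio P)
  · rw [Finset.sum_image (fun i _ j _ hij => hinj hij)]
    rw [hf, ← Finset.mul_sum]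
    rw [← hgc]
    exact Nat.mul_dvd_mul (Nat.gcd_dvd_right _ _) hv

theorem par_exists_aux (f1 : ℕ) (hT : Nat.factorial T1 = f1) :
    ∃ x0 : ℕ, ∀ x ≥ x0, ∃ s l B, Par x s l B := by
  obtain ⟨s0, hs0⟩ := eventually_atTop.mp (small_eventually T0)
  obtain ⟨s1, hs1⟩ := eventually_atTop.mp Pr_card_pow
  refine ⟨(max (max s0 s1) (2 ^ (max f1 1000))) ^ 2, ?_⟩
  intro x hx
  have hsq : max (max s0 s1) (2 ^ (max f1 1000)) ≤ Nat.sqrt x := Nat.le_sqrt'.mpr hx
  set s := Nat.sqrt x with hs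
  have h1 : 2 ^ (max f1 1000) ≤ s := (le_max_right _ _).trans hsq
  have h2 : max s0 s1 ≤ s := (le_max_left _ _).trans hsq
  have hspos : s ≠ 0 := by
    have : 1 ≤ 2 ^ (max f1 1000) := Nat.one_le_two_pow
    omega
  have hlog : max f1 1000 ≤ Nat.log 2 s := Nat.le_log_of_pow_le (by norm_num) h1
  have hlt : s < 2 ^ (Nat.log 2 s + 1) := Nat.lt_pow_succ_log_self (by norm_num) s
  refine ⟨s, Nat.log 2 s, 2 * x / (300 * Nat.log 2 s) + 1, ?_⟩
  refine ⟨(le_max_right _ _).trans hlog, Nat.pow_log_le_self 2 hspos, hlt, Nat.sqrt_le x, ?_, rfl,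
    hs1 s ((le_max_right _ _).trans h2), ?_, hs0 s ((le_max_left _ _).trans h2)⟩
  · have h3 : x < (s + 1) * (s + 1) := Nat.lt_succ_sqrt x
    have h4 : (s + 1) * (s + 1) ≤ 2 ^ (Nat.log 2 s + 1) * 2 ^ (Nat.log 2 s + 1) :=
      Nat.mul_le_mul hlt hlt
    rw [← pow_add] at h4
    have e : Nat.log 2 s + 1 + (Nat.log 2 s + 1) = 2 * Nat.log 2 s + 2 := by ring
    rw [e] at h4
    omega
  · rw [hT]
    have h5 : f1 ≤ 2 ^ (120 * Nat.log 2 s) := by
      have h6 : f1 < 2 ^ f1 := Nat.lt_two_pow_self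
      have h7 : f1 ≤ 120 * Nat.log 2 s := by
        have := (le_max_left f1 1000).trans hlog
        omega
      exact h6.le.trans (Nat.pow_le_pow_right (by norm_num) h7)
    exact_mod_cast h5

theorem par_exists : ∃ x0 : ℕ, ∀ x ≥ x0, ∃ s l B, Par x s l B := by
  obtain ⟨f1, hT⟩ : ∃ f1, Nat.factorial T1 = f1 := ⟨_, rfl⟩
  exact par_exists_aux f1 hT

end A

theorem core : LSStmt → ENStmt → SCStmt → SolStmt → CoreStmt := by
  intro hLS hEN hSC hSol
  obtain ⟨x0, hx0⟩ := A.par_exists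
  refine ⟨6, 2400000, x0, ?_⟩
  intro x hx
  obtain ⟨s, l, B, P⟩ := hx0 x hx
  exact A.main hLS hEN hSC hSol P

end Crest.Agent.EG
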