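import Mathlib

/-!
# Row 19 (S0025): definitions and module statements (namespace `Crest.Agent.EG`)

Paper proof: see the message of helper4.  All modules are independent of each other.
-/

set_option autoImplicit false

namespace Crest.Agent.EG

open Finset

/-- `e x = exp (2 π i x)`. -/
noncomputable def e (x : ℝ) : ℂ := Complex.exp (2 * Real.pi * x * Complex.I)

/-- averaged exponential sum of a finite family `d` of natural numbers. -/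
noncomputable def F {ι : Type} [Fintype ι] (d : ι → ℕ) (x : ℝ) : ℂ :=
  (∑ i, e ((d i : ℝ) * x)) / (Fintype.card ι : ℂ)

/-- normalised additive energy of order `k` (probability that
`d v₁ + ... + d v_k = d w₁ + ... + d w_k`). -/
noncomputable def En {ι : Type} [Fintype ι] (d : ι → ℕ) (k : ℕ) : ℝ :=
  ((univ.filter (fun vw : (Fin k → ι) × (Fin k → ι) =>
      ∑ i, d (vw.1 i) = ∑ i, d (vw.2 i))).card : ℝ) / (Fintype.card ι : ℝ) ^ (2 * k)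

/-- one multiplicative block. -/
def dStep {ι : Type} (d : ι → ℕ) (p q : ℕ) (a : ι × Bool) : ℕ :=
  d a.1 * (if a.2 then p else q)

/-- `j` multiplicative blocks. -/
def dB {ι : Type} (d : ι → ℕ) (pq : ℕ → ℕ × ℕ) (j : ℕ) (a : ι × (Fin j → Bool)) : ℕ :=
  d a.1 * ∏ l : Fin j, (if a.2 l then (pq l).1 else (pq l).2)

/-- (LS) additive large sieve over the Farey fractions, for a family with multiplicities.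
Proof: duality.  Weights `w n = 2 (1 - |n|/(2L))₊ ≥ 1` for `0 ≤ n ≤ L`, `L = D + Z^2`;
`∑ w n e(nβ) = |∑_{l<2L} e(lβ)|² / L ≤ min (4 L) (1/(4 L ‖β‖²))`; distinct Farey fractions with
denominators `≤ Z` are `1/Z²`-separated mod 1. (The constant 20 has room.) -/
def LSStmt : Prop :=
  ∀ (V : Type) [Fintype V] (n : V → ℕ) (D Z : ℕ), 1 ≤ Z → (∀ v, n v ≤ D) →
    ∑ c ∈ Icc 1 Z, ∑ h ∈ (range c).filter (fun h => Nat.Coprime h c),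
        ‖∑ v, e ((n v : ℝ) * ((h : ℝ) / (c : ℝ)))‖ ^ 2
      ≤ 20 * ((D : ℝ) + 1 + (Z : ℝ) ^ 2) *
        ((univ.filter (fun vw : V × V => n vw.1 = n vw.2)).card : ℝ)

/-- (ENS) the contraction step.  `𝒜` = set of primes; choose `p ≠ q` in `𝒜` at random.
Take `Q = 2^m` huge (or any `Q` coprime to `𝒜`), `avg` = average over `h < Q` of functions of `h/Q`;
`En d K = avg |F|^{2K}`.  Pointwise `((x+y)/2)^{4k} ≤ (1-u/2)^{4k} (x^{4k}+y^{4k}) + (1+u²/2)^{2k} x^{2k} y^{2k}`;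
average over `p, q ∈ 𝒜` of `avg |F(p·)|^{2k} |F(q·)|^{2k} = ∑_{m,m'} b_m b_m' 1[p m = q m']`
(`b_m` = probability that `∑_{i<k} d v_i - ∑_{i<k} d w_i = m`) is `≤ b_0² + κ/|𝒜| ∑ b_m²`, `∑ b_m² = En d (2k)`,
`b_0 = avg |F|^{2k} ≤ v^{2k-2} θ + (√θ / v) √(En d (2k))` with `v = θ^{1/4}`. -/
def ENStepStmt : Prop :=
  ∀ (ι : Type) [Fintype ι] [Nonempty ι] (d : ι → ℕ) (𝒜 : Finset ℕ) (k D Y κ : ℕ) (θ u : ℝ),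
    1 ≤ k → (∀ p ∈ 𝒜, p.Prime ∧ 2 < p ∧ p ≤ Y) → (∀ i, 0 < d i ∧ d i ≤ D) →
    (∀ l : ℕ, 0 < l → l ≤ Y * (k * D) → (𝒜.filter (· ∣ l)).card ≤ κ) →
    En d 1 ≤ θ → 0 < θ → θ ≤ 1 → 2 ≤ 𝒜.card → 0 < u → u ≤ 1 / 2 →
    ∃ p ∈ 𝒜, ∃ q ∈ 𝒜, p ≠ q ∧
      En (dStep d p q) (2 * k) ≤
        (2 * (1 - u / 2) ^ (4 * k)
            + 4 * (1 + u ^ 2 / 2) ^ (2 * k) * ((κ : ℝ) / (𝒜.card : ℝ) + 2 * Real.sqrt θ))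
          * En d (2 * k)
        + 8 * (1 + u ^ 2 / 2) ^ (2 * k) * θ ^ (k + 1)

/-- (ENI) iteration: `ENStepStmt → ENStmt`.  Induction on `j`; remove the used primes from `𝒜`
(`|𝒜_j| ≥ |𝒜|/2`), `En (dB ..) 1 = En d 1 / 2^j` (unique factorisation). -/
def ENStmt : Prop :=
  ∀ (ι : Type) [Fintype ι] [Nonempty ι] (d : ι → ℕ) (𝒜 : Finset ℕ) (k B Y D κ : ℕ) (θ u η : ℝ),
    1 ≤ k → (∀ p ∈ 𝒜, p.Prime ∧ 2 < p ∧ p ≤ Y) → (∀ i, 0 < d i ∧ d i ≤ D) →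
    (∀ p ∈ 𝒜, ∀ i, ¬ p ∣ d i) →
    (∀ l : ℕ, 0 < l → l ≤ Y * (k * (D * Y ^ B)) → (𝒜.filter (· ∣ l)).card ≤ κ) →
    En d 1 ≤ θ → 0 < θ → θ ≤ 1 → 4 * B + 4 ≤ 𝒜.card → 0 < u → u ≤ 1 / 2 → 0 < η →
    2 * (1 - u / 2) ^ (4 * k)
        + 4 * (1 + u ^ 2 / 2) ^ (2 * k) * (2 * (κ : ℝ) / (𝒜.card : ℝ) + 2 * Real.sqrt θ) ≤ η / 2 →
    (∀ j < B, 8 * (1 + u ^ 2 / 2) ^ (2 * k) * (θ / 2 ^ j) ^ (k + 1) ≤ η ^ (j + 1)) →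
    ∃ pq : ℕ → ℕ × ℕ, (∀ j < B, (pq j).1 ∈ 𝒜 ∧ (pq j).2 ∈ 𝒜) ∧
      ∀ j ≤ B, En (dB d pq j) (2 * k) ≤ 2 * η ^ j

/-- (SC) small conductors: `α = h/c`, `s < c ≤ s^t`, average of `e(m π₁ ⋯ π_t α)` over `1 ≤ m ≤ s` and
`π_i ∈ Pr` (primes `≤ s`).  Geometric sum in `m` if `‖n α‖ ≥ s^{-1/2}`; the number of `n ≤ s^t` with
`‖n α‖ < s^{-1/2}` is `≤ (2 c s^{-1/2} + 1)(s^t/c + 1)`, each `n` has `≤ t!` representations. -/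
def SCStmt : Prop :=
  ∀ (s t c h : ℕ) (Pr : Finset ℕ), 1 ≤ s → 1 ≤ t → Pr.Nonempty → (∀ p ∈ Pr, p.Prime ∧ p ≤ s) →
    s < c → c ≤ s ^ t → Nat.Coprime h c →
    ‖F (fun a : Fin s × (Fin t → {x // x ∈ Pr}) => (a.1.val + 1) * ∏ i, (a.2 i).val) ((h : ℝ) / c)‖
      ≤ (1 + 6 * (Nat.factorial t : ℝ) * ((s : ℝ) / (Pr.card : ℝ)) ^ t) / Real.sqrt s

/-- (SOL) from sup bounds on the exponential sums to a solution of the congruence. -/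
def SolStmt : Prop :=
  ∀ (ι : Type) [Fintype ι] [Nonempty ι] (d : ι → ℕ) (K P c : ℕ), 1 ≤ K → 1 ≤ c → Nat.Coprime P c →
    (∀ c', c' ∣ c → 1 < c' → 3 ≤ c' ∧
      ∀ h, Nat.Coprime h c' → ‖F d ((h : ℝ) / c')‖ ^ K ≤ 1 / (c' : ℝ) ^ 3) →
    ∃ v : Fin K → ι, c ∣ ∑ i : Fin K, P ^ (i : ℕ) * d (v i)

/-- (CORE) the friendly integer `N` and the sparse set `𝓜` of bad (odd) divisors. (helper4) -/
def CoreStmt : Prop :=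
  ∃ ρ CK x0 : ℕ, ∀ x ≥ x0, ∃ (N D0 : ℕ) (𝓜 : Finset ℕ),
    0 < N ∧ N ≤ 2 ^ (ρ * x) ∧ 0 < D0 ∧ (∀ m ∈ 𝓜, Odd m ∧ 1 < m) ∧
    ∑ m ∈ 𝓜, (1 : ℝ) / (m : ℝ) ≤ 1 / 8 ∧ 8 * 𝓜.card ≤ 2 ^ (x / 3) ∧
    ∀ c : ℕ, 1 ≤ c → c ≤ 2 ^ x → (∀ m ∈ 𝓜, ¬ m ∣ c) →
      ∃ 𝒟 : Finset ℕ, 𝒟.Nonempty ∧ 𝒟.card ≤ CK * Nat.log 2 x ∧
        (∀ d ∈ 𝒟, d ∣ N ∧ D0 ≤ d ∧ d ≤ D0 * 2 ^ (x / 10)) ∧ c ∣ ∑ d ∈ 𝒟, d

/-- (GREEDY) greedy expansion down to a tiny remainder `A/B`. -/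
def GreedyStmt : Prop :=
  ∀ a b U : ℕ, 1 ≤ a → a < b → 2 * b ≤ 2 ^ U →
    ∃ (S : Finset ℕ) (A B : ℕ), (∀ n ∈ S, 2 ≤ n) ∧ S.card ≤ Nat.log 2 U + 4 ∧ 0 < B ∧ A < b ∧
      B ≤ 2 ^ (3 * U) ∧ A * 2 ^ U ≤ B ∧ (∀ n ∈ S, A * n < B) ∧
      ∑ n ∈ S, (1 : ℚ) / (n : ℚ) + (A : ℚ) / (B : ℚ) = (a : ℚ) / (b : ℚ)

/-- (DIGITS) flexible radix-`2^y` digits avoiding multiples of the elements of `𝓜`.
Each residue class mod `2^y` has `2^h` candidates in `[2^(x-1), 2^(x-1) + 2^(x-2))`; the last two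
digits are chosen simultaneously. -/
def DigitsStmt : Prop :=
  ∀ (x y h J v : ℕ) (𝓜 : Finset ℕ), y + h + 2 = x → 3 ≤ y → 2 ≤ J →
    (∀ m ∈ 𝓜, Odd m ∧ 1 < m) → ∑ m ∈ 𝓜, (1 : ℝ) / (m : ℝ) ≤ 1 / 8 → 8 * 𝓜.card ≤ 2 ^ h →
    2 ^ (x - 1) * 2 ^ (y * (J - 1)) ≤ v → v < 2 ^ x * 2 ^ (y * (J - 1)) →
    ∃ c : ℕ → ℕ, (∀ j < J, 2 ^ (x - 2) ≤ c j ∧ c j < 2 ^ x ∧ ∀ m ∈ 𝓜, ¬ m ∣ c j) ∧
      v = ∑ j ∈ range J, c j * 2 ^ (y * j)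

/-- The target statement S0025. -/
def Target : Prop :=
  ∃ C : ℝ, ∃ b₀ : ℕ, ∀ (a b : ℕ), b₀ ≤ b → 1 ≤ a → a < b →
      ∃ S : Finset ℕ, (∀ n ∈ S, 2 ≤ n) ∧ (S.card : ℝ) ≤ C * Real.log (Real.log (b : ℝ)) ∧
        ∑ n ∈ S, (1 : ℚ) / (n : ℚ) = (a : ℚ) / (b : ℚ)

/-- (FIN) final assembly.
Given `a/b`: `U ≈ C log b`, GREEDY gives `ξ = A/B`, `2^(-3U) ≤ ξ ≤ 2^(-U)` (or `A = 0`, done).
`x = U / ρ` (so `ξ N ≤ 1`), `h = x / 3`, `y = x - h - 2`,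
`J ≥ 2` minimal with `B ≤ 2^(x-1) * 2^(y*(J-1))` (bounded by a constant),
`μ = ⌊(3/4) 2^x B / (A N)⌋`, `M = μ N 2^(y(J-1))`, `A M = B q₀ + r₀`, `r = r₀ + B t` in the window of
DIGITS, `q = q₀ - t` (`t ≤ 2^(y+1)`) also in the window.  Then
`A/B = q/M + r/(B M) = ∑_j c_j 2^(yj)/M + ∑_j c'_j 2^(yj)/(B M)` and each `c/(N B')` is
`∑_{d ∈ 𝒟} 1/(k B' N/d)`, `k = ∑ d / c`.  Terms of different pieces are distinct by size. -/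
def FinStmt : Prop := CoreStmt → GreedyStmt → DigitsStmt → Target

end Crest.Agent.EG
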