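import Crest.Agent.EGDefs

/-!
# Row 19 (S0025): module DIGITS
-/

set_option autoImplicit false

namespace Crest.Agent.EG

open Finset

lemma card_le_of_congr (N m : ℕ) (hm : 0 < m) (S : Finset ℕ) (hS : S ⊆ range N)
    (hc : ∀ i ∈ S, ∀ j ∈ S, i % m = j % m) : S.card ≤ N / m + 1 := by
  rw [← card_range (N / m + 1)]
  refine card_le_card_of_injOn (fun i => i / m) ?_ ?_
  · intro i hi
    have h1 := mem_range.mp (hS hi)
    simp only [coe_range, Set.mem_Iio]
    have := Nat.div_le_div_right (c := m) h1.le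
    omega
  · intro i hi j hj hij
    have h1 := hc i hi j hj
    simp only at hij
    rw [← Nat.div_add_mod i m, ← Nat.div_add_mod j m, hij, h1]

/-- few bad indices -/
lemma bad_card (h : ℕ) (𝓜 : Finset ℕ) (hM : ∀ m ∈ 𝓜, Odd m ∧ 1 < m)
    (hs : ∑ m ∈ 𝓜, (1 : ℝ) / (m : ℝ) ≤ 1 / 8) (hc : 8 * 𝓜.card ≤ 2 ^ h) (f : ℕ → ℕ)
    (hf : ∀ m ∈ 𝓜, ∀ i < 2 ^ h, ∀ j < 2 ^ h, m ∣ f i → m ∣ f j → i % m = j % m) :
    4 * ((range (2 ^ h)).filter (fun i => ∃ m ∈ 𝓜, m ∣ f i)).card ≤ 2 ^ h := by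
  classical
  have h1 : ((range (2 ^ h)).filter (fun i => ∃ m ∈ 𝓜, m ∣ f i)).card ≤
      ∑ m ∈ 𝓜, ((range (2 ^ h)).filter (fun i => m ∣ f i)).card := by
    refine le_trans (card_le_card ?_) card_biUnion_le
    intro i hi
    simp only [mem_filter, mem_range, mem_biUnion] at hi ⊢
    obtain ⟨hi, m, hm, hmi⟩ := hi
    exact ⟨m, hm, hi, hmi⟩
  have h2 : ∀ m ∈ 𝓜, (((range (2 ^ h)).filter (fun i => m ∣ f i)).card : ℝ) ≤
      (2 ^ h : ℝ) * (1 / (m : ℝ)) + 1 := by
    intro m hm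
    have hm0 : 0 < m := by have := (hM m hm).2; omega
    have h3 := card_le_of_congr (2 ^ h) m hm0 ((range (2 ^ h)).filter (fun i => m ∣ f i))
      (filter_subset _ _) (by
        intro i hi j hj
        simp only [mem_filter, mem_range] at hi hj
        exact hf m hm i hi.1 j hj.1 hi.2 hj.2)
    have h4 : ((2 ^ h / m : ℕ) : ℝ) ≤ (2 ^ h : ℝ) / m := by
      have := @Nat.cast_div_le ℝ _ _ _ (2 ^ h) m
      push_cast at this
      exact this
    have h5 : ((((range (2 ^ h)).filter (fun i => m ∣ f i)).card : ℕ) : ℝ) ≤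
      ((2 ^ h / m + 1 : ℕ) : ℝ) := by exact_mod_cast h3
    push_cast at h5
    rw [mul_one_div]
    linarith
  have h3 : (((range (2 ^ h)).filter (fun i => ∃ m ∈ 𝓜, m ∣ f i)).card : ℝ) ≤
      ∑ m ∈ 𝓜, ((2 ^ h : ℝ) * (1 / (m : ℝ)) + 1) := by
    calc _ ≤ ((∑ m ∈ 𝓜, ((range (2 ^ h)).filter (fun i => m ∣ f i)).card : ℕ) : ℝ) := by
          exact_mod_cast h1
      _ = ∑ m ∈ 𝓜, (((range (2 ^ h)).filter (fun i => m ∣ f i)).card : ℝ) := by push_cast; rfl
      _ ≤ _ := Finset.sum_le_sum h2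
  rw [Finset.sum_add_distrib, ← Finset.mul_sum] at h3
  simp only [sum_const, nsmul_eq_mul, mul_one] at h3
  have h4 : (8 : ℝ) * 𝓜.card ≤ 2 ^ h := by exact_mod_cast hc
  have h5 : (0 : ℝ) < 2 ^ h := by positivity
  have h6 : (2 ^ h : ℝ) * ∑ m ∈ 𝓜, (1 : ℝ) / (m : ℝ) ≤ 2 ^ h * (1 / 8) :=
    mul_le_mul_of_nonneg_left hs h5.le
  have h7 : (4 : ℝ) * ((range (2 ^ h)).filter (fun i => ∃ m ∈ 𝓜, m ∣ f i)).card ≤ 2 ^ h := by
    linarith
  exact_mod_cast h7

/-- congruence along an arithmetic progression with difference `2^y` -/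
lemma ap_congr (y r m i j : ℕ) (hm : Odd m) (h1 : m ∣ r + 2 ^ y * i) (h2 : m ∣ r + 2 ^ y * j) :
    i % m = j % m := by
  have hcop : Nat.Coprime m (2 ^ y) := (Nat.Coprime.pow_right y (Nat.coprime_two_right.mpr hm))
  have h3 : r + 2 ^ y * i ≡ r + 2 ^ y * j [MOD m] :=
    ((Nat.modEq_zero_iff_dvd.mpr h1).trans (Nat.modEq_zero_iff_dvd.mpr h2).symm)
  have h4 : 2 ^ y * i ≡ 2 ^ y * j [MOD m] := Nat.ModEq.add_left_cancel' r h3
  exact Nat.ModEq.cancel_left_of_coprime hcop h4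

lemma sub_congr' (C m i j : ℕ) (hi : i ≤ C) (hj : j ≤ C) (h1 : m ∣ C - i) (h2 : m ∣ C - j) :
    i % m = j % m := by
  have h3 : C - i ≡ C - j [MOD m] :=
    ((Nat.modEq_zero_iff_dvd.mpr h1).trans (Nat.modEq_zero_iff_dvd.mpr h2).symm)
  have h4 : i + (C - i) ≡ i + (C - j) [MOD m] := Nat.ModEq.add_left i h3
  have h5 : i + (C - i) = j + (C - j) := by omega
  rw [h5] at h4
  exact (Nat.ModEq.add_right_cancel' (C - j) h4).symm

/-- the lower bound sequence -/
def AL (x y : ℕ) : ℕ → ℕ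
  | 0 => 2 ^ (x - 2)
  | J + 1 => 2 ^ y * AL x y J + 3 * 2 ^ (x - 2)

lemma AL_le (x y : ℕ) (hx : 2 ≤ x) (hy : 3 ≤ y) (J : ℕ) :
    AL x y J + 2 ^ (x - 2) ≤ 2 ^ (x - 1) * 2 ^ (y * J) := by
  have hx1 : 2 ^ (x - 1) = 2 * 2 ^ (x - 2) := by
    rw [← pow_succ']; congr 1; omega
  induction J with
  | zero => simp [AL, hx1]; omega
  | succ J ih =>
    have hy4 : 4 ≤ 2 ^ y := by
      calc 4 = 2 ^ 2 := by norm_num
        _ ≤ 2 ^ y := Nat.pow_le_pow_right (by norm_num) (by omega)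
    have h1 : 2 ^ (x - 1) * 2 ^ (y * (J + 1)) = 2 ^ y * (2 ^ (x - 1) * 2 ^ (y * J)) := by
      rw [Nat.mul_succ, pow_add]; ring
    rw [h1]
    have h2 := Nat.mul_le_mul_left (2 ^ y) ih
    rw [Nat.mul_add] at h2
    have h3 : 4 * 2 ^ (x - 2) ≤ 2 ^ y * 2 ^ (x - 2) := Nat.mul_le_mul_right _ hy4
    simp only [AL]
    omega

/-- choice of the lowest digit -/
lemma low_digit (x y h v : ℕ) (hxy : y + h + 2 = x) (hy : 3 ≤ y) (i : ℕ) (hi : i < 2 ^ h)
    (hv : 3 * 2 ^ (x - 2) ≤ v) :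
    ∃ r, r < 2 ^ y ∧ (2 ^ (x - 1) + r + 2 ^ y * i) % 2 ^ y = v % 2 ^ y ∧
      2 ^ (x - 2) ≤ 2 ^ (x - 1) + r + 2 ^ y * i ∧
      2 ^ (x - 1) + r + 2 ^ y * i < 3 * 2 ^ (x - 2) := by
  have hx1 : 2 ^ (x - 1) = 2 * 2 ^ (x - 2) := by
    rw [← pow_succ']; congr 1; omega
  refine ⟨v % 2 ^ y, Nat.mod_lt _ (by positivity), ?_, by omega, ?_⟩
  · have h1 : 2 ^ (x - 1) = 2 ^ y * 2 ^ (h + 1) := by
      rw [← pow_add]; congr 1; omega
    rw [h1]
    have h2 : 2 ^ y * 2 ^ (h + 1) + v % 2 ^ y + 2 ^ y * i = v % 2 ^ y + 2 ^ y * (2 ^ (h + 1) + i) := by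
      ring
    rw [h2, Nat.add_mul_mod_self_left, Nat.mod_mod]
  · have h1 : 2 ^ (x - 2) = 2 ^ y * 2 ^ h := by
      rw [← pow_add]; congr 1; omega
    have h2 : v % 2 ^ y < 2 ^ y := Nat.mod_lt _ (by positivity)
    have h3 : 2 ^ y * (i + 1) ≤ 2 ^ y * 2 ^ h := Nat.mul_le_mul_left _ hi
    rw [hx1, h1]
    rw [Nat.mul_succ] at h3
    omega

theorem digits : DigitsStmt := by
  classical
  intro x y h J v 𝓜 hxy hy hJ hM hs hcard hv1 hv2
  have hx2 : 2 ≤ x := by omega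
  have hx1 : 2 ^ (x - 1) = 2 * 2 ^ (x - 2) := by
    rw [← pow_succ']; congr 1; omega
  have hxp : 2 ^ x = 4 * 2 ^ (x - 2) := by
    have : x = (x - 2) + 2 := by omega
    conv_lhs => rw [this, pow_add]
    ring
  have hy0 : 0 < 2 ^ y := by positivity
  have h2h : 0 < 2 ^ h := by positivity
  -- general statement with `J = n + 2`
  have key : ∀ n v : ℕ, AL x y (n + 1) ≤ v → v < 2 ^ x * 2 ^ (y * (n + 1)) →
      ∃ c : ℕ → ℕ, (∀ j < n + 2, 2 ^ (x - 2) ≤ c j ∧ c j < 2 ^ x ∧ ∀ m ∈ 𝓜, ¬ m ∣ c j) ∧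
        v = ∑ j ∈ range (n + 2), c j * 2 ^ (y * j) := by
    intro n
    induction n with
    | zero =>
      intro v hv1 hv2
      simp only [Nat.zero_add] at *
      simp only [AL] at hv1
      have hv3 : 3 * 2 ^ (x - 2) ≤ v := by
        have : 0 ≤ 2 ^ y * 2 ^ (x - 2) := Nat.zero_le _
        omega
      -- candidates
      have hq : ∀ i < 2 ^ h, ∃ q, v = (2 ^ (x - 1) + v % 2 ^ y + 2 ^ y * i) + 2 ^ y * q ∧
          2 ^ (x - 2) ≤ q ∧ q < 2 ^ x := by
        intro i hi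
        have hlow : 2 ^ (x - 1) + v % 2 ^ y + 2 ^ y * i < 3 * 2 ^ (x - 2) := by
          have h1 : 2 ^ (x - 2) = 2 ^ y * 2 ^ h := by
            rw [← pow_add]; congr 1; omega
          have h2 : v % 2 ^ y < 2 ^ y := Nat.mod_lt _ (by positivity)
          have h3 : 2 ^ y * (i + 1) ≤ 2 ^ y * 2 ^ h := Nat.mul_le_mul_left _ hi
          rw [hx1, h1]
          rw [Nat.mul_succ] at h3
          omega
        have h1 : 2 ^ (x - 1) = 2 ^ y * 2 ^ (h + 1) := by
          rw [← pow_add]; congr 1; omega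
        have hdm := Nat.div_add_mod v (2 ^ y)
        refine ⟨v / 2 ^ y - 2 ^ (h + 1) - i, ?_, ?_, ?_⟩
        · have h4 : 2 ^ (h + 1) + i ≤ v / 2 ^ y := by
            rw [Nat.le_div_iff_mul_le hy0]
            have : (2 ^ (h + 1) + i) * 2 ^ y = 2 ^ y * 2 ^ (h + 1) + 2 ^ y * i := by ring
            rw [this, ← h1]
            omega
          obtain ⟨q, hq⟩ := Nat.exists_eq_add_of_le h4
          have h5 : v / 2 ^ y - 2 ^ (h + 1) - i = q := by omega
          rw [h5, h1]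
          conv_lhs => rw [← hdm, hq]
          ring
        · have h4 : 2 ^ (h + 1) + i + 2 ^ (x - 2) ≤ v / 2 ^ y := by
            rw [Nat.le_div_iff_mul_le hy0]
            have : (2 ^ (h + 1) + i + 2 ^ (x - 2)) * 2 ^ y =
              2 ^ y * 2 ^ (h + 1) + 2 ^ y * i + 2 ^ y * 2 ^ (x - 2) := by ring
            rw [this, ← h1]
            omega
          omega
        · have h4 : v / 2 ^ y < 2 ^ x := by
            rw [Nat.div_lt_iff_lt_mul hy0]
            simpa using hv2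
          omega
      -- bad sets
      have hb1 := bad_card h 𝓜 hM hs hcard (fun i => 2 ^ (x - 1) + v % 2 ^ y + 2 ^ y * i)
        (fun m hm i _ j _ h1 h2 => ap_congr y _ m i j (hM m hm).1 h1 h2)
      have hb2 := bad_card h 𝓜 hM hs hcard (fun i => v / 2 ^ y - 2 ^ (h + 1) - i) (by
        intro m hm i hi j hj h1 h2
        refine sub_congr' (v / 2 ^ y - 2 ^ (h + 1)) m i j ?_ ?_ h1 h2
        · obtain ⟨q, hq1, hq2, hq3⟩ := hq i hi
          have h1' : 2 ^ (x - 1) = 2 ^ y * 2 ^ (h + 1) := by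
            rw [← pow_add]; congr 1; omega
          have h4 : 2 ^ (h + 1) + i ≤ v / 2 ^ y := by
            rw [Nat.le_div_iff_mul_le hy0]
            have : (2 ^ (h + 1) + i) * 2 ^ y = 2 ^ y * 2 ^ (h + 1) + 2 ^ y * i := by ring
            rw [this, ← h1']
            omega
          omega
        · obtain ⟨q, hq1, hq2, hq3⟩ := hq j hj
          have h1' : 2 ^ (x - 1) = 2 ^ y * 2 ^ (h + 1) := by
            rw [← pow_add]; congr 1; omega
          have h4 : 2 ^ (h + 1) + j ≤ v / 2 ^ y := by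
            rw [Nat.le_div_iff_mul_le hy0]
            have : (2 ^ (h + 1) + j) * 2 ^ y = 2 ^ y * 2 ^ (h + 1) + 2 ^ y * j := by ring
            rw [this, ← h1']
            omega
          omega)
      have hex : ∃ i, i < 2 ^ h ∧ (∀ m ∈ 𝓜, ¬ m ∣ 2 ^ (x - 1) + v % 2 ^ y + 2 ^ y * i) ∧
          (∀ m ∈ 𝓜, ¬ m ∣ v / 2 ^ y - 2 ^ (h + 1) - i) := by
        by_contra hcon
        push Not at hcon
        have hsub : range (2 ^ h) ⊆
            (range (2 ^ h)).filter (fun i => ∃ m ∈ 𝓜, m ∣ 2 ^ (x - 1) + v % 2 ^ y + 2 ^ y * i) ∪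
            (range (2 ^ h)).filter (fun i => ∃ m ∈ 𝓜, m ∣ v / 2 ^ y - 2 ^ (h + 1) - i) := by
          intro i hi
          simp only [mem_union, mem_filter]
          by_cases hc : ∀ m ∈ 𝓜, ¬ m ∣ 2 ^ (x - 1) + v % 2 ^ y + 2 ^ y * i
          · right
            exact ⟨hi, hcon i (mem_range.mp hi) hc⟩
          · left
            push Not at hc
            exact ⟨hi, hc⟩
        have h1 := (card_le_card hsub).trans (card_union_le _ _)
        rw [card_range] at h1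
        omega
      obtain ⟨i, hi, hi1, hi2⟩ := hex
      obtain ⟨q, hq1, hq2, hq3⟩ := hq i hi
      have hqe : v / 2 ^ y - 2 ^ (h + 1) - i = q := by
        have h1' : 2 ^ (x - 1) = 2 ^ y * 2 ^ (h + 1) := by
          rw [← pow_add]; congr 1; omega
        have h5 : v = v % 2 ^ y + 2 ^ y * (2 ^ (h + 1) + i + q) := by
          conv_lhs => rw [hq1, h1']
          ring
        have h6 : v / 2 ^ y = 2 ^ (h + 1) + i + q := by
          conv_lhs => rw [h5]
          rw [Nat.add_mul_div_left _ _ hy0, Nat.div_eq_of_lt (Nat.mod_lt _ hy0), Nat.zero_add]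
        omega
      rw [hqe] at hi2
      obtain ⟨r, hr1, hr2, hr3, hr4⟩ := low_digit x y h v hxy hy i hi hv3
      have hlow : 2 ^ (x - 1) + v % 2 ^ y + 2 ^ y * i < 3 * 2 ^ (x - 2) := by
        have h1 : 2 ^ (x - 2) = 2 ^ y * 2 ^ h := by
          rw [← pow_add]; congr 1; omega
        have h2 : v % 2 ^ y < 2 ^ y := Nat.mod_lt _ (by positivity)
        have h3 : 2 ^ y * (i + 1) ≤ 2 ^ y * 2 ^ h := Nat.mul_le_mul_left _ hi
        rw [hx1, h1]
        rw [Nat.mul_succ] at h3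
        omega
      refine ⟨fun j => if j = 0 then 2 ^ (x - 1) + v % 2 ^ y + 2 ^ y * i else q, ?_, ?_⟩
      · intro j hj
        by_cases hj0 : j = 0
        · simp only [hj0, if_true]
          exact ⟨by omega, by omega, hi1⟩
        · simp only [hj0, if_false]
          exact ⟨hq2, hq3, hi2⟩
      · rw [sum_range_succ, sum_range_one]
        simp only [if_true, Nat.mul_zero, pow_zero, mul_one, Nat.one_ne_zero, if_false]
        conv_lhs => rw [hq1]
        ring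
    | succ n ih =>
      intro v hv1 hv2
      have hv3 : 3 * 2 ^ (x - 2) ≤ v := by
        rw [AL] at hv1
        have : 0 ≤ 2 ^ y * AL x y (n + 1) := Nat.zero_le _
        omega
      have hb1 := bad_card h 𝓜 hM hs hcard (fun i => 2 ^ (x - 1) + v % 2 ^ y + 2 ^ y * i)
        (fun m hm i _ j _ h1 h2 => ap_congr y _ m i j (hM m hm).1 h1 h2)
      have hex : ∃ i, i < 2 ^ h ∧ (∀ m ∈ 𝓜, ¬ m ∣ 2 ^ (x - 1) + v % 2 ^ y + 2 ^ y * i) := by
        by_contra hcon
        push Not at hcon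
        have hsub : range (2 ^ h) ⊆
            (range (2 ^ h)).filter
              (fun i => ∃ m ∈ 𝓜, m ∣ 2 ^ (x - 1) + v % 2 ^ y + 2 ^ y * i) := by
          intro i hi
          simp only [mem_filter]
          exact ⟨hi, hcon i (mem_range.mp hi)⟩
        have h1 := (card_le_card hsub)
        rw [card_range] at h1
        omega
      obtain ⟨i, hi, hi1⟩ := hex
      have hlow : 2 ^ (x - 1) + v % 2 ^ y + 2 ^ y * i < 3 * 2 ^ (x - 2) := by
        have h1 : 2 ^ (x - 2) = 2 ^ y * 2 ^ h := by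
          rw [← pow_add]; congr 1; omega
        have h2 : v % 2 ^ y < 2 ^ y := Nat.mod_lt _ (by positivity)
        have h3 : 2 ^ y * (i + 1) ≤ 2 ^ y * 2 ^ h := Nat.mul_le_mul_left _ hi
        rw [hx1, h1]
        rw [Nat.mul_succ] at h3
        omega
      have h1' : 2 ^ (x - 1) = 2 ^ y * 2 ^ (h + 1) := by
        rw [← pow_add]; congr 1; omega
      have hdm := Nat.div_add_mod v (2 ^ y)
      have h4 : 2 ^ (h + 1) + i ≤ v / 2 ^ y := by
        rw [Nat.le_div_iff_mul_le hy0]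
        have : (2 ^ (h + 1) + i) * 2 ^ y = 2 ^ y * 2 ^ (h + 1) + 2 ^ y * i := by ring
        rw [this, ← h1']
        omega
      obtain ⟨q, hq⟩ := Nat.exists_eq_add_of_le h4
      have hv' : v = (2 ^ (x - 1) + v % 2 ^ y + 2 ^ y * i) + 2 ^ y * q := by
        rw [h1']
        conv_lhs => rw [← hdm, hq]
        ring
      have hq1 : AL x y (n + 1) ≤ q := by
        rw [AL] at hv1
        have h5 : 2 ^ y * AL x y (n + 1) ≤ 2 ^ y * q := by omega
        exact Nat.le_of_mul_le_mul_left h5 hy0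
      have hq2 : q < 2 ^ x * 2 ^ (y * (n + 1)) := by
        have h5 : 2 ^ y * q < 2 ^ y * (2 ^ x * 2 ^ (y * (n + 1))) := by
          have h6 : 2 ^ x * 2 ^ (y * (n + 1 + 1)) = 2 ^ y * (2 ^ x * 2 ^ (y * (n + 1))) := by
            rw [Nat.mul_succ y (n + 1), pow_add 2 (y * (n + 1)) y]; ring
          rw [← h6]
          omega
        exact Nat.lt_of_mul_lt_mul_left h5
      obtain ⟨c, hc1, hc2⟩ := ih q hq1 hq2
      refine ⟨fun j => if j = 0 then 2 ^ (x - 1) + v % 2 ^ y + 2 ^ y * i else c (j - 1), ?_, ?_⟩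
      · intro j hj
        by_cases hj0 : j = 0
        · simp only [hj0, if_true]
          exact ⟨by omega, by omega, hi1⟩
        · simp only [hj0, if_false]
          exact hc1 (j - 1) (by omega)
      · rw [sum_range_succ']
        simp only [Nat.succ_ne_zero, if_false, Nat.add_sub_cancel, if_true, Nat.mul_zero,
          pow_zero, mul_one]
        have h5 : ∑ k ∈ range (n + 2), c k * 2 ^ (y * (k + 1)) = 2 ^ y * q := by
          rw [hc2, Finset.mul_sum]
          refine Finset.sum_congr rfl fun k _ => ?_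
          rw [Nat.mul_succ, pow_add]; ring
        rw [h5]
        omega
  obtain ⟨n, rfl⟩ : ∃ n, J = n + 2 := ⟨J - 2, by omega⟩
  have hA := AL_le x y hx2 hy (n + 1)
  refine key n v ?_ ?_
  · have : n + 2 - 1 = n + 1 := by omega
    rw [this] at hv1
    omega
  · have : n + 2 - 1 = n + 1 := by omega
    rwa [this] at hv2

end Crest.Agent.EG
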