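import Crest.Agent.EGDefs

/-!
# Row 19 (S0025): module ENI (iteration of the contraction step)
-/

set_option autoImplicit false

namespace Crest.Agent.EG

open Finset

lemma En_le_one {ι : Type} [Fintype ι] (d : ι → ℕ) (k : ℕ) : En d k ≤ 1 := by
  classical
  unfold En
  have h1 : (((univ.filter (fun vw : (Fin k → ι) × (Fin k → ι) =>
      ∑ i, d (vw.1 i) = ∑ i, d (vw.2 i))).card : ℕ) : ℝ) ≤ (Fintype.card ι : ℝ) ^ (2 * k) := by
    have h2 := card_filter_le (univ : Finset ((Fin k → ι) × (Fin k → ι)))
      (fun vw => ∑ i, d (vw.1 i) = ∑ i, d (vw.2 i))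
    have h3 : (univ : Finset ((Fin k → ι) × (Fin k → ι))).card = (Fintype.card ι) ^ (2 * k) := by
      rw [card_univ, Fintype.card_prod, Fintype.card_fun, Fintype.card_fin, two_mul, pow_add]
    rw [h3] at h2
    exact_mod_cast h2
  exact div_le_one_of_le₀ h1 (by positivity)

lemma En_equiv {ι ι' : Type} [Fintype ι] [Fintype ι'] (e : ι' ≃ ι) (d : ι → ℕ) (k : ℕ) :
    En (fun i => d (e i)) k = En d k := by
  classical
  unfold En
  rw [Fintype.card_congr e]
  congr 2
  refine card_bij (fun vw _ => (fun i => e (vw.1 i), fun i => e (vw.2 i))) ?_ ?_ ?_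
  · intro vw h
    simp only [mem_filter, mem_univ, true_and] at h ⊢
    exact h
  · intro a _ b _ h
    simp only [Prod.mk.injEq] at h
    refine Prod.ext ?_ ?_
    · funext i; exact e.injective (congrFun h.1 i)
    · funext i; exact e.injective (congrFun h.2 i)
  · intro b hb
    refine ⟨(fun i => e.symm (b.1 i), fun i => e.symm (b.2 i)), ?_, ?_⟩
    · simp only [mem_filter, mem_univ, true_and, Equiv.apply_symm_apply] at hb ⊢
      exact hb
    · simp

/-- splitting off the last block -/
def splitLast (ι : Type) (j : ℕ) : ι × (Fin (j + 1) → Bool) ≃ (ι × (Fin j → Bool)) × Bool where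
  toFun a := ((a.1, fun l => a.2 l.castSucc), a.2 (Fin.last j))
  invFun b := (b.1.1, Fin.snoc (α := fun _ => Bool) b.1.2 b.2)
  left_inv a := by
    refine Prod.ext rfl ?_
    funext l
    refine Fin.lastCases ?_ (fun i => ?_) l
    · simp
    · simp
  right_inv b := by
    refine Prod.ext (Prod.ext rfl ?_) ?_
    · funext l; simp
    · simp

lemma dB_succ {ι : Type} (d : ι → ℕ) (pq : ℕ → ℕ × ℕ) (j : ℕ) :
    dB d pq (j + 1) = fun a => dStep (dB d pq j) (pq j).1 (pq j).2 (splitLast ι j a) := by
  funext a
  unfold dB dStep splitLast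
  simp only [Equiv.coe_fn_mk]
  rw [Fin.prod_univ_castSucc]
  simp only [Fin.val_castSucc, Fin.val_last]
  ring

lemma dB_congr {ι : Type} (d : ι → ℕ) (pq pq' : ℕ → ℕ × ℕ) (j : ℕ) (h : ∀ l < j, pq l = pq' l) :
    dB d pq j = dB d pq' j := by
  funext a
  unfold dB
  congr 1
  refine Finset.prod_congr rfl fun l _ => ?_
  rw [h l l.2]

/-- the first moment halves -/
lemma En_one_dStep {ι : Type} [Fintype ι] (d : ι → ℕ) (p q : ℕ) (hp : p.Prime) (hq : q.Prime)
    (hpq : p ≠ q) (hpd : ∀ i, ¬ p ∣ d i) :
    En (dStep d p q) 1 = En d 1 / 2 := by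
  classical
  unfold En
  have hp0 : 0 < p := hp.pos
  have hq0 : 0 < q := hq.pos
  have hcop : Nat.Coprime p q := (Nat.coprime_primes hp hq).mpr hpq
  have key : ∀ (a b : ι × Bool), dStep d p q a = dStep d p q b ↔ (a.2 = b.2 ∧ d a.1 = d b.1) := by
    intro a b
    unfold dStep
    constructor
    · intro h
      rcases a with ⟨a, ba⟩
      rcases b with ⟨b, bb⟩
      cases ba <;> cases bb <;> simp only [Bool.false_eq_true, if_false, if_true] at h ⊢
      · exact ⟨trivial, Nat.eq_of_mul_eq_mul_right hq0 h⟩
      · exfalso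
        have h1 : p ∣ d a * q := ⟨d b, by rw [h]; ring⟩
        exact hpd a ((Nat.Coprime.dvd_mul_right hcop).mp h1)
      · exfalso
        have h1 : p ∣ d b * q := ⟨d a, by rw [← h]; ring⟩
        exact hpd b ((Nat.Coprime.dvd_mul_right hcop).mp h1)
      · exact ⟨trivial, Nat.eq_of_mul_eq_mul_right hp0 h⟩
    · rintro ⟨h1, h2⟩
      rw [h1, h2]
  have hcard : (univ.filter (fun vw : (Fin 1 → ι × Bool) × (Fin 1 → ι × Bool) =>
      ∑ i, dStep d p q (vw.1 i) = ∑ i, dStep d p q (vw.2 i))).card =
      2 * (univ.filter (fun vw : (Fin 1 → ι) × (Fin 1 → ι) =>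
      ∑ i, d (vw.1 i) = ∑ i, d (vw.2 i))).card := by
    have : 2 * (univ.filter (fun vw : (Fin 1 → ι) × (Fin 1 → ι) =>
      ∑ i, d (vw.1 i) = ∑ i, d (vw.2 i))).card = ((univ : Finset Bool) ×ˢ
        (univ.filter (fun vw : (Fin 1 → ι) × (Fin 1 → ι) =>
      ∑ i, d (vw.1 i) = ∑ i, d (vw.2 i)))).card := by
      rw [card_product]; rfl
    rw [this]
    symm
    refine card_bij (fun x _ => (fun i => (x.2.1 i, x.1), fun i => (x.2.2 i, x.1))) ?_ ?_ ?_
    · intro x hx
      simp only [mem_product, mem_univ, true_and, mem_filter, Fin.sum_univ_one] at hx ⊢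
      rw [key]
      exact ⟨rfl, hx⟩
    · intro x _ y _ h
      simp only [Prod.mk.injEq] at h
      have h1 := congrFun h.1 0
      simp only [Prod.mk.injEq] at h1
      refine Prod.ext h1.2 (Prod.ext ?_ ?_)
      · funext i
        have := congrFun h.1 i
        simp only [Prod.mk.injEq] at this
        exact this.1
      · funext i
        have := congrFun h.2 i
        simp only [Prod.mk.injEq] at this
        exact this.1
    · intro b hb
      simp only [mem_filter, mem_univ, true_and, Fin.sum_univ_one] at hb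
      rw [key] at hb
      refine ⟨((b.1 0).2, (fun i => (b.1 i).1, fun i => (b.2 i).1)), ?_, ?_⟩
      · simp only [mem_product, mem_univ, true_and, mem_filter, Fin.sum_univ_one]
        exact hb.2
      · refine Prod.ext ?_ ?_
        · funext i
          have : i = 0 := Subsingleton.elim _ _
          subst this
          rfl
        · funext i
          have : i = 0 := Subsingleton.elim _ _
          subst this
          exact Prod.ext rfl hb.1
  rw [hcard, Fintype.card_prod, Fintype.card_bool]
  by_cases h0 : Fintype.card ι = 0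
  · rw [h0]; simp
  · have : (Fintype.card ι : ℝ) ≠ 0 := by exact_mod_cast h0
    push_cast
    field_simp

theorem eni : ENStepStmt → ENStmt := by
  classical
  intro step ι _ _ d 𝒜 k B Y D κ θ u η hk hA hd hnd hκ hE hθ hθ1 hcard hu hu1 hη h1 h2
  have key : ∀ j ≤ B, ∃ pq : ℕ → ℕ × ℕ, (∀ l < j, (pq l).1 ∈ 𝒜 ∧ (pq l).2 ∈ 𝒜) ∧
      (∀ l ≤ j, En (dB d pq l) (2 * k) ≤ 2 * η ^ l) ∧ En (dB d pq j) 1 ≤ θ / 2 ^ j ∧
      (∀ i, 0 < dB d pq j i ∧ dB d pq j i ≤ D * Y ^ j) ∧
      ∃ used : Finset ℕ, used.card ≤ 2 * j ∧ ∀ p ∈ 𝒜, p ∉ used → ∀ i, ¬ p ∣ dB d pq j i := by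
    intro j
    induction j with
    | zero =>
      intro _
      have hd0 : ∀ pq, dB d pq 0 = fun a => d a.1 := by
        intro pq; funext a; unfold dB; simp
      have hE0 : ∀ pq k, En (dB d pq 0) k = En d k := by
        intro pq k
        rw [hd0]
        exact En_equiv (Equiv.prodUnique ι (Fin 0 → Bool)) d k
      refine ⟨fun _ => (0, 0), by simp, ?_, ?_, ?_, ∅, by simp, ?_⟩
      · intro l hl
        have : l = 0 := by omega
        subst this
        rw [hE0, pow_zero, mul_one]
        exact (En_le_one d _).trans (by norm_num)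
      · rw [hE0, pow_zero, div_one]; exact hE
      · intro i
        rw [hd0]; simpa using hd i.1
      · intro p hp _ i
        rw [hd0]; exact hnd p hp i.1
    | succ j ih =>
      intro hj
      obtain ⟨pq, hpq, hEn, hE1, hdj, used, hused, hnu⟩ := ih (by omega)
      set 𝒜' := 𝒜 \ used with hA'
      have hcA : 𝒜.card ≤ 𝒜'.card + 2 * j := by
        have := Finset.le_card_sdiff used 𝒜
        rw [← hA'] at this
        omega
      have hcA1 : 𝒜.card ≤ 2 * 𝒜'.card := by omega
      have hcA2 : 2 ≤ 𝒜'.card := by omega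
      have hYpos : 0 < Y := by
        have : 𝒜.Nonempty := by
          rw [← card_pos]; omega
        obtain ⟨p, hp⟩ := this
        have := hA p hp
        omega
      have hθj : (0 : ℝ) < θ / 2 ^ j := by positivity
      have h2j : (1 : ℝ) ≤ 2 ^ j := one_le_pow₀ (by norm_num)
      have hθj1 : θ / 2 ^ j ≤ θ := div_le_self hθ.le h2j
      obtain ⟨p, hp, q, hq, hpq', hst⟩ := step (ι × (Fin j → Bool)) (dB d pq j) 𝒜' k
        (D * Y ^ j) Y κ (θ / 2 ^ j) u hk
        (fun p hp => hA p (mem_sdiff.mp hp).1) hdj (by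
          intro l hl hl2
          refine le_trans (card_le_card (filter_subset_filter _ sdiff_subset)) (hκ l hl ?_)
          refine hl2.trans ?_
          have : Y ^ j ≤ Y ^ B := Nat.pow_le_pow_right hYpos (by omega)
          gcongr) hE1 hθj (hθj1.trans hθ1) hcA2 hu hu1
      have hpA := (mem_sdiff.mp hp).1
      have hqA := (mem_sdiff.mp hq).1
      have hpu := (mem_sdiff.mp hp).2
      have hqu := (mem_sdiff.mp hq).2
      set pq' : ℕ → ℕ × ℕ := fun l => if l = j then (p, q) else pq l with hpq''
      have hcong : ∀ l ≤ j, dB d pq' l = dB d pq l := by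
        intro l hl
        refine dB_congr d _ _ l fun i hi => ?_
        simp only [hpq'']
        rw [if_neg (by omega)]
      have hsucc : dB d pq' (j + 1) =
          fun a => dStep (dB d pq j) p q (splitLast ι j a) := by
        rw [dB_succ, hcong j le_rfl]
        simp [hpq'']
      have hEsucc : ∀ k, En (dB d pq' (j + 1)) k = En (dStep (dB d pq j) p q) k := by
        intro k
        rw [hsucc]
        exact En_equiv (splitLast ι j) (dStep (dB d pq j) p q) k
      refine ⟨pq', ?_, ?_, ?_, ?_, insert p (insert q used), ?_, ?_⟩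
      · intro l hl
        simp only [hpq'']
        by_cases hlj : l = j
        · rw [if_pos hlj]; exact ⟨hpA, hqA⟩
        · rw [if_neg hlj]; exact hpq l (by omega)
      · intro l hl
        by_cases hlj : l ≤ j
        · rw [hcong l hlj]; exact hEn l hlj
        · have : l = j + 1 := by omega
          subst this
          rw [hEsucc]
          refine hst.trans ?_
          have hEj := hEn j le_rfl
          have hEj0 : 0 ≤ En (dB d pq j) (2 * k) := by unfold En; positivity
          have hcA1r : (𝒜.card : ℝ) ≤ 2 * 𝒜'.card := by exact_mod_cast hcA1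
          have hc0 : (0 : ℝ) < 𝒜'.card := by exact_mod_cast (by omega : 0 < 𝒜'.card)
          have hc1 : (0 : ℝ) < 𝒜.card := by exact_mod_cast (by omega : 0 < 𝒜.card)
          have hκ' : (κ : ℝ) / (𝒜'.card : ℝ) ≤ 2 * (κ : ℝ) / (𝒜.card : ℝ) := by
            rw [div_le_div_iff₀ hc0 hc1]
            have : (0 : ℝ) ≤ κ := Nat.cast_nonneg κ
            nlinarith
          have hsq : Real.sqrt (θ / 2 ^ j) ≤ Real.sqrt θ := Real.sqrt_le_sqrt hθj1
          have hM : (0 : ℝ) ≤ 4 * (1 + u ^ 2 / 2) ^ (2 * k) := by positivity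
          have hcoef : (2 * (1 - u / 2) ^ (4 * k)
            + 4 * (1 + u ^ 2 / 2) ^ (2 * k) * ((κ : ℝ) / (𝒜'.card : ℝ) +
              2 * Real.sqrt (θ / 2 ^ j))) ≤ η / 2 := by
            refine le_trans ?_ h1
            gcongr
          calc _ ≤ (η / 2) * (2 * η ^ j) + η ^ (j + 1) := by
                refine add_le_add ?_ (h2 j (by omega))
                exact mul_le_mul hcoef hEj hEj0 (by positivity)
            _ = 2 * η ^ (j + 1) := by ring
      · rw [hEsucc, En_one_dStep _ p q (hA p hpA).1 (hA q hqA).1 hpq' (hnu p hpA hpu)]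
        rw [pow_succ, ← div_div]
        linarith
      · intro a
        rw [hsucc]
        simp only
        generalize splitLast ι j a = b
        obtain ⟨h3, h4⟩ := hdj b.1
        have hp2 := hA p hpA
        have hq2 := hA q hqA
        unfold dStep
        constructor
        · refine Nat.mul_pos h3 ?_
          split_ifs
          · omega
          · omega
        · rw [pow_succ, ← mul_assoc]
          refine Nat.mul_le_mul h4 ?_
          split_ifs
          · exact hp2.2.2
          · exact hq2.2.2
      · have h3 := card_insert_le p (insert q used)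
        have h4 := card_insert_le q used
        omega
      · intro r hr hru a
        simp only [mem_insert, not_or] at hru
        obtain ⟨hrp, hrq, hru⟩ := hru
        rw [hsucc]
        simp only
        generalize splitLast ι j a = b
        unfold dStep
        intro hdiv
        have hrp' := (hA r hr).1
        rcases (Nat.Prime.dvd_mul hrp').mp hdiv with h | h
        · exact hnu r hr hru b.1 h
        · split_ifs at h
          · exact hrp ((Nat.prime_dvd_prime_iff_eq hrp' (hA p hpA).1).mp h)
          · exact hrq ((Nat.prime_dvd_prime_iff_eq hrp' (hA q hqA).1).mp h)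
  obtain ⟨pq, h3, h4, -⟩ := key B le_rfl
  exact ⟨pq, h3, h4⟩

end Crest.Agent.EG
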