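import Crest.Agent.EGDefs

/-!
# Row 19 (S0025): the contraction step (ENS)
-/

set_option autoImplicit false

namespace Crest.Agent.EG
namespace ENS

open Finset

lemma e_add (x y : ℝ) : e (x + y) = e x * e y := by
  unfold e; rw [← Complex.exp_add]; push_cast; ring_nf

lemma e_zero : e 0 = 1 := by simp [e]

lemma e_int (n : ℤ) : e (n : ℝ) = 1 := by
  unfold e; rw [Complex.exp_eq_one_iff]; exact ⟨n, by push_cast; ring⟩

lemma e_neg (x : ℝ) : e (-x) = (starRingEnd ℂ) (e x) := by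
  unfold e; rw [← Complex.exp_conj]; simp [map_ofNat]

lemma e_sum {κ : Type} (s : Finset κ) (f : κ → ℝ) : e (∑ i ∈ s, f i) = ∏ i ∈ s, e (f i) := by
  classical
  induction s using Finset.induction_on with
  | empty => simp [e_zero]
  | insert a s ha ih => rw [sum_insert ha, prod_insert ha, e_add, ih]

lemma e_nat_mul (n : ℕ) (x : ℝ) : e (n * x) = e x ^ n := by
  unfold e; rw [← Complex.exp_nat_mul]; push_cast; ring_nf

lemma e_eq_one {x : ℝ} (h : e x = 1) : ∃ n : ℤ, x = n := by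
  unfold e at h
  rw [Complex.exp_eq_one_iff] at h
  obtain ⟨n, hn⟩ := h
  refine ⟨n, ?_⟩
  have h2 : (2 * Real.pi * Complex.I : ℂ) ≠ 0 := Complex.two_pi_I_ne_zero
  have h3 : (2 * Real.pi * Complex.I : ℂ) * x = (2 * Real.pi * Complex.I : ℂ) * n := by
    rw [mul_comm _ (n : ℂ), ← hn]; ring
  exact_mod_cast mul_left_cancel₀ h2 h3

/-- orthogonality -/
lemma orth (Q : ℕ) (m : ℤ) (hm : |m| < Q) :
    ∑ h ∈ range Q, e ((m : ℝ) * ((h : ℝ) / (Q : ℝ))) = if m = 0 then (Q : ℂ) else 0 := by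
  have hQ : 0 < (Q : ℤ) := lt_of_le_of_lt (abs_nonneg m) hm
  have hQ' : (Q : ℝ) ≠ 0 := by
    have : (0 : ℝ) < Q := by exact_mod_cast hQ
    exact this.ne'
  have h1 : ∀ h : ℕ, e ((m : ℝ) * ((h : ℝ) / (Q : ℝ))) = e ((m : ℝ) / Q) ^ h := fun h => by
    rw [← e_nat_mul]; congr 1; ring
  simp only [h1]
  split_ifs with h0
  · subst h0
    simp [e_zero]
  · have hne : e ((m : ℝ) / Q) ≠ 1 := by
      intro h
      obtain ⟨n, hn⟩ := e_eq_one h
      rw [div_eq_iff hQ'] at hn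
      have h2 : m = n * Q := by exact_mod_cast hn
      have hn0 : n ≠ 0 := by rintro rfl; simp at h2; exact h0 h2
      have h3 : |m| = |n| * Q := by rw [h2, abs_mul, abs_of_pos hQ]
      have h4 : 1 ≤ |n| := Int.one_le_abs hn0
      nlinarith
    rw [geom_sum_eq hne]
    have h5 : e ((m : ℝ) / Q) ^ Q = 1 := by
      rw [← e_nat_mul]
      rw [show ((Q : ℕ) : ℝ) * ((m : ℝ) / Q) = (m : ℝ) by field_simp]
      exact e_int m
    rw [h5]; simp

lemma count {V : Type} [Fintype V] (n : V → ℤ) (Q : ℕ) (hn : ∀ v, |n v| < Q) :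
    ∑ h ∈ range Q, ∑ v, e ((n v : ℝ) * ((h : ℝ) / (Q : ℝ))) =
      (Q : ℂ) * ((univ.filter (fun v => n v = 0)).card : ℂ) := by
  rw [sum_comm, sum_congr rfl (fun v _ => orth Q (n v) (hn v)), ← sum_filter, sum_const,
    nsmul_eq_mul]
  ring

variable {ι : Type} [Fintype ι]

/-- pairs of `k`-tuples -/
abbrev Pr (ι : Type) (k : ℕ) : Type := (Fin k → ι) × (Fin k → ι)

/-- signed sum -/
def sg (d : ι → ℕ) (k : ℕ) (a : Pr ι k) : ℤ :=
  ∑ i, (d (a.1 i) : ℤ) - ∑ i, (d (a.2 i) : ℤ)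

omit [Fintype ι] in
lemma sg_abs {d : ι → ℕ} {D : ℕ} (hd : ∀ i, d i ≤ D) (k : ℕ) (a : Pr ι k) :
    |sg d k a| ≤ (k * D : ℕ) := by
  have h : ∀ v : Fin k → ι, 0 ≤ ∑ i, (d (v i) : ℤ) ∧ ∑ i, (d (v i) : ℤ) ≤ (k * D : ℕ) := by
    intro v
    constructor
    · exact sum_nonneg (fun i _ => by positivity)
    · calc ∑ i, (d (v i) : ℤ) ≤ ∑ i : Fin k, (D : ℤ) :=
          sum_le_sum (fun i _ => by exact_mod_cast hd (v i))
        _ = (k * D : ℕ) := by simp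
  obtain ⟨h1, h2⟩ := h a.1
  obtain ⟨h3, h4⟩ := h a.2
  unfold sg
  rw [abs_le]
  constructor <;> linarith

lemma pow_expand (d : ι → ℕ) (K : ℕ) (x : ℝ) :
    ((‖∑ i, e ((d i : ℝ) * x)‖ ^ (2 * K) : ℝ) : ℂ) = ∑ a : Pr ι K, e ((sg d K a : ℝ) * x) := by
  set z := ∑ i, e ((d i : ℝ) * x) with hz
  have h1 : ((‖z‖ ^ (2 * K) : ℝ) : ℂ) = z ^ K * (starRingEnd ℂ) (z ^ K) := by
    rw [map_pow, ← mul_pow, Complex.mul_conj, Complex.normSq_eq_norm_sq, pow_mul]
    push_cast; ring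
  have h2 : z ^ K = ∑ v : Fin K → ι, e ((∑ i, (d (v i) : ℤ) : ℤ) * x) := by
    rw [hz, Fintype.sum_pow]
    refine sum_congr rfl fun v _ => ?_
    rw [← e_sum, ← sum_mul]
    push_cast
    rfl
  rw [h1, h2, map_sum, sum_mul_sum, Fintype.sum_prod_type]
  refine sum_congr rfl fun v _ => sum_congr rfl fun w _ => ?_
  rw [← e_neg, ← e_add]
  congr 1
  unfold sg
  push_cast
  ring

/-- number of solutions of `p s(a) + q s(a') = 0` -/
def Cn (d : ι → ℕ) (k p q : ℕ) : ℕ :=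
  (univ.filter (fun a : Pr ι k × Pr ι k => (p : ℤ) * sg d k a.1 + (q : ℤ) * sg d k a.2 = 0)).card

/-- number of solutions of `s(a) = m` -/
def Bn (d : ι → ℕ) (k : ℕ) (m : ℤ) : ℕ := (univ.filter (fun a : Pr ι k => sg d k a = m)).card

lemma En_eq_Bn (d : ι → ℕ) (k : ℕ) :
    En d k = (Bn d k 0 : ℝ) / (Fintype.card ι : ℝ) ^ (2 * k) := by
  unfold En Bn
  congr 3
  ext a
  simp only [mem_filter, mem_univ, true_and, sg, sub_eq_zero]
  exact_mod_cast Iff.rfl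

/-- moments as averages over `h / Q` -/
lemma En_avg [Nonempty ι] (d : ι → ℕ) (K Q D : ℕ) (hd : ∀ i, d i ≤ D) (hQ : K * D < Q) :
    ∑ h ∈ range Q, ‖F d ((h : ℝ) / Q)‖ ^ (2 * K) = Q * En d K := by
  have hc := count (fun a : Pr ι K => sg d K a) Q (fun a => lt_of_le_of_lt (sg_abs hd K a)
    (by exact_mod_cast hQ))
  have h1 : ((∑ h ∈ range Q, ‖∑ i, e ((d i : ℝ) * ((h : ℝ) / Q))‖ ^ (2 * K) : ℝ) : ℂ) =
      ((Q * Bn d K 0 : ℝ) : ℂ) := by
    rw [Complex.ofReal_sum, sum_congr rfl (fun (h : ℕ) _ => pow_expand d K ((h : ℝ) / Q)), hc]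
    push_cast
    rfl
  have h2 := Complex.ofReal_injective h1
  have h3 : ∀ x : ℝ, ‖F d x‖ ^ (2 * K) =
      ‖∑ i, e ((d i : ℝ) * x)‖ ^ (2 * K) / (Fintype.card ι : ℝ) ^ (2 * K) := fun x => by
    unfold F
    rw [norm_div, div_pow]
    simp
  rw [sum_congr rfl (fun (h : ℕ) _ => h3 _), ← sum_div, h2, En_eq_Bn, mul_div_assoc]

/-- mixed moments as averages over `h / Q` -/
lemma Cn_avg [Nonempty ι] (d : ι → ℕ) (k Q D p q : ℕ) (hd : ∀ i, d i ≤ D)
    (hQ : (p + q) * (k * D) < Q) :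
    ∑ h ∈ range Q, ‖F d ((p : ℝ) * ((h : ℝ) / Q))‖ ^ (2 * k) *
        ‖F d ((q : ℝ) * ((h : ℝ) / Q))‖ ^ (2 * k) =
      Q * ((Cn d k p q : ℝ) / (Fintype.card ι : ℝ) ^ (4 * k)) := by
  have hc := count (fun a : Pr ι k × Pr ι k => (p : ℤ) * sg d k a.1 + (q : ℤ) * sg d k a.2) Q
    (fun a => by
      have h1 := sg_abs hd k a.1
      have h2 := sg_abs hd k a.2
      refine lt_of_le_of_lt (abs_add_le _ _) ?_
      rw [abs_mul, abs_mul, Nat.abs_cast, Nat.abs_cast]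
      have h3 : (((p + q) * (k * D) : ℕ) : ℤ) < Q := by exact_mod_cast hQ
      refine lt_of_le_of_lt ?_ h3
      push_cast at h1 h2 ⊢
      nlinarith [Int.natCast_nonneg p, Int.natCast_nonneg q])
  have h1 : ((∑ h ∈ range Q, ‖∑ i, e ((d i : ℝ) * ((p : ℝ) * ((h : ℝ) / Q)))‖ ^ (2 * k) *
        ‖∑ i, e ((d i : ℝ) * ((q : ℝ) * ((h : ℝ) / Q)))‖ ^ (2 * k) : ℝ) : ℂ) =
      ((Q * Cn d k p q : ℝ) : ℂ) := by
    rw [Complex.ofReal_sum]
    have : ∀ h ∈ range Q, (((‖∑ i, e ((d i : ℝ) * ((p : ℝ) * ((h : ℝ) / Q)))‖ ^ (2 * k) *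
        ‖∑ i, e ((d i : ℝ) * ((q : ℝ) * ((h : ℝ) / Q)))‖ ^ (2 * k) : ℝ) : ℂ)) =
        ∑ a : Pr ι k × Pr ι k, e ((((p : ℤ) * sg d k a.1 + (q : ℤ) * sg d k a.2 : ℤ) : ℝ) *
          ((h : ℝ) / Q)) := by
      intro h _
      rw [Fintype.sum_prod_type, Complex.ofReal_mul, pow_expand, pow_expand, sum_mul_sum]
      refine sum_congr rfl fun v _ => sum_congr rfl fun w _ => ?_
      rw [← e_add]
      congr 1
      push_cast
      ring
    rw [sum_congr rfl this, hc]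
    push_cast
    rfl
  have h2 := Complex.ofReal_injective h1
  have h3 : ∀ x : ℝ, ‖F d x‖ ^ (2 * k) =
      ‖∑ i, e ((d i : ℝ) * x)‖ ^ (2 * k) / (Fintype.card ι : ℝ) ^ (2 * k) := fun x => by
    unfold F
    rw [norm_div, div_pow]
    simp
  have h4 : ∀ h ∈ range Q, ‖F d ((p : ℝ) * ((h : ℝ) / Q))‖ ^ (2 * k) *
        ‖F d ((q : ℝ) * ((h : ℝ) / Q))‖ ^ (2 * k) =
      (‖∑ i, e ((d i : ℝ) * ((p : ℝ) * ((h : ℝ) / Q)))‖ ^ (2 * k) *
        ‖∑ i, e ((d i : ℝ) * ((q : ℝ) * ((h : ℝ) / Q)))‖ ^ (2 * k)) /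
        (Fintype.card ι : ℝ) ^ (4 * k) := fun h _ => by
    rw [h3, h3, div_mul_div_comm, ← pow_add]
    congr 2
    ring
  rw [sum_congr rfl h4, ← sum_div, h2, mul_div_assoc]

lemma En_two (d : ι → ℕ) [Nonempty ι] (k : ℕ) :
    En d (2 * k) = (Cn d k 1 1 : ℝ) / (Fintype.card ι : ℝ) ^ (4 * k) := by
  obtain ⟨D, hD⟩ : ∃ D, ∀ i, d i ≤ D := ⟨∑ i, d i, fun i => single_le_sum (f := d)
    (fun _ _ => Nat.zero_le _) (mem_univ i)⟩
  have h1 := En_avg d (2 * k) (2 * k * D + 1) D hD (by omega)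
  have h2 := Cn_avg d k (2 * k * D + 1) D 1 1 hD (by nlinarith)
  have h3 : ∀ h ∈ range (2 * k * D + 1), ‖F d ((h : ℝ) / (2 * k * D + 1 : ℕ))‖ ^ (2 * (2 * k)) =
      ‖F d (((1 : ℕ) : ℝ) * ((h : ℝ) / (2 * k * D + 1 : ℕ)))‖ ^ (2 * k) *
        ‖F d (((1 : ℕ) : ℝ) * ((h : ℝ) / (2 * k * D + 1 : ℕ)))‖ ^ (2 * k) := fun h _ => by
    rw [← pow_add, Nat.cast_one, one_mul]
    congr 1
    ring
  rw [sum_congr rfl h3, h2] at h1
  have hne : ((2 * k * D + 1 : ℕ) : ℝ) ≠ 0 := by positivity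
  exact (mul_left_cancel₀ hne h1).symm

/-- multiplying the family by `p` does not change the energy -/
lemma En_smul (d : ι → ℕ) (K p : ℕ) (hp : 0 < p) : En (fun i => p * d i) K = En d K := by
  unfold En
  congr 3
  ext a
  simp only [mem_filter, mem_univ, true_and, ← mul_sum]
  exact Nat.mul_right_inj hp.ne'

lemma F_smul (d : ι → ℕ) (p : ℕ) (x : ℝ) : F (fun i => p * d i) x = F d (p * x) := by
  unfold F
  congr 2
  funext i
  congr 1
  push_cast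
  ring

lemma F_step (d : ι → ℕ) [Nonempty ι] (p q : ℕ) (x : ℝ) :
    F (dStep d p q) x = (F d (p * x) + F d (q * x)) / 2 := by
  unfold F dStep
  rw [Fintype.sum_prod_type, Fintype.card_prod, Fintype.card_bool]
  simp only [Fintype.sum_bool, if_true, Bool.false_eq_true, if_false, sum_add_distrib]
  have h1 : ∀ (r : ℕ) (i : ι), e (((d i * r : ℕ) : ℝ) * x) = e ((d i : ℝ) * (r * x)) :=
    fun r i => by congr 1; push_cast; ring
  simp only [h1]
  have hne : (Fintype.card ι : ℂ) ≠ 0 := by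
    exact_mod_cast Fintype.card_ne_zero
  generalize ∑ x_1, e ((d x_1 : ℝ) * (p * x)) = A
  generalize ∑ x_1, e ((d x_1 : ℝ) * (q * x)) = B
  push_cast
  field_simp

/-- the pointwise inequality -/
lemma pointwise (k : ℕ) {x y u : ℝ} (hx : 0 ≤ x) (hy : 0 ≤ y) (hu : 0 < u) (hu2 : u ≤ 1 / 2) :
    ((x + y) / 2) ^ (4 * k) ≤ (1 - u / 2) ^ (4 * k) * (x ^ (4 * k) + y ^ (4 * k)) +
      (1 + u ^ 2 / 2) ^ (2 * k) * (x ^ (2 * k) * y ^ (2 * k)) := by
  wlog hxy : y ≤ x generalizing x y with H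
  · have := H hy hx (le_of_not_ge hxy)
    rw [add_comm x y, add_comm (x ^ (4 * k)), mul_comm (x ^ (2 * k))]
    exact this
  have h0 : 0 ≤ 1 - u / 2 := by linarith
  by_cases hc : y ≤ (1 - u) * x
  · have h1 : (x + y) / 2 ≤ (1 - u / 2) * x := by linarith
    have h2 : ((x + y) / 2) ^ (4 * k) ≤ ((1 - u / 2) * x) ^ (4 * k) :=
      pow_le_pow_left₀ (by linarith) h1 _
    rw [mul_pow] at h2
    have h3 : 0 ≤ (1 - u / 2) ^ (4 * k) * y ^ (4 * k) := by positivity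
    have h4 : 0 ≤ (1 + u ^ 2 / 2) ^ (2 * k) * (x ^ (2 * k) * y ^ (2 * k)) := by positivity
    rw [mul_add]
    linarith
  · rw [not_le] at hc
    have h1 : ((x + y) / 2) ^ 2 ≤ (1 + u ^ 2 / 2) * (x * y) := by
      have h2 : x - y ≤ u * x := by linarith
      have h3 : (x - y) ^ 2 ≤ (u * x) ^ 2 := pow_le_pow_left₀ (by linarith) h2 2
      have h4 : x / 2 ≤ y := by nlinarith
      have h5 : (u * x) ^ 2 ≤ u ^ 2 * (x * (2 * y)) := by
        rw [mul_pow]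
        apply mul_le_mul_of_nonneg_left _ (by positivity)
        nlinarith
      nlinarith
    have h2 : (((x + y) / 2) ^ 2) ^ (2 * k) ≤ ((1 + u ^ 2 / 2) * (x * y)) ^ (2 * k) :=
      pow_le_pow_left₀ (by positivity) h1 _
    rw [← pow_mul, mul_pow, mul_pow, show 2 * (2 * k) = 4 * k by ring] at h2
    have h3 : 0 ≤ (1 - u / 2) ^ (4 * k) * (x ^ (4 * k) + y ^ (4 * k)) := by positivity
    linarith

/-- contraction up to the mixed term -/
lemma step_le [Nonempty ι] (d : ι → ℕ) (k p q : ℕ) {u : ℝ} (hp : 0 < p) (hq : 0 < q)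
    (hu : 0 < u) (hu2 : u ≤ 1 / 2) :
    En (dStep d p q) (2 * k) ≤ 2 * (1 - u / 2) ^ (4 * k) * En d (2 * k) +
      (1 + u ^ 2 / 2) ^ (2 * k) * ((Cn d k p q : ℝ) / (Fintype.card ι : ℝ) ^ (4 * k)) := by
  obtain ⟨D, hD⟩ : ∃ D, ∀ i, d i ≤ D := ⟨∑ i, d i, fun i => single_le_sum (f := d)
    (fun _ _ => Nat.zero_le _) (mem_univ i)⟩
  set Q := 2 * k * (D * (p + q)) + 1 with hQ
  have hQpos : (0 : ℝ) < (Q : ℝ) := by rw [hQ]; positivity
  have a1 := En_avg (dStep d p q) (2 * k) Q (D * (p + q)) (fun a => by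
    unfold dStep
    apply Nat.mul_le_mul (hD _)
    split_ifs <;> omega) (by omega)
  have a2 := En_avg (fun i => p * d i) (2 * k) Q (D * (p + q)) (fun i => by
    rw [mul_comm]; exact Nat.mul_le_mul (hD _) (by omega)) (by omega)
  have a3 := En_avg (fun i => q * d i) (2 * k) Q (D * (p + q)) (fun i => by
    rw [mul_comm]; exact Nat.mul_le_mul (hD _) (by omega)) (by omega)
  have a4 := Cn_avg d k Q D p q hD (by rw [hQ]; nlinarith [Nat.zero_le (k * (D * (p + q)))])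
  rw [En_smul _ _ _ hp] at a2
  rw [En_smul _ _ _ hq] at a3
  simp only [F_smul] at a2 a3
  have key : ∀ h ∈ range Q, ‖F (dStep d p q) ((h : ℝ) / Q)‖ ^ (2 * (2 * k)) ≤
      (1 - u / 2) ^ (4 * k) * (‖F d (p * ((h : ℝ) / Q))‖ ^ (2 * (2 * k)) +
        ‖F d (q * ((h : ℝ) / Q))‖ ^ (2 * (2 * k))) +
      (1 + u ^ 2 / 2) ^ (2 * k) * (‖F d (p * ((h : ℝ) / Q))‖ ^ (2 * k) *
        ‖F d (q * ((h : ℝ) / Q))‖ ^ (2 * k)) := by
    intro h _
    have h4k : 2 * (2 * k) = 4 * k := by ring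
    rw [h4k]
    refine le_trans ?_ (pointwise k (norm_nonneg _) (norm_nonneg _) hu hu2)
    apply pow_le_pow_left₀ (norm_nonneg _)
    rw [F_step, norm_div, Complex.norm_ofNat]
    exact div_le_div_of_nonneg_right (norm_add_le _ _) (by norm_num)
  have hs := sum_le_sum key
  rw [a1, sum_add_distrib, ← mul_sum, ← mul_sum, sum_add_distrib, a2, a3, a4] at hs
  have h2 : (Q : ℝ) * En (dStep d p q) (2 * k) ≤ (Q : ℝ) *
      (2 * (1 - u / 2) ^ (4 * k) * En d (2 * k) +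
      (1 + u ^ 2 / 2) ^ (2 * k) * ((Cn d k p q : ℝ) / (Fintype.card ι : ℝ) ^ (4 * k))) := by
    refine hs.trans (le_of_eq ?_)
    ring
  exact le_of_mul_le_mul_left h2 hQpos

/-- bound for the low moment -/
lemma low_moment [Nonempty ι] (d : ι → ℕ) (k : ℕ) (hk : 1 ≤ k) {θ : ℝ} (h1 : En d 1 ≤ θ)
    (hθ : 0 < θ) : En d k ^ 2 ≤ 2 * θ ^ (k + 1) + 2 * Real.sqrt θ * En d (2 * k) := by
  obtain ⟨D, hD⟩ : ∃ D, ∀ i, d i ≤ D := ⟨∑ i, d i, fun i => single_le_sum (f := d)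
    (fun _ _ => Nat.zero_le _) (mem_univ i)⟩
  set Q := 2 * k * D + 1 with hQ
  have hQpos : (0 : ℝ) < (Q : ℝ) := by rw [hQ]; positivity
  have a1 := En_avg d 1 Q D hD (by nlinarith)
  have a2 := En_avg d k Q D hD (by nlinarith)
  have a3 := En_avg d (2 * k) Q D hD (by omega)
  set v := Real.sqrt (Real.sqrt θ) with hv
  have hsq : 0 < Real.sqrt θ := Real.sqrt_pos.mpr hθ
  have hvpos : 0 < v := Real.sqrt_pos.mpr hsq
  have hv2 : v ^ 2 = Real.sqrt θ := Real.sq_sqrt hsq.le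
  have hv4 : v ^ 4 = θ := by
    rw [show v ^ 4 = (v ^ 2) ^ 2 by ring, hv2, Real.sq_sqrt hθ.le]
  obtain ⟨j, rfl⟩ : ∃ j, k = j + 1 := ⟨k - 1, by omega⟩
  have key : ∀ x : ℝ, 0 ≤ x → x ^ (2 * (j + 1)) ≤ v ^ (2 * j) * x ^ 2 + (1 / v) * (x * x ^ (2 * (j + 1))) := by
    intro x hx
    rcases le_total x v with h | h
    · have h1 : x ^ (2 * j) ≤ v ^ (2 * j) := pow_le_pow_left₀ hx h _
      have h2 : x ^ (2 * (j + 1)) = x ^ (2 * j) * x ^ 2 := by rw [← pow_add]; ring_nf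
      have h3 : 0 ≤ (1 / v) * (x * x ^ (2 * (j + 1))) := by positivity
      have h4 : x ^ (2 * j) * x ^ 2 ≤ v ^ (2 * j) * x ^ 2 :=
        mul_le_mul_of_nonneg_right h1 (by positivity)
      linarith
    · have h1 : 1 ≤ (1 / v) * x := by
        rw [one_div, ← div_eq_inv_mul, le_div_iff₀ hvpos]; linarith
      have h2 : 0 ≤ v ^ (2 * j) * x ^ 2 := by positivity
      have h3 : 0 ≤ x ^ (2 * (j + 1)) := by positivity
      have h4 : x ^ (2 * (j + 1)) ≤ (1 / v) * x * x ^ (2 * (j + 1)) :=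
        le_mul_of_one_le_left h3 h1
      rw [← mul_assoc]
      linarith
  have hs := sum_le_sum (fun h (_ : h ∈ range Q) => key ‖F d ((h : ℝ) / Q)‖ (norm_nonneg _))
  rw [sum_add_distrib, ← mul_sum, ← mul_sum, a2] at hs
  have a1' : ∑ h ∈ range Q, ‖F d ((h : ℝ) / Q)‖ ^ 2 = Q * En d 1 := by
    simpa using a1
  rw [a1'] at hs
  set T := ∑ h ∈ range Q, ‖F d ((h : ℝ) / Q)‖ * ‖F d ((h : ℝ) / Q)‖ ^ (2 * (j + 1)) with hT
  have hcs : T ^ 2 ≤ (Q * En d 1) * (Q * En d (2 * (j + 1))) := by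
    have := sum_mul_sq_le_sq_mul_sq (range Q) (fun h => ‖F d ((h : ℝ) / Q)‖)
      (fun h => ‖F d ((h : ℝ) / Q)‖ ^ (2 * (j + 1)))
    rw [a1'] at this
    have h5 : ∑ h ∈ range Q, (‖F d ((h : ℝ) / Q)‖ ^ (2 * (j + 1))) ^ 2 =
        Q * En d (2 * (j + 1)) := by
      rw [← a3]
      refine sum_congr rfl fun h _ => ?_
      rw [← pow_mul]
      congr 1
      ring
    rw [h5] at this
    exact this
  have hT0 : 0 ≤ T := sum_nonneg (fun h _ => by positivity)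
  have hE2 : 0 ≤ En d (2 * (j + 1)) := by unfold En; positivity
  have hE0 : 0 ≤ En d (j + 1) := by unfold En; positivity
  have hE1 : 0 ≤ En d 1 := by unfold En; positivity
  -- divide by `Q`
  set τ := T / Q with hτ
  have hTτ : T = Q * τ := by rw [hτ]; field_simp
  have hτ0 : 0 ≤ τ := by positivity
  have hcs2 : τ ^ 2 ≤ θ * En d (2 * (j + 1)) := by
    have h6 : τ ^ 2 ≤ En d 1 * En d (2 * (j + 1)) := by
      rw [hTτ] at hcs
      have h7 : (Q : ℝ) ^ 2 * τ ^ 2 ≤ (Q : ℝ) ^ 2 * (En d 1 * En d (2 * (j + 1))) := by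
        nlinarith
      exact le_of_mul_le_mul_left h7 (by positivity)
    exact h6.trans (mul_le_mul_of_nonneg_right h1 hE2)
  have hmain : En d (j + 1) ≤ v ^ (2 * j) * θ + (1 / v) * τ := by
    have h6 : (Q : ℝ) * En d (j + 1) ≤ Q * (v ^ (2 * j) * θ + (1 / v) * τ) := by
      refine hs.trans ?_
      rw [hTτ]
      have h7 : v ^ (2 * j) * (Q * En d 1) ≤ v ^ (2 * j) * (Q * θ) := by gcongr
      nlinarith
    exact le_of_mul_le_mul_left h6 hQpos
  have h8 : En d (j + 1) ^ 2 ≤ 2 * (v ^ (2 * j) * θ) ^ 2 + 2 * ((1 / v) * τ) ^ 2 := by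
    have h9 : En d (j + 1) ^ 2 ≤ (v ^ (2 * j) * θ + (1 / v) * τ) ^ 2 :=
      pow_le_pow_left₀ hE0 hmain 2
    nlinarith [sq_nonneg (v ^ (2 * j) * θ - (1 / v) * τ)]
  have h10 : (v ^ (2 * j) * θ) ^ 2 = θ ^ (j + 1 + 1) := by
    rw [mul_pow, ← pow_mul, show 2 * j * 2 = 4 * j by ring, pow_mul, hv4]
    ring
  have h11 : ((1 / v) * τ) ^ 2 ≤ Real.sqrt θ * En d (2 * (j + 1)) := by
    rw [mul_pow, div_pow, one_pow, hv2, one_div, ← div_eq_inv_mul, div_le_iff₀ hsq]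
    refine hcs2.trans (le_of_eq ?_)
    have := Real.mul_self_sqrt hθ.le
    calc θ * En d (2 * (j + 1)) = (Real.sqrt θ * Real.sqrt θ) * En d (2 * (j + 1)) := by rw [this]
      _ = _ := by ring
  rw [h10] at h8
  linarith

/-! ### the combinatorial count -/

/-- sums of functions of the signed sum -/
lemma sum_sg (d : ι → ℕ) (k : ℕ) (f : ℤ → ℝ) :
    ∑ a : Pr ι k, f (sg d k a) = ∑ m ∈ univ.image (sg d k), (Bn d k m : ℝ) * f m := by
  rw [sum_comp f (sg d k)]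
  refine sum_congr rfl fun m _ => ?_
  rw [nsmul_eq_mul]
  rfl

/-- swapping -/
lemma sg_swap (d : ι → ℕ) (k : ℕ) (a : Pr ι k) : sg d k a.swap = - sg d k a := by
  unfold sg; simp

lemma Cn_eq (d : ι → ℕ) (k p q : ℕ) :
    (Cn d k p q : ℝ) = ∑ m ∈ univ.image (sg d k), ∑ m' ∈ univ.image (sg d k),
      (Bn d k m : ℝ) * ((Bn d k m' : ℝ) * if (p : ℤ) * m = (q : ℤ) * m' then 1 else 0) := by
  have h1 : (Cn d k p q : ℝ) = ∑ a : Pr ι k, ∑ a' : Pr ι k,
      if (p : ℤ) * sg d k a = (q : ℤ) * sg d k a' then (1 : ℝ) else 0 := by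
    unfold Cn
    rw [card_filter, Nat.cast_sum, Fintype.sum_prod_type]
    refine sum_congr rfl fun a _ => ?_
    refine Fintype.sum_equiv (Equiv.prodComm _ _) _ _ fun a' => ?_
    have h2 := sg_swap d k a'
    have h3 : ((p : ℤ) * sg d k a + (q : ℤ) * sg d k a' = 0) ↔
        ((p : ℤ) * sg d k a = (q : ℤ) * sg d k ((Equiv.prodComm (Fin k → ι) (Fin k → ι)) a')) := by
      rw [show (Equiv.prodComm (Fin k → ι) (Fin k → ι)) a' = a'.swap from rfl, h2]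
      constructor <;> intro h <;> linarith
    simp only [h3]
    split_ifs <;> simp
  rw [h1, sum_sg d k (fun m => ∑ a' : Pr ι k, if (p : ℤ) * m = (q : ℤ) * sg d k a' then (1 : ℝ) else 0)]
  refine sum_congr rfl fun m _ => ?_
  rw [sum_sg d k (fun m' => if (p : ℤ) * m = (q : ℤ) * m' then (1 : ℝ) else 0), mul_sum]

lemma Cn_one (d : ι → ℕ) (k : ℕ) :
    (Cn d k 1 1 : ℝ) = ∑ m ∈ univ.image (sg d k), (Bn d k m : ℝ) ^ 2 := by
  rw [Cn_eq]
  refine sum_congr rfl fun m hm => ?_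
  rw [sum_eq_single m]
  · simp [sq]
  · intro m' _ hne
    rw [if_neg]
    · simp
    · simp only [Nat.cast_one, one_mul]
      exact fun h => hne h.symm
  · intro h; exact absurd hm h

/-- bound for a single pair of primes -/
lemma Cn_le (d : ι → ℕ) (k p q : ℕ) (hp : p.Prime) (hq : q.Prime) (hpq : p ≠ q) :
    (Cn d k p q : ℝ) ≤ (Bn d k 0 : ℝ) ^ 2 +
      ((1 / 2) * ∑ m ∈ (univ.image (sg d k)).filter (fun m => m ≠ 0 ∧ (q : ℤ) ∣ m),
          (Bn d k m : ℝ) ^ 2 +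
        (1 / 2) * ∑ m ∈ (univ.image (sg d k)).filter (fun m => m ≠ 0 ∧ (p : ℤ) ∣ m),
          (Bn d k m : ℝ) ^ 2) := by
  classical
  set S := univ.image (sg d k) with hS
  have hp0 : (p : ℤ) ≠ 0 := by exact_mod_cast hp.ne_zero
  have hq0 : (q : ℤ) ≠ 0 := by exact_mod_cast hq.ne_zero
  have hcop : IsCoprime (p : ℤ) (q : ℤ) := by
    rw [Nat.isCoprime_iff_coprime]
    exact (Nat.coprime_primes hp hq).mpr hpq
  rw [Cn_eq]
  -- pointwise
  have hpt : ∀ m ∈ S, ∀ m' ∈ S,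
      (Bn d k m : ℝ) * ((Bn d k m' : ℝ) * if (p : ℤ) * m = (q : ℤ) * m' then 1 else 0) ≤
      (if m = 0 ∧ m' = 0 then (Bn d k 0 : ℝ) ^ 2 else 0) +
      ((1 / 2) * (if (m ≠ 0 ∧ (q : ℤ) ∣ m) ∧ (p : ℤ) * m = (q : ℤ) * m' then (Bn d k m : ℝ) ^ 2 else 0) +
      (1 / 2) * (if (m' ≠ 0 ∧ (p : ℤ) ∣ m') ∧ (p : ℤ) * m = (q : ℤ) * m' then (Bn d k m' : ℝ) ^ 2 else 0)) := by
    intro m _ m' _
    by_cases he : (p : ℤ) * m = (q : ℤ) * m'
    · by_cases hm : m = 0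
      · have hm' : m' = 0 := by
          subst hm
          rw [mul_zero] at he
          rcases mul_eq_zero.mp he.symm with h | h
          · exact absurd h hq0
          · exact h
        subst hm hm'
        simp
        exact le_of_eq (by ring)
      · have hm' : m' ≠ 0 := by
          rintro rfl
          rw [mul_zero] at he
          rcases mul_eq_zero.mp he with h | h
          · exact absurd h hp0
          · exact hm h
        have hqm : (q : ℤ) ∣ m := hcop.symm.dvd_of_dvd_mul_left ⟨m', he⟩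
        have hpm : (p : ℤ) ∣ m' := hcop.dvd_of_dvd_mul_left ⟨m, he.symm⟩
        rw [if_pos he, if_neg (fun h => hm h.1), if_pos ⟨⟨hm, hqm⟩, he⟩, if_pos ⟨⟨hm', hpm⟩, he⟩]
        nlinarith [sq_nonneg ((Bn d k m : ℝ) - Bn d k m')]
    · rw [if_neg he, mul_zero, mul_zero]
      positivity
  refine (sum_le_sum fun m hm => sum_le_sum fun m' hm' => hpt m hm m' hm').trans ?_
  simp only [sum_add_distrib, ← mul_sum]
  refine add_le_add ?_ (add_le_add ?_ ?_)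
  · have h1 : ∀ m ∈ S, ∑ m' ∈ S, (if m = 0 ∧ m' = 0 then (Bn d k 0 : ℝ) ^ 2 else 0) ≤
        if m = 0 then (Bn d k 0 : ℝ) ^ 2 else 0 := by
      intro m _
      by_cases hm : m = 0
      · simp only [hm, true_and, if_true]
        rw [sum_ite_eq']
        split_ifs
        · exact le_rfl
        · positivity
      · simp [hm]
    refine (sum_le_sum h1).trans ?_
    rw [sum_ite_eq']
    split_ifs
    · exact le_rfl
    · positivity
  · apply mul_le_mul_of_nonneg_left _ (by norm_num)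
    rw [sum_filter]
    refine sum_le_sum fun m _ => ?_
    by_cases hm : m ≠ 0 ∧ (q : ℤ) ∣ m
    · rw [if_pos hm]
      simp only [hm, true_and, ne_eq, not_false_eq_true]
      obtain ⟨c, hc⟩ := hm.2
      have h1 : ∀ m' ∈ S, (if (p : ℤ) * m = (q : ℤ) * m' then (Bn d k m : ℝ) ^ 2 else 0) =
          if m' = p * c then (Bn d k m : ℝ) ^ 2 else 0 := by
        intro m' _
        congr 1
        rw [hc]
        apply propext
        constructor
        · intro h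
          have : (q : ℤ) * m' = q * (p * c) := by rw [← h]; ring
          exact mul_left_cancel₀ hq0 this
        · intro h; rw [h]; ring
      rw [sum_congr rfl h1, sum_ite_eq']
      split_ifs
      · exact le_rfl
      · positivity
    · rw [if_neg hm]
      simp [hm]
  · apply mul_le_mul_of_nonneg_left _ (by norm_num)
    rw [sum_filter, sum_comm]
    refine sum_le_sum fun m _ => ?_
    by_cases hm : m ≠ 0 ∧ (p : ℤ) ∣ m
    · rw [if_pos hm]
      simp only [hm, true_and, ne_eq, not_false_eq_true]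
      obtain ⟨c, hc⟩ := hm.2
      have h1 : ∀ m' ∈ S, (if (p : ℤ) * m' = (q : ℤ) * m then (Bn d k m : ℝ) ^ 2 else 0) =
          if m' = q * c then (Bn d k m : ℝ) ^ 2 else 0 := by
        intro m' _
        congr 1
        rw [hc]
        apply propext
        constructor
        · intro h
          have : (p : ℤ) * m' = p * (q * c) := by rw [h]; ring
          exact mul_left_cancel₀ hp0 this
        · intro h; rw [h]; ring
      rw [sum_congr rfl h1, sum_ite_eq']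
      split_ifs
      · exact le_rfl
      · positivity
    · rw [if_neg hm]
      simp [hm]

/-- good pair of primes -/
lemma exists_pair (d : ι → ℕ) (𝒜 : Finset ℕ) (k D Y κ : ℕ)
    (hA : ∀ p ∈ 𝒜, p.Prime ∧ 2 < p ∧ p ≤ Y) (hd : ∀ i, 0 < d i ∧ d i ≤ D)
    (hκ : ∀ l : ℕ, 0 < l → l ≤ Y * (k * D) → (𝒜.filter (· ∣ l)).card ≤ κ)
    (h2 : 2 ≤ 𝒜.card) :
    ∃ p ∈ 𝒜, ∃ q ∈ 𝒜, p ≠ q ∧
      (Cn d k p q : ℝ) ≤ (Bn d k 0 : ℝ) ^ 2 + 2 * ((κ : ℝ) / 𝒜.card) * Cn d k 1 1 := by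
  classical
  set S := univ.image (sg d k) with hS
  set n := 𝒜.card with hn
  have hnpos : (0 : ℝ) < n := by
    have : 0 < n := by omega
    exact_mod_cast this
  set W := fun m : ℤ => (Bn d k m : ℝ) ^ 2 with hW
  have hW0 : ∀ m, 0 ≤ W m := fun m => by positivity
  -- the sum over primes
  have hsum : ∑ q ∈ 𝒜, ∑ m ∈ S.filter (fun m => m ≠ 0 ∧ (q : ℤ) ∣ m), W m ≤
      κ * Cn d k 1 1 := by
    rw [Cn_one, mul_sum]
    simp only [sum_filter]
    rw [sum_comm]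
    refine sum_le_sum fun m hm => ?_
    by_cases hm0 : m = 0
    · simp [hm0]
      positivity
    · have h3 : ∀ q ∈ 𝒜, (if m ≠ 0 ∧ (q : ℤ) ∣ m then W m else 0) =
          if q ∣ m.natAbs then W m else 0 := by
        intro q _
        have : (m ≠ 0 ∧ (q : ℤ) ∣ m) ↔ q ∣ m.natAbs := by
          rw [Int.natCast_dvd]; simp [hm0]
        simp only [this]
      rw [sum_congr rfl h3, ← sum_filter, sum_const, nsmul_eq_mul]
      apply mul_le_mul_of_nonneg_right _ (hW0 m)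
      have hab : m.natAbs ≤ Y * (k * D) := by
        rw [hS, mem_image] at hm
        obtain ⟨a, -, rfl⟩ := hm
        have h4 := sg_abs (fun i => (hd i).2) k a
        have h5 : (sg d k a).natAbs ≤ k * D := by
          have : ((sg d k a).natAbs : ℤ) ≤ (k * D : ℕ) := by rw [Int.natCast_natAbs]; exact h4
          exact_mod_cast this
        have hY : 1 ≤ Y := by
          obtain ⟨p, hp⟩ := card_pos.mp (by omega : 0 < 𝒜.card)
          have := hA p hp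
          omega
        exact h5.trans (Nat.le_mul_of_pos_left _ hY)
      exact_mod_cast hκ m.natAbs (Int.natAbs_pos.mpr hm0) hab
  by_contra hcon
  push Not at hcon
  have hlt : ∀ x ∈ 𝒜.offDiag, (Bn d k 0 : ℝ) ^ 2 + 2 * ((κ : ℝ) / n) * Cn d k 1 1 <
      (Bn d k 0 : ℝ) ^ 2 + ((1 / 2) * ∑ m ∈ S.filter (fun m => m ≠ 0 ∧ (x.2 : ℤ) ∣ m), W m +
        (1 / 2) * ∑ m ∈ S.filter (fun m => m ≠ 0 ∧ (x.1 : ℤ) ∣ m), W m) := by
    intro x hx
    rw [mem_offDiag] at hx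
    obtain ⟨h1, h3, h4⟩ := hx
    exact (hcon x.1 h1 x.2 h3 h4).trans_le (Cn_le d k x.1 x.2 (hA _ h1).1 (hA _ h3).1 h4)
  have hne : 𝒜.offDiag.Nonempty := by
    rw [← card_pos, offDiag_card, ← hn]
    have : n < n * n := by nlinarith
    omega
  have hs := sum_lt_sum_of_nonempty hne hlt
  rw [sum_const, sum_add_distrib, sum_const, nsmul_eq_mul, nsmul_eq_mul, mul_add,
    add_lt_add_iff_left, offDiag_card] at hs
  have hup : ∑ x ∈ 𝒜.offDiag, ((1 / 2) * ∑ m ∈ S.filter (fun m => m ≠ 0 ∧ (x.2 : ℤ) ∣ m), W m +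
        (1 / 2) * ∑ m ∈ S.filter (fun m => m ≠ 0 ∧ (x.1 : ℤ) ∣ m), W m) ≤ n * (κ * Cn d k 1 1) := by
    have h5 : ∑ x ∈ 𝒜.offDiag, ((1 / 2) * ∑ m ∈ S.filter (fun m => m ≠ 0 ∧ (x.2 : ℤ) ∣ m), W m +
        (1 / 2) * ∑ m ∈ S.filter (fun m => m ≠ 0 ∧ (x.1 : ℤ) ∣ m), W m) ≤
        ∑ x ∈ 𝒜 ×ˢ 𝒜, ((1 / 2) * ∑ m ∈ S.filter (fun m => m ≠ 0 ∧ (x.2 : ℤ) ∣ m), W m +
        (1 / 2) * ∑ m ∈ S.filter (fun m => m ≠ 0 ∧ (x.1 : ℤ) ∣ m), W m) := by
      apply sum_le_sum_of_subset_of_nonneg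
      · intro x hx
        rw [mem_offDiag] at hx
        exact mem_product.mpr ⟨hx.1, hx.2.1⟩
      · intro x _ _
        have : ∀ q : ℕ, 0 ≤ ∑ m ∈ S.filter (fun m => m ≠ 0 ∧ (q : ℤ) ∣ m), W m :=
          fun q => sum_nonneg fun m _ => hW0 m
        have h6 := this x.1
        have h7 := this x.2
        positivity
    refine h5.trans ?_
    rw [sum_product]
    simp only [sum_add_distrib, ← mul_sum, sum_const, nsmul_eq_mul]
    rw [← hn]
    nlinarith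
  have h6 := hs.trans_le hup
  have h7 : ((n * n - n : ℕ) : ℝ) = n * (n - 1) := by
    rw [Nat.cast_sub (by nlinarith)]
    push_cast
    ring
  rw [← hn, h7] at h6
  have h8 : (n : ℝ) * (n - 1) * (2 * ((κ : ℝ) / n) * Cn d k 1 1) =
      2 * (n - 1) * (κ * Cn d k 1 1) := by
    field_simp
  rw [h8] at h6
  have h9 : (2 : ℝ) ≤ n := by exact_mod_cast h2
  have h10 : (0 : ℝ) ≤ κ * Cn d k 1 1 := by positivity
  nlinarith

end ENS

open ENS in
theorem ens : ENStepStmt := by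
  intro ι _ _ d 𝒜 k D Y κ θ u hk hA hd hκ h1 hθ hθ1 h2 hu hu2
  obtain ⟨p, hp, q, hq, hpq, hC⟩ := exists_pair d 𝒜 k D Y κ hA hd hκ h2
  refine ⟨p, hp, q, hq, hpq, ?_⟩
  refine (step_le d k p q (hA p hp).1.pos (hA q hq).1.pos hu hu2).trans ?_
  have hlow := low_moment d k hk h1 hθ
  rw [En_eq_Bn, div_pow] at hlow
  have hcard : (0 : ℝ) < (Fintype.card ι : ℝ) ^ (4 * k) := by
    have : 0 < Fintype.card ι := Fintype.card_pos
    positivity
  have hc4 : ((Fintype.card ι : ℝ) ^ (2 * k)) ^ 2 = (Fintype.card ι : ℝ) ^ (4 * k) := by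
    rw [← pow_mul]; congr 1; ring
  rw [hc4] at hlow
  have hE2 := En_two d k
  have hCn : (Cn d k p q : ℝ) / (Fintype.card ι : ℝ) ^ (4 * k) ≤
      2 * θ ^ (k + 1) + 2 * Real.sqrt θ * En d (2 * k) +
        2 * ((κ : ℝ) / 𝒜.card) * En d (2 * k) := by
    calc (Cn d k p q : ℝ) / (Fintype.card ι : ℝ) ^ (4 * k)
        ≤ ((Bn d k 0 : ℝ) ^ 2 + 2 * ((κ : ℝ) / 𝒜.card) * Cn d k 1 1) /
            (Fintype.card ι : ℝ) ^ (4 * k) := by gcongr
      _ = (Bn d k 0 : ℝ) ^ 2 / (Fintype.card ι : ℝ) ^ (4 * k) +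
            2 * ((κ : ℝ) / 𝒜.card) * En d (2 * k) := by rw [hE2]; ring
      _ ≤ _ := by linarith
  have hE0 : 0 ≤ En d (2 * k) := by unfold En; positivity
  have hu1 : 0 ≤ (1 + u ^ 2 / 2) ^ (2 * k) := by positivity
  have hth : 0 ≤ θ ^ (k + 1) := by positivity
  have hsq : 0 ≤ Real.sqrt θ := Real.sqrt_nonneg _
  have hkap : 0 ≤ (κ : ℝ) / 𝒜.card := by positivity
  generalize (1 + u ^ 2 / 2) ^ (2 * k) = G at *
  generalize (κ : ℝ) / 𝒜.card = K at *
  generalize Real.sqrt θ = s at *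
  generalize θ ^ (k + 1) = t at *
  generalize En d (2 * k) = E at *
  generalize (1 - u / 2) ^ (4 * k) = H at *
  have h3 : G * ((Cn d k p q : ℝ) / (Fintype.card ι : ℝ) ^ (4 * k)) ≤
      G * (2 * t + 2 * s * E + 2 * K * E) := mul_le_mul_of_nonneg_left hCn hu1
  have h4 : 0 ≤ G * t := by positivity
  have h5 : 0 ≤ G * (s * E) := by positivity
  have h6 : 0 ≤ G * (K * E) := by positivity
  nlinarith

end Crest.Agent.EG
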