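import Crest.Agent.EGDefs

/-! Row 19 (S0025), module (FIN): final assembly. -/

set_option autoImplicit false

namespace Crest.Agent.EG

open Finset

/-- one piece `c / (N B')` as a sum of distinct unit fractions of controlled size -/
lemma piece (N Bp c x K D0 : ℕ) (𝒟 : Finset ℕ) (hN : 0 < N) (hBp : 0 < Bp) (hx : 2 ≤ x)
    (hD0 : 0 < D0) (hne : 𝒟.Nonempty) (hK : 𝒟.card ≤ K)
    (hd : ∀ d ∈ 𝒟, d ∣ N ∧ D0 ≤ d ∧ d ≤ D0 * 2 ^ (x / 10)) (hdiv : c ∣ ∑ d ∈ 𝒟, d)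
    (hc1 : 2 ^ (x - 2) ≤ c) (hc2 : c < 2 ^ x) :
    ∃ T : Finset ℕ, T.card ≤ K ∧ ∑ n ∈ T, (1 : ℚ) / (n : ℚ) = (c : ℚ) / ((N : ℚ) * Bp) ∧
      ∀ n ∈ T, 0 < n ∧ N * Bp < n * 2 ^ x ∧ n * 2 ^ x ≤ 4 * K * 2 ^ (x / 10) * (N * Bp) := by
  obtain ⟨k, hk⟩ := hdiv
  have hsum : 0 < ∑ d ∈ 𝒟, d := by
    obtain ⟨d, hdm⟩ := hne
    have h1 : d ≤ ∑ d ∈ 𝒟, d := Finset.single_le_sum (f := fun d => d) (fun _ _ => Nat.zero_le _) hdm
    have h2 := (hd d hdm).2.1
    omega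
  have hc0 : 0 < c := lt_of_lt_of_le (by positivity) hc1
  have hk0 : 0 < k := by
    rcases Nat.eq_zero_or_pos k with h | h
    · rw [h, mul_zero] at hk; omega
    · exact h
  have hdpos : ∀ d ∈ 𝒟, 0 < d := fun d hdm => lt_of_lt_of_le hD0 (hd d hdm).2.1
  have hNd : ∀ d ∈ 𝒟, 0 < N / d := fun d hdm =>
    Nat.div_pos (Nat.le_of_dvd hN (hd d hdm).1) (hdpos d hdm)
  have hinj : Set.InjOn (fun d => k * Bp * (N / d)) (𝒟 : Set ℕ) := by
    intro d hdm d' hdm' h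
    have h1 : N / d = N / d' := Nat.eq_of_mul_eq_mul_left (by positivity) h
    have h2 := Nat.div_mul_cancel (hd d hdm).1
    have h3 := Nat.div_mul_cancel (hd d' hdm').1
    rw [h1] at h2
    have h4 : N / d' * d = N / d' * d' := by rw [h2, h3]
    exact Nat.eq_of_mul_eq_mul_left (hNd d' hdm') h4
  refine ⟨𝒟.image (fun d => k * Bp * (N / d)), (Finset.card_image_le).trans hK, ?_, ?_⟩
  · rw [Finset.sum_image hinj]
    have h1 : ∀ d ∈ 𝒟, (1 : ℚ) / ((k * Bp * (N / d) : ℕ) : ℚ) = (d : ℚ) / ((k : ℚ) * Bp * N) := by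
      intro d hdm
      have hdq : (d : ℚ) ≠ 0 := by exact_mod_cast (hdpos d hdm).ne'
      have hNq : (N : ℚ) ≠ 0 := by exact_mod_cast hN.ne'
      rw [Nat.cast_mul, Nat.cast_mul, Nat.cast_div (hd d hdm).1 hdq]
      have hkq : (k : ℚ) ≠ 0 := by exact_mod_cast hk0.ne'
      have hBq : (Bp : ℚ) ≠ 0 := by exact_mod_cast hBp.ne'
      field_simp
    rw [Finset.sum_congr rfl h1, ← Finset.sum_div, ← Nat.cast_sum, hk]
    have hkq : (k : ℚ) ≠ 0 := by exact_mod_cast hk0.ne'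
    have hNq : (N : ℚ) ≠ 0 := by exact_mod_cast hN.ne'
    have hBq : (Bp : ℚ) ≠ 0 := by exact_mod_cast hBp.ne'
    push_cast
    field_simp
  · intro n hn
    rw [Finset.mem_image] at hn
    obtain ⟨d, hdm, rfl⟩ := hn
    have hdp := hdpos d hdm
    have hNdp := hNd d hdm
    have h2 := Nat.div_mul_cancel (hd d hdm).1
    have hle : d ≤ ∑ d ∈ 𝒟, d := Finset.single_le_sum (f := fun d => d) (fun _ _ => Nat.zero_le _) hdm
    have hge : ∑ d ∈ 𝒟, d ≤ K * (2 ^ (x / 10) * d) := by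
      calc ∑ d ∈ 𝒟, d ≤ ∑ _d' ∈ 𝒟, 2 ^ (x / 10) * d := by
            refine Finset.sum_le_sum fun d' hd' => ?_
            calc d' ≤ D0 * 2 ^ (x / 10) := (hd d' hd').2.2
              _ ≤ d * 2 ^ (x / 10) := Nat.mul_le_mul_right _ (hd d hdm).2.1
              _ = 2 ^ (x / 10) * d := mul_comm _ _
        _ = 𝒟.card * (2 ^ (x / 10) * d) := by rw [Finset.sum_const, smul_eq_mul]
        _ ≤ K * (2 ^ (x / 10) * d) := Nat.mul_le_mul_right _ hK
    set n := k * Bp * (N / d) with hn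
    have hnd : n * c * d = (∑ d ∈ 𝒟, d) * (N * Bp) := by
      rw [hk, hn]
      calc k * Bp * (N / d) * c * d = c * k * Bp * (N / d * d) := by ring
        _ = c * k * (N * Bp) := by rw [h2]; ring
    have hn0 : 0 < n := by rw [hn]; positivity
    have h3 : N * Bp ≤ n * c := by
      have : d * (N * Bp) ≤ d * (n * c) := by
        calc d * (N * Bp) ≤ (∑ d ∈ 𝒟, d) * (N * Bp) := Nat.mul_le_mul_right _ hle
          _ = d * (n * c) := by rw [← hnd]; ring
      exact Nat.le_of_mul_le_mul_left this hdp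
    have h4 : n * c ≤ K * 2 ^ (x / 10) * (N * Bp) := by
      have : d * (n * c) ≤ d * (K * 2 ^ (x / 10) * (N * Bp)) := by
        calc d * (n * c) = (∑ d ∈ 𝒟, d) * (N * Bp) := by rw [← hnd]; ring
          _ ≤ K * (2 ^ (x / 10) * d) * (N * Bp) := Nat.mul_le_mul_right _ hge
          _ = d * (K * 2 ^ (x / 10) * (N * Bp)) := by ring
      exact Nat.le_of_mul_le_mul_left this hdp
    refine ⟨hn0, ?_, ?_⟩
    · calc N * Bp ≤ n * c := h3
        _ < n * 2 ^ x := Nat.mul_lt_mul_of_pos_left hc2 hn0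
    · have h5 : 2 ^ x = 4 * 2 ^ (x - 2) := by
        rw [show (4 : ℕ) = 2 ^ 2 by norm_num, ← pow_add]; congr 1; omega
      calc n * 2 ^ x = 4 * (n * 2 ^ (x - 2)) := by rw [h5]; ring
        _ ≤ 4 * (n * c) := Nat.mul_le_mul_left _ (Nat.mul_le_mul_left _ hc1)
        _ ≤ 4 * (K * 2 ^ (x / 10) * (N * Bp)) := Nat.mul_le_mul_left _ h4
        _ = 4 * K * 2 ^ (x / 10) * (N * Bp) := by ring

/-- the quotient-remainder step -/
lemma windows (A B N x W : ℕ) (hA : 0 < A) (hN : 0 < N) (hx : 3 ≤ x) (hW : 2 ≤ W)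
    (hAN : A * N ≤ B) (hB1 : 2 ^ x ≤ B) (hB2 : B ≤ 2 ^ (x - 1) * W) :
    ∃ μ q r : ℕ, 0 < μ ∧ A * (μ * N * W) = B * q + r ∧
      2 ^ (x - 1) * W ≤ q ∧ q < 2 ^ x * W ∧ 2 ^ (x - 1) * W ≤ r ∧ r < 2 ^ x * W := by
  have hB0 : 0 < B := lt_of_lt_of_le (by positivity) hB1
  have hAN0 : 0 < A * N := by positivity
  set z := 2 ^ (x - 2) with hz
  have hz2 : 2 ≤ z := by
    rw [hz]
    calc 2 = 2 ^ 1 := by norm_num
      _ ≤ 2 ^ (x - 2) := Nat.pow_le_pow_right (by norm_num) (by omega)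
  have hx1 : 2 ^ (x - 1) = 2 * z := by
    rw [hz, ← pow_succ']; congr 1; omega
  have hx0 : 2 ^ x = 4 * z := by
    rw [hz, show (4 : ℕ) = 2 ^ 2 by norm_num, ← pow_add]; congr 1; omega
  rw [hx1] at hB2 ⊢
  rw [hx0] at hB1 ⊢
  set μ := 3 * z * B / (A * N) with hμ
  have hμ1 : μ * (A * N) ≤ 3 * z * B := Nat.div_mul_le_self _ _
  have hμ2 : 3 * z * B < (μ + 1) * (A * N) := by
    have := Nat.lt_div_mul_add (a := 3 * z * B) hAN0
    rw [← hμ] at this
    linarith [this, add_mul μ 1 (A * N)]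
  have hμ0 : 0 < μ := by
    rw [hμ]
    refine Nat.div_pos ?_ hAN0
    nlinarith
  set X := A * (μ * N * W) with hX
  set q0 := X / B with hq0
  set r0 := X % B with hr0
  have hXeq : B * q0 + r0 = X := Nat.div_add_mod X B
  have hr0lt : r0 < B := Nat.mod_lt _ hB0
  have hq0up : q0 ≤ 3 * z * W := by
    have h1 : B * q0 ≤ X := by omega
    have h2 : X ≤ B * (3 * z * W) := by
      calc X = μ * (A * N) * W := by rw [hX]; ring
        _ ≤ 3 * z * B * W := Nat.mul_le_mul_right _ hμ1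
        _ = B * (3 * z * W) := by ring
    exact Nat.le_of_mul_le_mul_left (h1.trans h2) hB0
  have hq0lo : (3 * z - 1) * W ≤ q0 := by
    rw [hq0, Nat.le_div_iff_mul_le hB0]
    have h1 : 3 * z * B ≤ μ * (A * N) + B := by
      have : 3 * z * B < μ * (A * N) + A * N := by linarith [hμ2, add_mul μ 1 (A * N)]
      omega
    have h2 : (3 * z - 1) * B ≤ μ * (A * N) := by
      rw [Nat.sub_mul, one_mul]; omega
    calc (3 * z - 1) * W * B = (3 * z - 1) * B * W := by ring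
      _ ≤ μ * (A * N) * W := Nat.mul_le_mul_right _ h2
      _ = X := by rw [hX]; ring
  set V := 2 * z * W with hV
  set t := (V + B - 1 - r0) / B with ht
  have ht1 : B * t ≤ V + B - 1 - r0 := by
    rw [mul_comm]; exact Nat.div_mul_le_self _ _
  have ht2 : V + B - 1 - r0 < B * t + B := by
    have := Nat.lt_div_mul_add (a := V + B - 1 - r0) hB0
    rw [← ht] at this
    linarith [mul_comm B t]
  have htW : t ≤ W := by
    have h1 : B * t < B * (W + 1) := by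
      have h3 : 2 * V ≤ B * W := by
        calc 2 * V = 4 * z * W := by rw [hV]; ring
          _ ≤ B * W := Nat.mul_le_mul_right _ hB1
      have h4 : B * 2 ≤ B * W := Nat.mul_le_mul_left _ hW
      have h5 : B * (W + 1) = B * W + B := by ring
      omega
    have := Nat.lt_of_mul_lt_mul_left h1
    omega
  have hq0t : V + t ≤ q0 := by
    have h1 : V + W ≤ (3 * z - 1) * W := by
      have : 2 * z + 1 ≤ 3 * z - 1 := by omega
      calc V + W = (2 * z + 1) * W := by rw [hV]; ring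
        _ ≤ (3 * z - 1) * W := Nat.mul_le_mul_right _ this
    omega
  refine ⟨μ, q0 - t, r0 + B * t, hμ0, ?_, ?_, ?_, ?_, ?_⟩
  · have h1 : B * (q0 - t) = B * q0 - B * t := Nat.mul_sub _ _ _
    have h2 : B * t ≤ B * q0 := Nat.mul_le_mul_left _ (by omega)
    rw [h1]
    omega
  · omega
  · have h1 : 3 * z * W < 4 * z * W := by
      have : 0 < z * W := by positivity
      nlinarith
    exact lt_of_le_of_lt ((Nat.sub_le _ _).trans hq0up) h1
  · omega
  · have h1 : 4 * z * W = 2 * V := by rw [hV]; ring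
    rw [h1]
    omega

lemma sq_le_two_pow (n : ℕ) (hn : 4 ≤ n) : n * n ≤ 2 ^ n := by
  induction n, hn using Nat.le_induction with
  | base => norm_num
  | succ n hn ih =>
    rw [pow_succ]
    nlinarith

lemma growth (CK : ℕ) : ∃ x1 : ℕ, ∀ x ≥ x1,
    4 * (CK * Nat.log 2 x) * 2 ^ (x / 10) ≤ 2 ^ (x / 3) := by
  refine ⟨5 * (36 * CK + 4), fun x hx => ?_⟩
  set n := x / 5 with hn
  have hn1 : 36 * CK + 4 ≤ n := by omega
  have hxn : x ≤ 9 * n := by omega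
  have hlog : Nat.log 2 x ≤ x := Nat.log_le_self 2 x
  have h1 : 4 * (CK * Nat.log 2 x) ≤ n * n := by
    calc 4 * (CK * Nat.log 2 x) ≤ 4 * (CK * (9 * n)) :=
          Nat.mul_le_mul_left _ (Nat.mul_le_mul_left _ (hlog.trans hxn))
      _ = (36 * CK) * n := by ring
      _ ≤ n * n := Nat.mul_le_mul_right _ (by omega)
  calc 4 * (CK * Nat.log 2 x) * 2 ^ (x / 10) ≤ 2 ^ n * 2 ^ (x / 10) :=
        Nat.mul_le_mul_right _ (h1.trans (sq_le_two_pow n (by omega)))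
    _ = 2 ^ (n + x / 10) := by rw [pow_add]
    _ ≤ 2 ^ (x / 3) := Nat.pow_le_pow_right (by norm_num) (by omega)

lemma loglog_bound (b : ℕ) (hb : 32 ≤ b) :
    (Nat.log 2 (Nat.log 2 b + 2) : ℝ) ≤ 3 * Real.log (Real.log (b : ℝ)) ∧
      1 ≤ Real.log (Real.log (b : ℝ)) := by
  have hl2 : (0.6931471803 : ℝ) < Real.log 2 := Real.log_two_gt_d9
  have hb0 : (0 : ℝ) < b := by exact_mod_cast (by omega : 0 < b)
  set ℓ := Real.log (b : ℝ) with hℓ
  have h3 : 3 ≤ ℓ := by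
    have h1 : Real.log ((2 : ℝ) ^ 5) ≤ ℓ := by
      apply Real.log_le_log (by positivity)
      have : ((32 : ℕ) : ℝ) ≤ b := by exact_mod_cast hb
      norm_num at this ⊢
      exact this
    rw [Real.log_pow] at h1
    push_cast at h1
    linarith
  have hpowlog : ∀ m : ℕ, m ≠ 0 → ∀ z : ℝ, (m : ℝ) ≤ z →
      (Nat.log 2 m : ℝ) * Real.log 2 ≤ Real.log z := by
    intro m hm z hz
    have h1 : 2 ^ Nat.log 2 m ≤ m := Nat.pow_log_le_self 2 hm
    have h2 : ((2 : ℝ) ^ Nat.log 2 m) ≤ z := by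
      refine le_trans ?_ hz
      exact_mod_cast h1
    have h3 := Real.log_le_log (by positivity) h2
    rwa [Real.log_pow] at h3
  have hU : ((Nat.log 2 b + 2 : ℕ) : ℝ) ≤ ℓ ^ 2 := by
    have h1 := hpowlog b (by omega) (b : ℝ) le_rfl
    push_cast
    have h4 : (Nat.log 2 b : ℝ) ≤ 1.5 * ℓ := by
      have h5 : (0 : ℝ) ≤ (Nat.log 2 b : ℝ) := Nat.cast_nonneg _
      nlinarith
    nlinarith
  have hlogl : 1 ≤ Real.log ℓ := by
    rw [Real.le_log_iff_exp_le (by linarith)]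
    have := Real.exp_one_lt_d9
    linarith
  refine ⟨?_, hlogl⟩
  have h6 := hpowlog (Nat.log 2 b + 2) (by omega) (ℓ ^ 2) hU
  rw [Real.log_pow] at h6
  push_cast at h6
  have h5 : (0 : ℝ) ≤ (Nat.log 2 (Nat.log 2 b + 2) : ℝ) := Nat.cast_nonneg _
  nlinarith

/-- the exact core of the assembly: `A / B` is a sum of few distinct large unit fractions -/
lemma assemble (hdigits : DigitsStmt) (A B N D0 x h y K Jm : ℕ) (𝓜 : Finset ℕ)
    (hA : 0 < A) (hN : 0 < N) (hD0 : 0 < D0) (hyx : y + h + 2 = x) (hy : 3 ≤ y)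
    (hM1 : ∀ m ∈ 𝓜, Odd m ∧ 1 < m) (hM2 : ∑ m ∈ 𝓜, (1 : ℝ) / (m : ℝ) ≤ 1 / 8)
    (hM3 : 8 * 𝓜.card ≤ 2 ^ h)
    (hc : ∀ c : ℕ, 1 ≤ c → c ≤ 2 ^ x → (∀ m ∈ 𝓜, ¬ m ∣ c) →
      ∃ 𝒟 : Finset ℕ, 𝒟.Nonempty ∧ 𝒟.card ≤ K ∧
        (∀ d ∈ 𝒟, d ∣ N ∧ D0 ≤ d ∧ d ≤ D0 * 2 ^ (x / 10)) ∧ c ∣ ∑ d ∈ 𝒟, d)
    (hG1 : 4 * K * 2 ^ (x / 10) ≤ 2 ^ y) (hG2 : 4 * K * 2 ^ (x / 10) ≤ 2 ^ (h + 1))
    (hAN : A * N ≤ B) (hB1 : 2 ^ x ≤ B) (hB2 : B ≤ 2 ^ (x - 1) * 2 ^ (y * (Jm - 1)))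
    (hJm : 2 ≤ Jm) :
    ∃ T : Finset ℕ, T.card ≤ 2 * Jm * K ∧ (∀ n ∈ T, 0 < n ∧ B ≤ A * n) ∧
      ∑ n ∈ T, (1 : ℚ) / (n : ℚ) = (A : ℚ) / (B : ℚ) := by
  classical
  have hex : ∃ J, 2 ≤ J ∧ B ≤ 2 ^ (x - 1) * 2 ^ (y * (J - 1)) := ⟨Jm, hJm, hB2⟩
  obtain ⟨J, hJ2, hJB, hJJm, hJlow⟩ : ∃ J, 2 ≤ J ∧ B ≤ 2 ^ (x - 1) * 2 ^ (y * (J - 1)) ∧
      J ≤ Jm ∧ 2 ^ (y * (J - 1)) * 2 ^ (h + 1) ≤ B := by
    refine ⟨Nat.find hex, (Nat.find_spec hex).1, (Nat.find_spec hex).2,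
      Nat.find_min' hex ⟨hJm, hB2⟩, ?_⟩
    have hspec := Nat.find_spec hex
    rcases Nat.lt_or_ge 2 (Nat.find hex) with h2 | h2
    · have hmin := Nat.find_min hex (m := Nat.find hex - 1) (by omega)
      push Not at hmin
      have h3 := hmin (by omega)
      have h4 : 2 ^ (y * (Nat.find hex - 1)) * 2 ^ (h + 1) =
          2 ^ (x - 1) * 2 ^ (y * (Nat.find hex - 1 - 1)) := by
        rw [← pow_add, ← pow_add]
        congr 1
        obtain ⟨j, hj⟩ : ∃ j, Nat.find hex = j + 2 := ⟨Nat.find hex - 2, by omega⟩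
        rw [hj]
        have e1 : j + 2 - 1 = j + 1 := by omega
        rw [e1]
        have e2 : j + 1 - 1 = j := by omega
        rw [e2, Nat.mul_add]
        omega
      rw [h4]; exact h3.le
    · have h5 : Nat.find hex = 2 := by omega
      rw [h5]
      calc 2 ^ (y * (2 - 1)) * 2 ^ (h + 1) = 2 ^ (y + h + 1) := by
            rw [← pow_add]; congr 1; omega
        _ ≤ 2 ^ x := Nat.pow_le_pow_right (by norm_num) (by omega)
        _ ≤ B := hB1
  set W := 2 ^ (y * (J - 1)) with hW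
  have hW2 : 2 ≤ W := by
    calc 2 = 2 ^ 1 := by norm_num
      _ ≤ 2 ^ (y * (J - 1)) := Nat.pow_le_pow_right (by norm_num) (by
        have : 1 ≤ J - 1 := by omega
        nlinarith)
  obtain ⟨μ, q, r, hμ, hqr, hq1, hq2, hr1, hr2⟩ :=
    windows A B N x W hA hN (by omega) hW2 hAN hB1 hJB
  obtain ⟨cq, hcq1, hcq2⟩ := hdigits x y h J q 𝓜 hyx hy hJ2 hM1 hM2 hM3 hq1 hq2
  obtain ⟨cr, hcr1, hcr2⟩ := hdigits x y h J r 𝓜 hyx hy hJ2 hM1 hM2 hM3 hr1 hr2
  have hB0 : 0 < B := lt_of_lt_of_le (by positivity) hB1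
  -- digits and scales
  set δ : Bool × Fin J → ℕ := fun p => if p.1 then cr p.2 else cq p.2 with hδ
  set β : Bool × Fin J → ℕ := fun p => (if p.1 then B else 1) * (μ * 2 ^ (y * (J - 1 - p.2)))
    with hβ
  have hβ0 : ∀ p, 0 < β p := by
    intro p; rw [hβ]; dsimp only; split_ifs <;> positivity
  have hδ1 : ∀ p, 2 ^ (x - 2) ≤ δ p ∧ δ p < 2 ^ x ∧ ∀ m ∈ 𝓜, ¬ m ∣ δ p := by
    intro p; rw [hδ]; dsimp only
    split_ifs
    · exact hcr1 p.2 p.2.2
    · exact hcq1 p.2 p.2.2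
  have hpiece : ∀ p, ∃ T : Finset ℕ, T.card ≤ K ∧
      ∑ n ∈ T, (1 : ℚ) / (n : ℚ) = (δ p : ℚ) / ((N : ℚ) * β p) ∧
      ∀ n ∈ T, 0 < n ∧ N * β p < n * 2 ^ x ∧ n * 2 ^ x ≤ 4 * K * 2 ^ (x / 10) * (N * β p) := by
    intro p
    obtain ⟨h1, h2, h3⟩ := hδ1 p
    obtain ⟨𝒟, hne, hcard, hd, hdiv⟩ := hc (δ p) (le_trans Nat.one_le_two_pow h1) h2.le h3
    exact piece N (β p) (δ p) x K D0 𝒟 hN (hβ0 p) (by omega) hD0 hne hcard hd hdiv h1 h2
  choose T hT1 hT2 hT3 using hpiece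
  -- scales are far apart
  set G := 4 * K * 2 ^ (x / 10) with hG
  have hsame : ∀ (c : ℕ) (i j : Fin J), i < j →
      (c * (μ * 2 ^ (y * (J - 1 - j)))) * G ≤ c * (μ * 2 ^ (y * (J - 1 - i))) := by
    intro c i j hij
    have hij' : (i : ℕ) < (j : ℕ) := hij
    have hjJ : (j : ℕ) < J := j.2
    have e1 : 2 ^ (y * (J - 1 - j)) * G ≤ 2 ^ (y * (J - 1 - i)) := by
      calc 2 ^ (y * (J - 1 - j)) * G ≤ 2 ^ (y * (J - 1 - j)) * 2 ^ y := Nat.mul_le_mul_left _ hG1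
        _ = 2 ^ (y * (J - 1 - j) + y) := by rw [pow_add]
        _ ≤ 2 ^ (y * (J - 1 - i)) := by
            refine Nat.pow_le_pow_right (by norm_num) ?_
            calc y * (J - 1 - j) + y = y * (J - 1 - j + 1) := by ring
              _ ≤ y * (J - 1 - i) := Nat.mul_le_mul_left _ (by omega)
    calc (c * (μ * 2 ^ (y * (J - 1 - j)))) * G = c * (μ * (2 ^ (y * (J - 1 - j)) * G)) := by ring
      _ ≤ c * (μ * 2 ^ (y * (J - 1 - i))) :=
          Nat.mul_le_mul_left _ (Nat.mul_le_mul_left _ e1)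
  have hcross : ∀ i j : Fin J, β (false, i) * G ≤ β (true, j) := by
    intro i j
    rw [hβ]
    simp only [Bool.false_eq_true, if_false, if_true, one_mul]
    have e1 : 2 ^ (y * (J - 1 - i)) ≤ W := by
      rw [hW]
      exact Nat.pow_le_pow_right (by norm_num) (Nat.mul_le_mul_left _ (by omega))
    calc μ * 2 ^ (y * (J - 1 - i)) * G ≤ μ * W * 2 ^ (h + 1) :=
          Nat.mul_le_mul (Nat.mul_le_mul_left _ e1) hG2
      _ = μ * (W * 2 ^ (h + 1)) := by ring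
      _ ≤ μ * B := Nat.mul_le_mul_left _ hJlow
      _ = B * (μ * 1) := by ring
      _ ≤ B * (μ * 2 ^ (y * (J - 1 - j))) :=
          Nat.mul_le_mul_left _ (Nat.mul_le_mul_left _ Nat.one_le_two_pow)
  have hfar : ∀ p p', p ≠ p' → β p * G ≤ β p' ∨ β p' * G ≤ β p := by
    rintro ⟨ε, i⟩ ⟨ε', j⟩ hne
    cases ε <;> cases ε'
    · have hij : i ≠ j := fun h => hne (by rw [h])
      rcases lt_or_gt_of_ne hij with h | h
      · right; exact hsame 1 i j h
      · left; exact hsame 1 j i h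
    · left; exact hcross i j
    · right; exact hcross j i
    · have hij : i ≠ j := fun h => hne (by rw [h])
      rcases lt_or_gt_of_ne hij with h | h
      · right; exact hsame B i j h
      · left; exact hsame B j i h
  have hfar2 : ∀ p p', β p * G ≤ β p' → Disjoint (T p) (T p') := by
    intro p p' hpp
    rw [Finset.disjoint_left]
    intro n hn hn'
    have h1 := (hT3 p n hn).2.2
    have h2 := (hT3 p' n hn').2.1
    have h3 : G * (N * β p) ≤ N * β p' := by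
      calc G * (N * β p) = N * (β p * G) := by ring
        _ ≤ N * β p' := Nat.mul_le_mul_left _ hpp
    omega
  have hdisj : (↑(univ : Finset (Bool × Fin J)) : Set (Bool × Fin J)).PairwiseDisjoint T := by
    intro p _ p' _ hne
    rcases hfar p p' hne with h | h
    · exact hfar2 p p' h
    · exact (hfar2 p' p h).symm
  have hNq : (N : ℚ) ≠ 0 := by exact_mod_cast hN.ne'
  have hBq : (B : ℚ) ≠ 0 := by exact_mod_cast hB0.ne'
  have hμq : (μ : ℚ) ≠ 0 := by exact_mod_cast hμ.ne'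
  have hWq : (W : ℚ) ≠ 0 := by exact_mod_cast (by omega : W ≠ 0)
  have hsumval : ∑ p, (δ p : ℚ) / ((N : ℚ) * β p) = (A : ℚ) / (B : ℚ) := by
    rw [Fintype.sum_prod_type, Fintype.sum_bool]
    have hterm : ∀ (c : ℕ → ℕ) (j : Fin J) (b : ℕ), (b : ℚ) ≠ 0 →
        (c j : ℚ) / ((N : ℚ) * ((b * (μ * 2 ^ (y * (J - 1 - j))) : ℕ) : ℚ)) =
          ((c j * 2 ^ (y * (j : ℕ)) : ℕ) : ℚ) / ((b : ℚ) * ((μ : ℚ) * N * W)) := by
      intro c j b hb
      have hjJ : (j : ℕ) < J := j.2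
      have e1 : (W : ℚ) = 2 ^ (y * (J - 1 - j)) * 2 ^ (y * (j : ℕ)) := by
        rw [hW, ← pow_add]
        push_cast
        congr 1
        rw [← Nat.mul_add]
        congr 1
        omega
      rw [e1]
      push_cast
      have e2 : (2 : ℚ) ^ (y * (J - 1 - j)) ≠ 0 := by positivity
      have e3 : (2 : ℚ) ^ (y * (j : ℕ)) ≠ 0 := by positivity
      field_simp
    have ht : ∑ j : Fin J, (δ (true, j) : ℚ) / ((N : ℚ) * β (true, j)) =
        (r : ℚ) / ((B : ℚ) * ((μ : ℚ) * N * W)) := by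
      rw [hcr2, ← Fin.sum_univ_eq_sum_range (fun j => cr j * 2 ^ (y * j)) J, Nat.cast_sum,
        Finset.sum_div]
      refine Finset.sum_congr rfl fun j _ => ?_
      exact hterm cr j B hBq
    have hf : ∑ j : Fin J, (δ (false, j) : ℚ) / ((N : ℚ) * β (false, j)) =
        (q : ℚ) / (((1 : ℕ) : ℚ) * ((μ : ℚ) * N * W)) := by
      rw [hcq2, ← Fin.sum_univ_eq_sum_range (fun j => cq j * 2 ^ (y * j)) J, Nat.cast_sum,
        Finset.sum_div]
      refine Finset.sum_congr rfl fun j _ => ?_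
      exact hterm cq j 1 (by norm_num)
    rw [ht, hf]
    have hqrQ : (A : ℚ) * ((μ : ℚ) * N * W) = B * q + r := by exact_mod_cast hqr
    rw [Nat.cast_one, one_mul, div_add_div _ _ (by positivity) (by positivity), div_eq_div_iff
      (by positivity) (by positivity)]
    linear_combination (-(B : ℚ) * ((μ : ℚ) * N * W)) * hqrQ
  have hle : ∀ p, ∀ n ∈ T p, B ≤ A * n := by
    intro p n hn
    have hn0 := (hT3 p n hn).1
    have h1 : (1 : ℚ) / n ≤ ∑ n ∈ T p, (1 : ℚ) / (n : ℚ) :=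
      Finset.single_le_sum (f := fun n : ℕ => (1 : ℚ) / (n : ℚ)) (fun _ _ => by positivity) hn
    have h2 : (δ p : ℚ) / ((N : ℚ) * β p) ≤ ∑ p, (δ p : ℚ) / ((N : ℚ) * β p) :=
      Finset.single_le_sum (f := fun p => (δ p : ℚ) / ((N : ℚ) * β p)) (fun _ _ => by positivity)
        (Finset.mem_univ p)
    rw [hT2 p] at h1
    rw [hsumval] at h2
    have h3 := h1.trans h2
    rw [div_le_div_iff₀ (by exact_mod_cast hn0) (by exact_mod_cast hB0)] at h3
    have h4 : ((1 * B : ℕ) : ℚ) ≤ ((A * n : ℕ) : ℚ) := by push_cast; exact h3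
    have h5 : 1 * B ≤ A * n := by exact_mod_cast h4
    omega
  refine ⟨univ.biUnion T, ?_, ?_, ?_⟩
  · calc (univ.biUnion T).card ≤ ∑ p : Bool × Fin J, (T p).card := Finset.card_biUnion_le
      _ ≤ ∑ _p : Bool × Fin J, K := Finset.sum_le_sum fun p _ => hT1 p
      _ = 2 * J * K := by simp
      _ ≤ 2 * Jm * K := Nat.mul_le_mul_right _ (Nat.mul_le_mul_left _ hJJm)
  · intro n hn
    rw [Finset.mem_biUnion] at hn
    obtain ⟨p, _, hp⟩ := hn
    exact ⟨(hT3 p n hp).1, hle p n hp⟩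
  · rw [Finset.sum_biUnion hdisj, ← hsumval]
    exact Finset.sum_congr rfl fun p _ => hT2 p

/-- Module (FIN). -/
theorem fin : FinStmt := by
  classical
  intro hcore hgreedy hdigits
  obtain ⟨ρ, CK, x0, hcore⟩ := hcore
  obtain ⟨x1, hx1⟩ := growth CK
  set R := ρ + 1 with hR
  set Jm := 6 * R + 2 with hJm
  set X := max (max x0 x1) (max 12 (6 * R)) with hX
  refine ⟨3 * (1 + 2 * Jm * CK) + 4, max 32 (2 ^ (R * X)), ?_⟩
  intro a b hb ha hab
  have hb32 : 32 ≤ b := le_trans (le_max_left _ _) hb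
  have hbX : 2 ^ (R * X) ≤ b := le_trans (le_max_right _ _) hb
  obtain ⟨hll1, hll2⟩ := loglog_bound b hb32
  set U := Nat.log 2 b + 2 with hU
  have hU1 : 2 * b ≤ 2 ^ U := by
    have h1 := Nat.lt_pow_succ_log_self (b := 2) (by norm_num) b
    rw [hU, show Nat.log 2 b + 2 = Nat.log 2 b + 1 + 1 by ring, pow_succ 2 (Nat.log 2 b + 1)]
    have h2 : b < 2 ^ (Nat.log 2 b + 1) := h1
    omega
  have hRX : R * X ≤ Nat.log 2 b := by
    have := Nat.log_mono_right (b := 2) hbX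
    rwa [Nat.log_pow (by norm_num)] at this
  obtain ⟨S, A, B, hS1, hS2, hB0, hAb, hB3, hAU, hAS, hsum⟩ := hgreedy a b U ha hab hU1
  set x := U / R with hx
  have hR0 : 0 < R := by omega
  have hxX : X ≤ x := by
    rw [hx, Nat.le_div_iff_mul_le hR0, mul_comm]
    omega
  have hx0 : x0 ≤ x := le_trans (le_trans (le_max_left _ _) (le_max_left _ _)) hxX
  have hx1' : x1 ≤ x := le_trans (le_trans (le_max_right _ _) (le_max_left _ _)) hxX
  have hx12 : 12 ≤ x := le_trans (le_trans (le_max_left _ _) (le_max_right _ _)) hxX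
  have hx6 : 6 * R ≤ x := le_trans (le_trans (le_max_right _ _) (le_max_right _ _)) hxX
  have hxU : R * x ≤ U := Nat.mul_div_le U R
  have hUx : U < R * (x + 1) := by
    have := Nat.lt_div_mul_add (a := U) hR0
    rw [← hx] at this
    linarith [Nat.mul_comm x R, Nat.mul_add R x 1]
  have hlogxU : Nat.log 2 x ≤ Nat.log 2 U := Nat.log_mono_right (by
    calc x = 1 * x := (one_mul x).symm
      _ ≤ R * x := Nat.mul_le_mul_right _ hR0
      _ ≤ U := hxU)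
  obtain ⟨N, D0, 𝓜, hN0, hN1, hD0, hM1, hM2, hM3, hc⟩ := hcore x hx0
  rcases Nat.eq_zero_or_pos A with hA0 | hA0
  · refine ⟨S, hS1, ?_, ?_⟩
    · have h1 : (S.card : ℝ) ≤ (Nat.log 2 U : ℝ) + 4 := by exact_mod_cast hS2
      have h2 : (0 : ℝ) ≤ 2 * (Jm : ℝ) * CK := by positivity
      nlinarith [hll1, hll2, mul_nonneg h2 (by linarith : (0:ℝ) ≤ Real.log (Real.log (b:ℝ)))]
    · rw [hA0] at hsum
      simpa using hsum
  set K := CK * Nat.log 2 x with hK
  have hpowU : 2 ^ U ≤ B := by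
    calc 2 ^ U = 1 * 2 ^ U := (one_mul _).symm
      _ ≤ A * 2 ^ U := Nat.mul_le_mul_right _ hA0
      _ ≤ B := hAU
  have hAN : A * N ≤ B := by
    calc A * N ≤ A * 2 ^ (ρ * x) := Nat.mul_le_mul_left _ hN1
      _ ≤ A * 2 ^ U := Nat.mul_le_mul_left _ (Nat.pow_le_pow_right (by norm_num) (by
          have : ρ * x ≤ R * x := Nat.mul_le_mul_right _ (by omega)
          omega))
      _ ≤ B := hAU
  have hB1 : 2 ^ x ≤ B := by
    refine le_trans (Nat.pow_le_pow_right (by norm_num) ?_) hpowU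
    calc x = 1 * x := (one_mul x).symm
      _ ≤ R * x := Nat.mul_le_mul_right _ hR0
      _ ≤ U := hxU
  set h := x / 3 with hh
  set y := x - h - 2 with hy
  have hgr := hx1 x hx1'
  obtain ⟨T, hT1, hT2, hT3⟩ := assemble hdigits A B N D0 x h y K Jm 𝓜 hA0 hN0 hD0 (by omega)
    (by omega) hM1 hM2 hM3 hc
    (hgr.trans (Nat.pow_le_pow_right (by norm_num) (by omega)))
    (hgr.trans (Nat.pow_le_pow_right (by norm_num) (by omega))) hAN hB1
    (by
      refine hB3.trans ?_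
      rw [← pow_add]
      refine Nat.pow_le_pow_right (by norm_num) ?_
      have h1 : 3 * U ≤ 3 * (R * (x + 1)) := by omega
      have h2 : x ≤ 2 * y := by omega
      have h3 : Jm - 1 = 6 * R + 1 := by omega
      rw [h3]
      have h4 : 3 * (R * (x + 1)) = 3 * (R * x) + 3 * R := by ring
      have h5 : y * (6 * R + 1) = 3 * (R * (2 * y)) + y := by ring
      have h6 : R * x ≤ R * (2 * y) := Nat.mul_le_mul_left _ h2
      omega) (by omega)
  have hST : Disjoint S T := by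
    rw [Finset.disjoint_left]
    intro n hn hn'
    have h1 := hAS n hn
    have h2 := (hT2 n hn').2
    omega
  refine ⟨S ∪ T, ?_, ?_, ?_⟩
  · intro n hn
    rcases Finset.mem_union.1 hn with h | h
    · exact hS1 n h
    · have h1 := (hT2 n h).2
      have h2 : A * 2 ^ U ≤ A * n := hAU.trans h1
      have h3 : 2 ^ U ≤ n := Nat.le_of_mul_le_mul_left h2 hA0
      have h4 : 2 ≤ 2 ^ U := by
        calc 2 = 2 ^ 1 := by norm_num
          _ ≤ 2 ^ U := Nat.pow_le_pow_right (by norm_num) (by omega)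
      omega
  · have h1 : (S ∪ T).card ≤ (Nat.log 2 U + 4) + 2 * Jm * K := by
      refine (Finset.card_union_le _ _).trans ?_
      omega
    have h2 : (S ∪ T).card ≤ (Nat.log 2 U + 4) + 2 * Jm * (CK * Nat.log 2 U) := by
      refine h1.trans ?_
      have : 2 * Jm * K ≤ 2 * Jm * (CK * Nat.log 2 U) :=
        Nat.mul_le_mul_left _ (Nat.mul_le_mul_left _ hlogxU)
      omega
    have h3 : ((S ∪ T).card : ℝ) ≤ ((Nat.log 2 U : ℝ) + 4) +
        2 * Jm * (CK * (Nat.log 2 U : ℝ)) := by exact_mod_cast h2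
    have h4 : (0 : ℝ) ≤ 1 + 2 * (Jm : ℝ) * CK := by positivity
    have h5 := mul_le_mul_of_nonneg_left hll1 h4
    nlinarith [h3, h5, hll2]
  · rw [Finset.sum_union hST, hT3]
    exact hsum

end Crest.Agent.EG
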