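import Crest.Agent.EGDefs

/-!
# Row 19 (S0025): the greedy expansion (GREEDY)
-/

set_option autoImplicit false

namespace Crest.Agent.EG
namespace Greedy

open Finset

/-- stopped state -/
def Stopped (a b U j : ℕ) : Prop :=
  ∃ (S : Finset ℕ) (A P : ℕ), (∀ n ∈ S, 2 ≤ n) ∧ S.card ≤ j ∧ 0 < P ∧ A < b ∧
    P ≤ 2 ^ (2 * U) ∧ A * 2 ^ U ≤ b * P ∧ (∀ n ∈ S, A * n < b * P) ∧
    ∑ n ∈ S, (1 : ℚ) / (n : ℚ) + (A : ℚ) / ((b : ℚ) * P) = (a : ℚ) / (b : ℚ)

/-- running state -/
def Running (a b U j : ℕ) : Prop :=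
  ∃ (S : Finset ℕ) (A P : ℕ), (∀ n ∈ S, 2 ≤ n ∧ n ≤ P) ∧ S.card = j ∧ 0 < P ∧ A < b ∧
    b * P < A * 2 ^ U ∧ (∀ n ∈ S, A * n < b * P) ∧ (j = 0 ∨ 2 ^ (2 ^ j) ≤ P ^ 2) ∧
    ∑ n ∈ S, (1 : ℚ) / (n : ℚ) + (A : ℚ) / ((b : ℚ) * P) = (a : ℚ) / (b : ℚ)

lemma step {a b U j : ℕ} (h : Running a b U j) : Stopped a b U (j + 1) ∨ Running a b U (j + 1) := by
  obtain ⟨S, A, P, hS, hcard, hP, hAb, hrun, hSP, hgrow, hsum⟩ := h
  have hb : 0 < b := by omega
  have hA : 0 < A := by
    rcases Nat.eq_zero_or_pos A with h | h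
    · subst h; simp at hrun
    · exact h
  set n := (b * P + A - 1) / A with hn
  have hbP : 0 < b * P := Nat.mul_pos hb hP
  have h1 : b * P ≤ A * n := by
    have := Nat.lt_div_mul_add (a := b * P + A - 1) (b := A) hA
    rw [← hn, mul_comm n A] at this
    omega
  have h2 : A * n < b * P + A := by
    have := Nat.div_mul_le_self (b * P + A - 1) A
    rw [← hn, mul_comm n A] at this
    omega
  have hPn : P < n := by
    by_contra hc
    have hc' : n ≤ P := not_lt.mp hc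
    have h3 : A * n ≤ A * P := Nat.mul_le_mul_left _ hc'
    have h4 : A * P < b * P := Nat.mul_lt_mul_of_pos_right hAb hP
    omega
  have hnU : n ≤ 2 ^ U := by
    by_contra hc
    have hc' : 2 ^ U + 1 ≤ n := not_le.mp hc
    have h3 : A * (2 ^ U + 1) ≤ A * n := Nat.mul_le_mul_left _ hc'
    rw [mul_add, mul_one] at h3
    omega
  have hn2 : 2 ≤ n := by omega
  have hnS : n ∉ S := fun hm => by have := (hS n hm).2; omega
  have hPU : P * n ≤ 2 ^ (2 * U) := by
    rw [two_mul, pow_add]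
    exact Nat.mul_le_mul (by omega) hnU
  set A' := A * n - b * P with hA'
  have hA'b : A' < b := by omega
  have hbb : b ≤ b * P := Nat.le_mul_of_pos_right _ hP
  have hSP' : ∀ m ∈ insert n S, A' * m < b * (P * n) := by
    intro m hm
    have hmn : m ≤ n := by
      rcases mem_insert.mp hm with h | h
      · exact h.le
      · have := (hS m h).2; omega
    calc A' * m ≤ A' * n := Nat.mul_le_mul_left _ hmn
      _ < (b * P) * n := Nat.mul_lt_mul_of_pos_right (by omega) (by omega)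
      _ = b * (P * n) := by ring
  have hS2 : ∀ m ∈ insert n S, 2 ≤ m ∧ m ≤ P * n := by
    intro m hm
    rcases mem_insert.mp hm with h | h
    · subst h
      exact ⟨hn2, Nat.le_mul_of_pos_left _ hP⟩
    · have := hS m h
      exact ⟨this.1, this.2.trans (Nat.le_mul_of_pos_right _ (by omega))⟩
  have hsum' : ∑ m ∈ insert n S, (1 : ℚ) / (m : ℚ) + (A' : ℚ) / ((b : ℚ) * ((P * n : ℕ) : ℚ)) =
      (a : ℚ) / (b : ℚ) := by
    rw [sum_insert hnS, ← hsum, hA', Nat.cast_sub h1]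
    have hb0 : (b : ℚ) ≠ 0 := by exact_mod_cast hb.ne'
    have hP0 : (P : ℚ) ≠ 0 := by exact_mod_cast hP.ne'
    have hn0 : (n : ℚ) ≠ 0 := by
      have : n ≠ 0 := by omega
      exact_mod_cast this
    push_cast
    field_simp
    ring
  have hcard' : (insert n S).card = j + 1 := by rw [card_insert_of_notMem hnS, hcard]
  by_cases hst : A' * 2 ^ U ≤ b * (P * n)
  · left
    exact ⟨insert n S, A', P * n, fun m hm => (hS2 m hm).1, hcard'.le, by positivity, hA'b, hPU,
      hst, hSP', hsum'⟩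
  · right
    refine ⟨insert n S, A', P * n, hS2, hcard', by positivity, hA'b, not_le.mp hst, hSP',
      Or.inr ?_, hsum'⟩
    rcases hgrow with h0 | hg
    · subst h0
      have : 2 ≤ P * n := by nlinarith
      calc 2 ^ (2 ^ (0 + 1)) = 2 ^ 2 := by norm_num
        _ ≤ (P * n) ^ 2 := Nat.pow_le_pow_left this 2
    · have h3 : P ^ 2 ≤ P * n := by rw [sq]; exact Nat.mul_le_mul_left _ hPn.le
      calc 2 ^ (2 ^ (j + 1)) = (2 ^ (2 ^ j)) ^ 2 := by rw [← pow_mul, pow_succ]
        _ ≤ (P ^ 2) ^ 2 := Nat.pow_le_pow_left hg 2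
        _ ≤ (P * n) ^ 2 := Nat.pow_le_pow_left h3 2

lemma stopped_mono {a b U j k : ℕ} (h : Stopped a b U j) (hjk : j ≤ k) : Stopped a b U k := by
  obtain ⟨S, A, P, h1, h2, h3⟩ := h
  exact ⟨S, A, P, h1, h2.trans hjk, h3⟩

lemma all {a b U : ℕ} (ha : 1 ≤ a) (hab : a < b) (j : ℕ) :
    Stopped a b U j ∨ Running a b U j := by
  induction j with
  | zero =>
    by_cases h : a * 2 ^ U ≤ b * 1
    · left
      exact ⟨∅, a, 1, by simp, by simp, by norm_num, hab, Nat.one_le_two_pow, h, by simp, by simp⟩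
    · right
      exact ⟨∅, a, 1, by simp, by simp, by norm_num, hab, not_le.mp h, by simp, Or.inl rfl, by simp⟩
  | succ j ih =>
    rcases ih with h | h
    · exact Or.inl (stopped_mono h (by omega))
    · exact step h

end Greedy

open Greedy in
theorem greedy : GreedyStmt := by
  intro a b U ha hab hU
  have hU0 : U ≠ 0 := by
    rintro rfl
    simp at hU
    omega
  rcases all (U := U) ha hab (Nat.log 2 U + 2) with h | h
  · obtain ⟨S, A, P, h1, h2, h3, h4, h5, h6, h7, h8⟩ := h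
    refine ⟨S, A, b * P, h1, by omega, Nat.mul_pos (by omega) h3, h4, ?_, h6, h7, ?_⟩
    · calc b * P ≤ 2 ^ U * 2 ^ (2 * U) := Nat.mul_le_mul (by omega) h5
        _ = 2 ^ (3 * U) := by rw [← pow_add]; congr 1; ring
    · push_cast
      exact h8
  · exfalso
    obtain ⟨S, A, P, h1, h2, h3, h4, h5, h6, h7, h8⟩ := h
    have hPU : P < 2 ^ U := by
      by_contra hc
      have hc' : 2 ^ U ≤ P := not_lt.mp hc
      have h9 : A * 2 ^ U ≤ b * P := Nat.mul_le_mul h4.le hc'
      omega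
    rcases h7 with h7 | h7
    · omega
    · have h9 : P ^ 2 < (2 ^ U) ^ 2 := Nat.pow_lt_pow_left hPU (by norm_num)
      rw [← pow_mul] at h9
      have h10 : 2 ^ (Nat.log 2 U + 2) < U * 2 := (Nat.pow_lt_pow_iff_right (by norm_num)).mp (lt_of_le_of_lt h7 h9)
      have h11 := Nat.lt_pow_succ_log_self (b := 2) (by norm_num) U
      rw [pow_succ] at h10 h11
      rw [pow_succ] at h10
      omega

end Crest.Agent.EG
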