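import Crest.Agent.EGDefs

/-!
# Row 19, module LS: the additive large sieve over the Farey fractions

Discrete version of Gallagher's argument on a fine common grid `l / Q`.
-/

set_option autoImplicit false

namespace Crest.Agent.EG

open Finset

namespace LSP

theorem e_eq (x : ℝ) : e x = Complex.exp (Complex.I * ((2 * Real.pi * x : ℝ) : ℂ)) := by
  unfold e
  congr 1
  push_cast
  ring

theorem norm_e (x : ℝ) : ‖e x‖ = 1 := by
  rw [e_eq]
  have := Complex.norm_exp_ofReal_mul_I (2 * Real.pi * x)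
  rwa [mul_comm] at this

theorem e_add (x y : ℝ) : e (x + y) = e x * e y := by
  unfold e
  rw [← Complex.exp_add]
  congr 1
  push_cast
  ring

theorem e_zero : e 0 = 1 := by
  unfold e
  simp

theorem e_neg (x : ℝ) : e (-x) = (starRingEnd ℂ) (e x) := by
  rw [e_eq, e_eq, ← Complex.exp_conj]
  congr 1
  rw [map_mul, Complex.conj_I, Complex.conj_ofReal]
  push_cast
  ring

theorem e_int (n : ℤ) : e (n : ℝ) = 1 := by
  unfold e
  rw [Complex.exp_eq_one_iff]
  refine ⟨n, ?_⟩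
  push_cast
  ring

theorem e_nat (n : ℕ) : e (n : ℝ) = 1 := by
  have := e_int (n : ℤ)
  simpa using this

theorem e_pow (x : ℝ) (n : ℕ) : e (n * x) = e x ^ n := by
  unfold e
  rw [← Complex.exp_nat_mul]
  congr 1
  push_cast
  ring

theorem norm_e_sub_one (x : ℝ) (hx : 0 ≤ x) : ‖e x - 1‖ ≤ 2 * Real.pi * x := by
  rw [e_eq]
  refine Real.norm_exp_I_mul_ofReal_sub_one_le.trans ?_
  rw [Real.norm_eq_abs, abs_of_nonneg]
  have := Real.pi_pos
  positivity

theorem e_eq_one (x : ℝ) (h : e x = 1) : ∃ n : ℤ, x = n := by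
  unfold e at h
  rw [Complex.exp_eq_one_iff] at h
  obtain ⟨n, hn⟩ := h
  refine ⟨n, ?_⟩
  have h2 : (2 * Real.pi * Complex.I : ℂ) ≠ 0 := Complex.two_pi_I_ne_zero
  have h3 : (2 * Real.pi * Complex.I : ℂ) * x = (2 * Real.pi * Complex.I : ℂ) * n := by
    linear_combination hn
  have h4 := mul_left_cancel₀ h2 h3
  exact_mod_cast h4

/-- orthogonality -/
theorem orth (Q m m' : ℕ) (hm : m < Q) (hm' : m' < Q) :
    ∑ l ∈ range Q, e ((m : ℝ) * ((l : ℝ) / Q)) * (starRingEnd ℂ) (e ((m' : ℝ) * ((l : ℝ) / Q))) =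
      if m = m' then (Q : ℂ) else 0 := by
  have hQ : (Q : ℝ) ≠ 0 := by
    have : 0 < Q := by omega
    positivity
  have h1 : ∀ l ∈ range Q,
      e ((m : ℝ) * ((l : ℝ) / Q)) * (starRingEnd ℂ) (e ((m' : ℝ) * ((l : ℝ) / Q))) =
        e (((m : ℝ) - m') / Q) ^ l := by
    intro l _
    rw [← e_neg, ← e_add, ← e_pow]
    congr 1
    ring
  rw [sum_congr rfl h1]
  by_cases h : m = m'
  · rw [if_pos h, h, sub_self, zero_div, e_zero]
    simp
  · rw [if_neg h]
    have hne : e (((m : ℝ) - m') / Q) ≠ 1 := by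
      intro hc
      obtain ⟨n, hn⟩ := e_eq_one _ hc
      rw [div_eq_iff hQ] at hn
      have h2 : (m : ℤ) - m' = n * Q := by exact_mod_cast hn
      have h3 : n = 0 := by
        by_contra hn0
        rcases lt_or_gt_of_ne hn0 with h4 | h4
        · have : n * (Q : ℤ) ≤ -1 * Q := by
            apply mul_le_mul_of_nonneg_right <;> omega
          omega
        · have : 1 * (Q : ℤ) ≤ n * Q := by
            apply mul_le_mul_of_nonneg_right <;> omega
          omega
      rw [h3] at h2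
      omega
    rw [geom_sum_eq hne, ← e_pow]
    have : (Q : ℝ) * (((m : ℝ) - m') / Q) = (((m : ℤ) - (m' : ℤ) : ℤ) : ℝ) := by
      push_cast
      field_simp
    rw [this, e_int]
    simp

variable {V : Type} [Fintype V] (n : V → ℕ)

/-- number of coincidences -/
def Ec : ℕ := (univ.filter (fun vw : V × V => n vw.1 = n vw.2)).card

/-- Parseval (inequality). -/
theorem parseval (Q D : ℕ) (hD : D < Q) (hn : ∀ v, n v ≤ D) (γ : ℕ → ℂ) (B : ℝ)
    (hγ : ∀ m ≤ D, ‖γ m‖ ≤ B) :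
    ∑ l ∈ range Q, ‖∑ v, γ (n v) * e ((n v : ℝ) * ((l : ℝ) / Q))‖ ^ 2 ≤ Q * B ^ 2 * Ec n := by
  have hB : 0 ≤ B := (norm_nonneg _).trans (hγ 0 (Nat.zero_le _))
  have key : ∑ l ∈ range Q, ‖∑ v, γ (n v) * e ((n v : ℝ) * ((l : ℝ) / Q))‖ ^ 2 =
      ∑ v, ∑ w, if n v = n w then (Q : ℝ) * ‖γ (n v)‖ ^ 2 else 0 := by
    have : ((∑ l ∈ range Q, ‖∑ v, γ (n v) * e ((n v : ℝ) * ((l : ℝ) / Q))‖ ^ 2 : ℝ) : ℂ) =
        ((∑ v, ∑ w, if n v = n w then (Q : ℝ) * ‖γ (n v)‖ ^ 2 else 0 : ℝ) : ℂ) := by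
      push_cast
      have h1 : ∀ l ∈ range Q, ((‖∑ v, γ (n v) * e ((n v : ℝ) * ((l : ℝ) / Q))‖ : ℂ)) ^ 2 =
          ∑ v, ∑ w, (γ (n v) * (starRingEnd ℂ) (γ (n w))) *
            (e ((n v : ℝ) * ((l : ℝ) / Q)) *
              (starRingEnd ℂ) (e ((n w : ℝ) * ((l : ℝ) / Q)))) := by
        intro l _
        rw [← Complex.mul_conj', map_sum, sum_mul_sum]
        refine sum_congr rfl fun v _ => sum_congr rfl fun w _ => ?_
        rw [map_mul]
        ring
      rw [sum_congr rfl h1, sum_comm]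
      refine sum_congr rfl fun v _ => ?_
      rw [sum_comm]
      refine sum_congr rfl fun w _ => ?_
      rw [← mul_sum, orth Q (n v) (n w) (lt_of_le_of_lt (hn v) hD) (lt_of_le_of_lt (hn w) hD)]
      split_ifs with h
      · rw [← h, Complex.mul_conj']
        push_cast
        ring
      · simp
    exact_mod_cast this
  rw [key]
  have h2 : ∀ v w, (if n v = n w then (Q : ℝ) * ‖γ (n v)‖ ^ 2 else 0) ≤
      Q * B ^ 2 * (if n v = n w then 1 else 0) := by
    intro v w
    split_ifs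
    · rw [mul_one]
      have := hγ (n v) (hn v)
      gcongr
    · simp
  refine (sum_le_sum fun v _ => sum_le_sum fun w _ => h2 v w).trans ?_
  simp only [← mul_sum]
  refine mul_le_mul_of_nonneg_left ?_ (by positivity)
  rw [Ec, card_filter, ← univ_product_univ, sum_product]
  push_cast
  exact le_rfl

/-- one point against its window -/
theorem window (g : ℕ → ℝ) (x w : ℕ) :
    w * g x ≤ ∑ i ∈ range w, g (x + i) + w * ∑ i ∈ range w, |g (x + i + 1) - g (x + i)| := by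
  have h1 : ∀ i, g x ≤ g (x + i) + ∑ j ∈ range i, |g (x + j + 1) - g (x + j)| := by
    intro i
    induction i with
    | zero => simp
    | succ i ih =>
      rw [sum_range_succ, ← add_assoc x i 1]
      have := neg_abs_le (g (x + i + 1) - g (x + i))
      linarith
  have h2 : ∀ i ∈ range w, g x ≤ g (x + i) + ∑ j ∈ range w, |g (x + j + 1) - g (x + j)| := by
    intro i hi
    refine (h1 i).trans ?_
    have : ∑ j ∈ range i, |g (x + j + 1) - g (x + j)| ≤
        ∑ j ∈ range w, |g (x + j + 1) - g (x + j)| :=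
      sum_le_sum_of_subset_of_nonneg (range_subset_range.mpr (mem_range.mp hi).le)
        fun _ _ _ => abs_nonneg _
    linarith
  have h3 := sum_le_sum h2
  rw [sum_const, card_range, nsmul_eq_mul, sum_add_distrib, sum_const, card_range,
    nsmul_eq_mul] at h3
  exact h3

end LSP

open Crest.Agent.EG.LSP

theorem ls : LSStmt := by
  intro V _ n D Z hZ hn
  classical
  set w : ℕ := (D + 1) * Z.factorial with hw
  set Q : ℕ := Z ^ 2 * w with hQ
  have hwpos : 0 < w := by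
    rw [hw]
    have := Nat.factorial_pos Z
    positivity
  have hQpos : 0 < Q := by positivity
  have hDQ : D < Q := by
    rw [hQ, hw]
    have h1 := Nat.factorial_pos Z
    have h2 : 1 ≤ Z ^ 2 * Z.factorial := Nat.one_le_iff_ne_zero.mpr (by positivity)
    calc D < (D + 1) * 1 := by omega
      _ ≤ (D + 1) * (Z ^ 2 * Z.factorial) := Nat.mul_le_mul_left _ h2
      _ = _ := by ring
  have hQR : (0 : ℝ) < Q := by exact_mod_cast hQpos
  have hwR : (0 : ℝ) < w := by exact_mod_cast hwpos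
  -- the grid values
  set S : ℕ → ℂ := fun l => ∑ v, e ((n v : ℝ) * ((l : ℝ) / Q)) with hS
  set g : ℕ → ℝ := fun l => ‖S l‖ ^ 2 with hg
  set E : ℝ := (Ec n : ℝ) with hE
  have hE0 : 0 ≤ E := by positivity
  -- Parseval
  have hP1 : ∑ l ∈ range Q, ‖S l‖ ^ 2 ≤ Q * E := by
    have := parseval n Q D hDQ hn (fun _ => 1) 1 (by simp)
    simpa [hS] using this
  have hP2 : ∑ l ∈ range Q, ‖S (l + 1)‖ ^ 2 ≤ Q * E := by
    have := parseval n Q D hDQ hn (fun m => e ((m : ℝ) / Q)) 1 (fun m _ => (norm_e _).le)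
    have h2 : ∀ l, S (l + 1) = ∑ v, e ((n v : ℝ) / Q) * e ((n v : ℝ) * ((l : ℝ) / Q)) := by
      intro l
      rw [hS]
      simp only
      refine sum_congr rfl fun v _ => ?_
      rw [← e_add]
      congr 1
      push_cast
      ring
    simp only [h2]
    simpa using this
  have hP3 : ∑ l ∈ range Q, ‖S (l + 1) - S l‖ ^ 2 ≤ Q * (2 * Real.pi * (D / Q)) ^ 2 * E := by
    have := parseval n Q D hDQ hn (fun m => e ((m : ℝ) / Q) - 1) (2 * Real.pi * (D / Q))
      (fun m hm => (norm_e_sub_one _ (by positivity)).trans (by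
        have := Real.pi_pos
        gcongr))
    have h2 : ∀ l, S (l + 1) - S l =
        ∑ v, (e ((n v : ℝ) / Q) - 1) * e ((n v : ℝ) * ((l : ℝ) / Q)) := by
      intro l
      rw [hS]
      simp only
      rw [← sum_sub_distrib]
      refine sum_congr rfl fun v _ => ?_
      rw [sub_mul, one_mul, ← e_add]
      congr 2
      push_cast
      ring
    simp only [h2]
    exact this
  -- total variation
  have hTV : ∑ l ∈ range Q, |g (l + 1) - g l| ≤ 4 * Real.pi * D * E := by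
    have h1 : ∀ l ∈ range Q, |g (l + 1) - g l| ≤ (‖S (l + 1)‖ + ‖S l‖) * ‖S (l + 1) - S l‖ := by
      intro l _
      rw [hg]
      simp only
      have h2 : ‖S (l + 1)‖ ^ 2 - ‖S l‖ ^ 2 =
          (‖S (l + 1)‖ + ‖S l‖) * (‖S (l + 1)‖ - ‖S l‖) := by ring
      rw [h2, abs_mul, abs_of_nonneg (by positivity)]
      exact mul_le_mul_of_nonneg_left (abs_norm_sub_norm_le _ _) (by positivity)
    refine (sum_le_sum h1).trans ?_
    have h3 := sum_mul_sq_le_sq_mul_sq (range Q) (fun l => ‖S (l + 1)‖ + ‖S l‖)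
      (fun l => ‖S (l + 1) - S l‖)
    have h4 : ∑ l ∈ range Q, (‖S (l + 1)‖ + ‖S l‖) ^ 2 ≤ 4 * (Q * E) := by
      calc ∑ l ∈ range Q, (‖S (l + 1)‖ + ‖S l‖) ^ 2
          ≤ ∑ l ∈ range Q, (2 * ‖S (l + 1)‖ ^ 2 + 2 * ‖S l‖ ^ 2) := by
            refine sum_le_sum fun l _ => ?_
            nlinarith [sq_nonneg (‖S (l + 1)‖ - ‖S l‖)]
        _ = 2 * ∑ l ∈ range Q, ‖S (l + 1)‖ ^ 2 + 2 * ∑ l ∈ range Q, ‖S l‖ ^ 2 := by
            rw [sum_add_distrib, mul_sum, mul_sum]
        _ ≤ _ := by linarith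
    have h5 : (∑ l ∈ range Q, (‖S (l + 1)‖ + ‖S l‖) * ‖S (l + 1) - S l‖) ^ 2 ≤
        (4 * Real.pi * D * E) ^ 2 := by
      refine h3.trans ?_
      calc _ ≤ (4 * (Q * E)) * (Q * (2 * Real.pi * (D / Q)) ^ 2 * E) := by
            gcongr
        _ = _ := by
            field_simp
            ring
    have hpi := Real.pi_pos
    exact le_of_sq_le_sq h5 (by positivity)
  -- the points
  set R : Finset (Σ _ : ℕ, ℕ) :=
    (Icc 1 Z).sigma (fun c => (range c).filter (fun h => Nat.Coprime h c)) with hR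
  have hRmem : ∀ r ∈ R, 1 ≤ r.1 ∧ r.1 ≤ Z ∧ r.2 < r.1 ∧ Nat.Coprime r.2 r.1 := by
    intro r hr
    rw [hR, mem_sigma, mem_Icc, mem_filter, mem_range] at hr
    exact ⟨hr.1.1, hr.1.2, hr.2.1, hr.2.2⟩
  set x : (Σ _ : ℕ, ℕ) → ℕ := fun r => r.2 * (Z ^ 2 * (w / r.1)) with hx
  have hxQ : ∀ r ∈ R, x r * r.1 = r.2 * Q := by
    intro r hr
    obtain ⟨h1, h2, -, -⟩ := hRmem r hr
    have hd : r.1 ∣ w := (Nat.dvd_factorial h1 h2).trans (Dvd.intro_left _ rfl)
    rw [hx, hQ]
    simp only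
    obtain ⟨k, hk⟩ := hd
    rw [hk, Nat.mul_div_cancel_left _ (by omega)]
    ring
  have hxr : ∀ r ∈ R, (x r : ℝ) / Q = (r.2 : ℝ) / r.1 := by
    intro r hr
    have h1 : (0 : ℝ) < r.1 := by exact_mod_cast (hRmem r hr).1
    rw [div_eq_div_iff hQR.ne' h1.ne']
    exact_mod_cast hxQ r hr
  -- spacing
  have hspace : ∀ r ∈ R, ∀ s ∈ R, r.2 * s.1 < s.2 * r.1 → x r + w ≤ x s := by
    intro r hr s hs hlt
    obtain ⟨h1, h2, h3, h4⟩ := hRmem r hr
    obtain ⟨k1, k2, k3, k4⟩ := hRmem s hs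
    have e1 := hxQ r hr
    have e2 := hxQ s hs
    have h5 : (x r + w) * (r.1 * s.1) ≤ x s * (r.1 * s.1) := by
      have a1 : (x r + w) * (r.1 * s.1) = (r.2 * s.1) * Q + w * (r.1 * s.1) := by
        calc (x r + w) * (r.1 * s.1) = (x r * r.1) * s.1 + w * (r.1 * s.1) := by ring
          _ = _ := by rw [e1]; ring
      have a2 : x s * (r.1 * s.1) = (s.2 * r.1) * Q := by
        calc x s * (r.1 * s.1) = (x s * s.1) * r.1 := by ring
          _ = _ := by rw [e2]; ring
      have a3 : w * (r.1 * s.1) ≤ Q := by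
        rw [hQ, mul_comm (Z ^ 2), pow_two]
        exact Nat.mul_le_mul_left _ (Nat.mul_le_mul h2 k2)
      have a4 : (r.2 * s.1 + 1) * Q ≤ (s.2 * r.1) * Q := Nat.mul_le_mul_right _ hlt
      rw [a1, a2]
      calc _ ≤ (r.2 * s.1) * Q + Q := by omega
        _ = (r.2 * s.1 + 1) * Q := by ring
        _ ≤ _ := a4
    exact Nat.le_of_mul_le_mul_right h5 (Nat.mul_pos (by omega) (by omega))
  have hend : ∀ r ∈ R, x r + w ≤ Q := by
    intro r hr
    obtain ⟨h1, h2, h3, h4⟩ := hRmem r hr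
    have e1 := hxQ r hr
    have h5 : (x r + w) * r.1 ≤ Q * r.1 := by
      have a3 : w * r.1 ≤ Q := by
        rw [hQ, mul_comm (Z ^ 2), pow_two]
        exact Nat.mul_le_mul_left _ (h2.trans (Nat.le_mul_of_pos_right _ (by omega)))
      have a4 : (r.2 + 1) * Q ≤ r.1 * Q := Nat.mul_le_mul_right _ h3
      calc (x r + w) * r.1 = x r * r.1 + w * r.1 := by ring
        _ = r.2 * Q + w * r.1 := by rw [e1]
        _ ≤ r.2 * Q + Q := by omega
        _ = (r.2 + 1) * Q := by ring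
        _ ≤ r.1 * Q := a4
        _ = _ := mul_comm _ _
    exact Nat.le_of_mul_le_mul_right h5 (by omega)
  have hcross : ∀ r ∈ R, ∀ s ∈ R, r.2 * s.1 = s.2 * r.1 → r = s := by
    intro r hr s hs heq
    obtain ⟨h1, h2, h3, h4⟩ := hRmem r hr
    obtain ⟨k1, k2, k3, k4⟩ := hRmem s hs
    have d1 : r.1 ∣ s.1 := h4.symm.dvd_of_dvd_mul_left (heq ▸ Dvd.intro_left _ rfl)
    have d2 : s.1 ∣ r.1 := k4.symm.dvd_of_dvd_mul_left (heq ▸ Dvd.intro_left _ rfl)
    have hc : r.1 = s.1 := Nat.dvd_antisymm d1 d2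
    have hh : r.2 = s.2 := by
      rw [hc] at heq
      exact Nat.eq_of_mul_eq_mul_right (by omega) heq
    exact Sigma.ext hc (heq_of_eq hh)
  -- sums over windows
  have hwin : ∀ φ : ℕ → ℝ, (∀ l, 0 ≤ φ l) →
      ∑ r ∈ R, ∑ i ∈ range w, φ (x r + i) ≤ ∑ l ∈ range Q, φ l := by
    intro φ hφ
    rw [← sum_product']
    have hinj : Set.InjOn (fun p : (Σ _ : ℕ, ℕ) × ℕ => x p.1 + p.2) (R ×ˢ range w : Finset _) := by
      rintro ⟨r, i⟩ hri ⟨s, j⟩ hsj heq
      rw [mem_coe, mem_product, mem_range] at hri hsj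
      simp only at heq hri hsj
      have hrs : r = s := by
        rcases lt_trichotomy (r.2 * s.1) (s.2 * r.1) with h | h | h
        · have := hspace r hri.1 s hsj.1 h
          omega
        · exact hcross r hri.1 s hsj.1 h
        · have := hspace s hsj.1 r hri.1 h
          omega
      subst hrs
      have : i = j := by omega
      rw [this]
    rw [← sum_image (f := φ) hinj]
    refine sum_le_sum_of_subset_of_nonneg ?_ fun _ _ _ => hφ _
    intro l hl
    rw [mem_image] at hl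
    obtain ⟨⟨r, i⟩, hri, rfl⟩ := hl
    rw [mem_product, mem_range] at hri
    rw [mem_range]
    have := hend r hri.1
    have := hri.2
    simp only at *
    omega
  -- conclusion
  have hmain : w * ∑ r ∈ R, g (x r) ≤ Q * E + w * (4 * Real.pi * D * E) := by
    calc w * ∑ r ∈ R, g (x r) = ∑ r ∈ R, w * g (x r) := by rw [mul_sum]
      _ ≤ ∑ r ∈ R, (∑ i ∈ range w, g (x r + i) +
            w * ∑ i ∈ range w, |g (x r + i + 1) - g (x r + i)|) :=
          sum_le_sum fun r _ => window g (x r) w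
      _ = ∑ r ∈ R, ∑ i ∈ range w, g (x r + i) +
            w * ∑ r ∈ R, ∑ i ∈ range w, |g (x r + i + 1) - g (x r + i)| := by
          rw [sum_add_distrib, mul_sum]
      _ ≤ Q * E + w * (4 * Real.pi * D * E) := by
          have a1 := hwin g (fun l => by rw [hg]; positivity)
          have a2 := hwin (fun l => |g (l + 1) - g l|) (fun l => abs_nonneg _)
          have a3 : ∑ l ∈ range Q, g l ≤ Q * E := hP1
          have a4 := a2.trans hTV
          have := mul_le_mul_of_nonneg_left a4 hwR.le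
          linarith
  have hfin : ∑ r ∈ R, g (x r) ≤ (Z : ℝ) ^ 2 * E + 4 * Real.pi * D * E := by
    have h1 : (Q : ℝ) * E = w * ((Z : ℝ) ^ 2 * E) := by
      rw [hQ]
      push_cast
      ring
    rw [h1, ← mul_add] at hmain
    exact le_of_mul_le_mul_left hmain hwR
  have hlhs : ∑ c ∈ Icc 1 Z, ∑ h ∈ (range c).filter (fun h => Nat.Coprime h c),
        ‖∑ v, e ((n v : ℝ) * ((h : ℝ) / (c : ℝ)))‖ ^ 2 = ∑ r ∈ R, g (x r) := by
    rw [hR, sum_sigma']
    refine sum_congr rfl fun r hr => ?_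
    rw [hg, hS]
    simp only
    rw [hxr r hr]
  rw [hlhs]
  refine hfin.trans ?_
  have hpi : Real.pi < 4 := Real.pi_lt_four
  have hEE : ((univ.filter (fun vw : V × V => n vw.1 = n vw.2)).card : ℝ) = E := rfl
  rw [hEE, ← add_mul]
  refine mul_le_mul_of_nonneg_right ?_ hE0
  have hD0 : (0 : ℝ) ≤ D := by positivity
  have hZ0 : (0 : ℝ) ≤ (Z : ℝ) ^ 2 := by positivity
  nlinarith [mul_le_mul_of_nonneg_right hpi.le hD0]

end Crest.Agent.EG
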