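import Crest.Agent.EGLS

/-!
# Row 19, module SC: small conductors
-/

set_option autoImplicit false

namespace Crest.Agent.EG

open Finset

namespace SCP

open Crest.Agent.EG.LSP

/-- lower bound for `‖e x - 1‖` -/
theorem norm_e_sub_one_ge (x δ : ℝ) (hδ : 0 ≤ δ) (h1 : δ ≤ x) (h2 : δ ≤ 1 - x) :
    4 * δ ≤ ‖e x - 1‖ := by
  have hpi := Real.pi_pos
  rw [e_eq, Complex.norm_exp_I_mul_ofReal_sub_one]
  have e1 : 2 * Real.pi * x / 2 = Real.pi * x := by ring
  rw [e1, norm_mul, Real.norm_eq_abs, Real.norm_eq_abs, abs_of_pos (by norm_num : (0 : ℝ) < 2)]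
  have key : ∀ y : ℝ, δ ≤ y → y ≤ 1 / 2 → 2 * δ ≤ Real.sin (Real.pi * y) := by
    intro y hy1 hy2
    have := Real.mul_le_sin (x := Real.pi * y) (by nlinarith) (by nlinarith)
    have e2 : 2 / Real.pi * (Real.pi * y) = 2 * y := by
      field_simp
    rw [e2] at this
    linarith
  have h3 : 2 * δ ≤ Real.sin (Real.pi * x) := by
    rcases le_total x (1 / 2) with h | h
    · exact key x h1 h
    · have := key (1 - x) h2 (by linarith)
      rwa [mul_sub, mul_one, Real.sin_pi_sub] at this
  have h4 := le_abs_self (Real.sin (Real.pi * x))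
  linarith

/-- geometric sum -/
theorem geom (s : ℕ) (x δ : ℝ) (hδ : 0 < δ) (h1 : δ ≤ x) (h2 : δ ≤ 1 - x) :
    ‖∑ m ∈ range s, e (((m + 1 : ℕ) : ℝ) * x)‖ ≤ 1 / (2 * δ) := by
  have hge := norm_e_sub_one_ge x δ hδ.le h1 h2
  have hne : e x ≠ 1 := by
    intro h
    rw [h, sub_self, norm_zero] at hge
    linarith
  have h3 : ∑ m ∈ range s, e (((m + 1 : ℕ) : ℝ) * x) = e x * ((e x ^ s - 1) / (e x - 1)) := by
    rw [← geom_sum_eq hne, mul_sum]
    refine sum_congr rfl fun m _ => ?_
    rw [e_pow, pow_succ']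
  rw [h3, norm_mul, norm_e, one_mul, norm_div]
  have h4 : ‖e x ^ s - 1‖ ≤ 2 := by
    calc ‖e x ^ s - 1‖ ≤ ‖e x ^ s‖ + ‖(1 : ℂ)‖ := norm_sub_le _ _
      _ = 2 := by
        rw [norm_pow, norm_e]
        norm_num
  calc ‖e x ^ s - 1‖ / ‖e x - 1‖ ≤ 2 / (4 * δ) := by
        gcongr
    _ = 1 / (2 * δ) := by
        field_simp
        norm_num

/-- `e (m * (n h / c))` only depends on `n h mod c` -/
theorem e_mod (m n h c : ℕ) (hc : 0 < c) :
    e (((m * n : ℕ) : ℝ) * ((h : ℝ) / c)) = e ((m : ℝ) * (((n * h % c : ℕ) : ℝ) / c)) := by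
  have hcR : (c : ℝ) ≠ 0 := by positivity
  have h1 : ((m * n : ℕ) : ℝ) * ((h : ℝ) / c) =
      (m : ℝ) * (((n * h % c : ℕ) : ℝ) / c) + ((m * (n * h / c) : ℕ) : ℝ) := by
    have h2 : ((n * h : ℕ) : ℝ) = ((n * h % c : ℕ) : ℝ) + (c : ℝ) * ((n * h / c : ℕ) : ℝ) := by
      exact_mod_cast (Nat.mod_add_div (n * h) c).symm
    push_cast at h2 ⊢
    have h3 : (m : ℝ) * n * (h / c) = m * (n * h) / c := by ring
    rw [h3, h2]
    field_simp
  rw [h1, e_add, e_nat, mul_one]

/-- the number of ordered factorisations into `t` primes is at most `t!`. -/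
theorem tuples (t n : ℕ) (Pr : Finset ℕ) (hPr : ∀ p ∈ Pr, p.Prime) :
    #{a : Fin t → {x // x ∈ Pr} | ∏ i, (a i).val = n} ≤ t.factorial := by
  classical
  rcases Finset.eq_empty_or_nonempty
    (univ.filter (fun a : Fin t → {x // x ∈ Pr} => ∏ i, (a i).val = n)) with h | ⟨a0, ha0⟩
  · rw [h]
    simp
  have hl : ∀ a : Fin t → {x // x ∈ Pr}, ∏ i, (a i).val = n →
      (List.ofFn fun i => (a i).val).Perm n.primeFactorsList := by
    intro a ha
    refine Nat.primeFactorsList_unique ?_ ?_
    · rw [List.prod_ofFn, ha]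
    · intro p hp
      rw [List.mem_ofFn'] at hp
      obtain ⟨i, rfl⟩ := hp
      exact hPr _ (a i).2
  have hlen : n.primeFactorsList.length = t := by
    have := (hl a0 (mem_filter.mp ha0).2).length_eq
    rw [List.length_ofFn] at this
    exact this.symm
  calc #{a : Fin t → {x // x ∈ Pr} | ∏ i, (a i).val = n}
      ≤ (n.primeFactorsList.permutations.toFinset).card := by
        refine card_le_card_of_injOn (fun a => List.ofFn fun i => (a i).val) ?_ ?_
        · intro a ha
          rw [mem_coe, mem_filter] at ha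
          rw [mem_coe, List.mem_toFinset, List.mem_permutations]
          exact hl a ha.2
        · intro a _ b _ hab
          have h2 := List.ofFn_injective hab
          funext i
          exact Subtype.ext (congrFun h2 i)
    _ ≤ n.primeFactorsList.permutations.length := List.toFinset_card_le _
    _ = t.factorial := by rw [List.length_permutations, hlen]

/-- integers up to `N` with a prescribed residue -/
theorem resid (N c h r : ℕ) (hc : 0 < c) (hcop : Nat.Coprime h c) :
    #{n ∈ Icc 1 N | n * h % c = r} ≤ N / c + 1 := by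
  calc #{n ∈ Icc 1 N | n * h % c = r} ≤ (range (N / c + 1)).card := by
        refine card_le_card_of_injOn (fun n => (n - 1) / c) ?_ ?_
        · intro n hn
          rw [mem_coe, mem_filter, mem_Icc] at hn
          rw [mem_coe, mem_range]
          exact Nat.lt_succ_iff.mpr (Nat.div_le_div_right (by omega))
        · intro n hn n' hn' heq
          rw [mem_coe, mem_filter, mem_Icc] at hn hn'
          simp only at heq
          have h1 : n * h ≡ n' * h [MOD c] := hn.2.trans hn'.2.symm
          have h2 : n ≡ n' [MOD c] := Nat.ModEq.cancel_right_of_coprime hcop.symm h1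
          have h3 : n - 1 ≡ n' - 1 [MOD c] := by
            have : (n - 1) + 1 ≡ (n' - 1) + 1 [MOD c] := by
              rw [Nat.sub_add_cancel hn.1.1, Nat.sub_add_cancel hn'.1.1]
              exact h2
            exact Nat.ModEq.add_right_cancel' 1 this
          have h4 : n - 1 = n' - 1 := by
            rw [← Nat.div_add_mod (n - 1) c, ← Nat.div_add_mod (n' - 1) c, heq, h3]
          omega
    _ = _ := card_range _

end SCP

open Crest.Agent.EG.SCP Crest.Agent.EG.LSP

theorem sc : SCStmt := by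
  intro s t c h Pr hs ht hne hPr hsc hcst hcop
  classical
  have hc : 0 < c := by omega
  have hsR : (1 : ℝ) ≤ s := by exact_mod_cast hs
  have hcR : (0 : ℝ) < c := by exact_mod_cast hc
  set q : ℝ := Real.sqrt s with hq
  have hq1 : 1 ≤ q := by
    rw [hq]
    exact Real.one_le_sqrt.mpr hsR
  have hq0 : 0 < q := by linarith
  have hqq : q * q = s := Real.mul_self_sqrt (by positivity)
  have hqc : q ≤ c := by
    have h1 : (s : ℝ) < c := by exact_mod_cast hsc
    nlinarith
  set N := s ^ t with hN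
  set k : ℕ := Pr.card with hk
  have hkpos : 0 < k := card_pos.mpr hne
  have hkR : (0 : ℝ) < k := by exact_mod_cast hkpos
  -- bad residues
  set BR : Finset ℕ := (range c).filter
    (fun r => (r : ℝ) * q < c ∨ ((c : ℝ) - r) * q < c) with hBR
  have hBRcard : (BR.card : ℝ) ≤ 3 * (c / q) := by
    set A : ℕ := ⌈(c : ℝ) / q⌉₊ with hA
    have hA1 : (A : ℝ) < c / q + 1 := Nat.ceil_lt_add_one (by positivity)
    have hA0 : 1 ≤ A := by
      rw [hA, Nat.one_le_ceil_iff]
      positivity
    have hsub : BR ⊆ range A ∪ (Icc 1 (A - 1)).image (fun r => c - r) := by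
      intro r hr
      rw [hBR, mem_filter, mem_range] at hr
      rw [mem_union, mem_range, mem_image]
      rcases hr.2 with h1 | h1
      · left
        rw [hA, Nat.lt_ceil, lt_div_iff₀ hq0]
        exact h1
      · right
        refine ⟨c - r, ?_, by omega⟩
        rw [mem_Icc]
        have h2 : c - r < A := by
          rw [hA, Nat.lt_ceil, lt_div_iff₀ hq0, Nat.cast_sub hr.1.le]
          exact h1
        omega
    have h1 : BR.card ≤ A + (A - 1) := by
      refine (card_le_card hsub).trans ((card_union_le _ _).trans ?_)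
      refine add_le_add (card_range _).le ((card_image_le).trans ?_)
      rw [Nat.card_Icc]
      omega
    have h2 : (BR.card : ℝ) ≤ 2 * A - 1 := by
      have : BR.card + 1 ≤ 2 * A := by omega
      have h3 : (BR.card : ℝ) + 1 ≤ 2 * A := by exact_mod_cast this
      linarith
    have h3 : 1 ≤ (c : ℝ) / q := by
      rw [le_div_iff₀ hq0]
      linarith
    linarith
  -- bad integers
  set BN : Finset ℕ := (Icc 1 N).filter (fun n => n * h % c ∈ BR) with hBN
  have hBNcard : (BN.card : ℝ) ≤ 6 * (N : ℝ) / q := by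
    have h1 : BN.card ≤ (N / c + 1) * BR.card := by
      refine card_le_mul_card_image_of_maps_to (f := fun n => n * h % c)
        (fun n hn => (mem_filter.mp hn).2) _ (fun r _ => ?_)
      refine (card_le_card ?_).trans (resid N c h r hc hcop)
      intro n hn
      rw [mem_filter] at hn ⊢
      exact ⟨(mem_filter.mp hn.1).1, hn.2⟩
    have h2 : ((N / c + 1 : ℕ) : ℝ) ≤ 2 * (N / c) := by
      push_cast
      have h3 : ((N / c : ℕ) : ℝ) ≤ (N : ℝ) / c := Nat.cast_div_le
      have h4 : 1 ≤ (N : ℝ) / c := by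
        rw [le_div_iff₀ hcR, one_mul]
        exact_mod_cast hcst
      linarith
    have h5 : (BN.card : ℝ) ≤ ((N / c + 1 : ℕ) : ℝ) * BR.card := by exact_mod_cast h1
    calc (BN.card : ℝ) ≤ ((N / c + 1 : ℕ) : ℝ) * BR.card := h5
      _ ≤ (2 * (N / c)) * (3 * (c / q)) := by
          gcongr
      _ = 6 * (N : ℝ) / q := by
          field_simp
          ring
  -- the product
  set π : (Fin t → {x // x ∈ Pr}) → ℕ := fun a => ∏ i, (a i).val with hπ
  have hπmem : ∀ a, π a ∈ Icc 1 N := by
    intro a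
    rw [mem_Icc]
    constructor
    · exact Nat.one_le_iff_ne_zero.mpr
        (prod_ne_zero_iff.mpr fun i _ => (hPr _ (a i).2).1.ne_zero)
    · calc π a ≤ ∏ _i : Fin t, s := prod_le_prod' fun i _ => (hPr _ (a i).2).2
        _ = N := by simp [hN]
  -- inner sums
  set I : (Fin t → {x // x ∈ Pr}) → ℂ := fun a =>
    ∑ m : Fin s, e (((((m.val + 1) * π a : ℕ)) : ℝ) * ((h : ℝ) / c)) with hI
  have hI1 : ∀ a, ‖I a‖ ≤ s := by
    intro a
    rw [hI]
    refine (norm_sum_le _ _).trans ?_
    simp [norm_e]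
  have hI2 : ∀ a, π a ∉ BN → ‖I a‖ ≤ q := by
    intro a ha
    have h1 : π a * h % c ∉ BR := by
      intro hb
      exact ha (mem_filter.mpr ⟨hπmem a, hb⟩)
    set r := π a * h % c with hr
    have hrc : r < c := Nat.mod_lt _ hc
    rw [hBR, mem_filter, mem_range, not_and, not_or, not_lt, not_lt] at h1
    obtain ⟨h2, h3⟩ := h1 hrc
    have h4 : I a = ∑ m ∈ range s, e (((m + 1 : ℕ) : ℝ) * ((r : ℝ) / c)) := by
      rw [hI]
      simp only
      rw [← Fin.sum_univ_eq_sum_range (fun m => e (((m + 1 : ℕ) : ℝ) * ((r : ℝ) / c)))]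
      refine sum_congr rfl fun m _ => ?_
      rw [e_mod (m.val + 1) (π a) h c hc]
    rw [h4]
    refine (geom s ((r : ℝ) / c) (1 / q) (by positivity) ?_ ?_).trans ?_
    · rw [div_le_div_iff₀ hq0 hcR]
      linarith
    · rw [one_sub_div hcR.ne', div_le_div_iff₀ hq0 hcR]
      linarith
    · have : 1 / (2 * (1 / q)) = q / 2 := by
        field_simp
      rw [this]
      linarith
  -- the number of bad tuples
  set BT : Finset (Fin t → {x // x ∈ Pr}) := univ.filter (fun a => π a ∈ BN) with hBT
  have hBTcard : (BT.card : ℝ) ≤ t.factorial * BN.card := by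
    have h1 : BT.card ≤ t.factorial * BN.card := by
      refine card_le_mul_card_image_of_maps_to (f := π)
        (fun n hn => (mem_filter.mp hn).2) _ (fun r _ => ?_)
      refine (card_le_card ?_).trans (tuples t r Pr fun p hp => (hPr p hp).1)
      intro n hn
      rw [mem_filter] at hn ⊢
      exact ⟨mem_univ _, hn.2⟩
    exact_mod_cast h1
  have hcard : (Fintype.card (Fin s × (Fin t → {x // x ∈ Pr})) : ℂ) = (s : ℂ) * (k : ℂ) ^ t := by
    simp [hk]
  have hsum : ∑ a : Fin s × (Fin t → {x // x ∈ Pr}),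
      e ((((a.1.val + 1) * ∏ i, (a.2 i).val : ℕ) : ℝ) * ((h : ℝ) / c)) = ∑ a, I a := by
    rw [Fintype.sum_prod_type, sum_comm]
  have hnorm : ‖∑ a, I a‖ ≤ (k : ℝ) ^ t * q + s * (t.factorial * (6 * (N : ℝ) / q)) := by
    have h1 : ∀ a, ‖I a‖ ≤ q + (if a ∈ BT then (s : ℝ) else 0) := by
      intro a
      by_cases ha : a ∈ BT
      · rw [if_pos ha]
        have := hI1 a
        linarith
      · rw [if_neg ha, add_zero]
        refine hI2 a fun hb => ha ?_
        rw [hBT, mem_filter]
        exact ⟨mem_univ _, hb⟩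
    refine (norm_sum_le _ _).trans ((sum_le_sum fun a _ => h1 a).trans ?_)
    rw [sum_add_distrib, sum_const, card_univ, ← sum_filter, sum_const]
    have h2 : (univ.filter (fun a => a ∈ BT)) = BT := by
      ext a
      simp
    rw [h2, nsmul_eq_mul, nsmul_eq_mul]
    have h3 : ((Fintype.card (Fin t → {x // x ∈ Pr}) : ℕ) : ℝ) = (k : ℝ) ^ t := by
      simp [hk]
    rw [h3]
    have h4 : (BT.card : ℝ) * s ≤ s * (t.factorial * (6 * (N : ℝ) / q)) := by
      rw [mul_comm]
      refine mul_le_mul_of_nonneg_left (hBTcard.trans ?_) (by positivity)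
      exact mul_le_mul_of_nonneg_left hBNcard (by positivity)
    linarith
  unfold F
  rw [hsum, hcard, norm_div]
  have hden : ‖(s : ℂ) * (k : ℂ) ^ t‖ = s * (k : ℝ) ^ t := by
    rw [norm_mul, norm_pow]
    simp
  rw [hden]
  have hs0 : (0 : ℝ) < s := by linarith
  rw [div_le_div_iff₀ (by positivity) hq0]
  calc ‖∑ a, I a‖ * q ≤ ((k : ℝ) ^ t * q + s * (t.factorial * (6 * (N : ℝ) / q))) * q := by
        gcongr
    _ = (k : ℝ) ^ t * (q * q) + s * (t.factorial * (6 * (N : ℝ))) := by
        field_simp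
    _ = (1 + 6 * (t.factorial : ℝ) * ((s : ℝ) / k) ^ t) * (s * (k : ℝ) ^ t) := by
        rw [hqq, hN, div_pow]
        push_cast
        field_simp

end Crest.Agent.EG
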