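import Crest.Agent.EGLS

/-!
# Row 19, module SOL: from sup bounds on the exponential sums to a solution of the congruence
-/

set_option autoImplicit false

namespace Crest.Agent.EG

open Finset

namespace SolP

open LSP

theorem geom (S c : ℕ) (hc : 1 ≤ c) (h : ¬ c ∣ S) :
    ∑ x ∈ range c, e ((S : ℝ) * ((x : ℝ) / (c : ℝ))) = 0 := by
  have hc0 : (c : ℝ) ≠ 0 := by exact_mod_cast (by omega : c ≠ 0)
  set z := e ((S : ℝ) / (c : ℝ)) with hz
  have hz1 : z ≠ 1 := by
    intro h1
    obtain ⟨n, hn⟩ := e_eq_one _ h1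
    apply h
    have h2 : (S : ℝ) = c * n := by
      field_simp at hn
      linarith
    have h3 : (S : ℤ) = c * n := by exact_mod_cast h2
    have h4 : (c : ℤ) ∣ (S : ℤ) := ⟨n, h3⟩
    exact_mod_cast h4
  have hzc : z ^ c = 1 := by
    rw [hz, ← e_pow]
    have : (c : ℝ) * ((S : ℝ) / c) = (S : ℕ) := by
      field_simp
    rw [this, e_nat]
  have hterm : ∀ x ∈ range c, e ((S : ℝ) * ((x : ℝ) / (c : ℝ))) = z ^ x := by
    intro x _
    rw [hz, ← e_pow]
    congr 1
    ring
  rw [Finset.sum_congr rfl hterm]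
  have := geom_sum_eq hz1 c
  rw [this, hzc]
  simp

theorem e_periodic (a : ℝ) (m : ℤ) : e (a + m) = e a := by
  rw [e_add, e_int, mul_one]

/-- reduction of the fraction -/
theorem F_red {ι : Type} [Fintype ι] (d : ι → ℕ) (h c : ℕ) (hc : 1 ≤ c) :
    F d ((h : ℝ) / c) = F d (((h / Nat.gcd h c : ℕ) : ℝ) / ((c / Nat.gcd h c : ℕ) : ℝ)) := by
  have hg : 0 < Nat.gcd h c := Nat.gcd_pos_of_pos_right h hc
  have h1 : ((h / Nat.gcd h c : ℕ) : ℝ) = (h : ℝ) / (Nat.gcd h c : ℝ) := by
    rw [Nat.cast_div (Nat.gcd_dvd_left h c)]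
    exact_mod_cast hg.ne'
  have h2 : ((c / Nat.gcd h c : ℕ) : ℝ) = (c : ℝ) / (Nat.gcd h c : ℝ) := by
    rw [Nat.cast_div (Nat.gcd_dvd_right h c)]
    exact_mod_cast hg.ne'
  have hg' : (Nat.gcd h c : ℝ) ≠ 0 := by exact_mod_cast hg.ne'
  rw [h1, h2]
  congr 1
  field_simp

theorem sum_inv_sq (n : ℕ) :
    ∑ m ∈ (range n).filter (fun m => 3 ≤ m), (1 : ℝ) / (m : ℝ) ^ 2 ≤ 1 / 2 := by
  have key : ∀ n : ℕ, 3 ≤ n → ∑ m ∈ (range n).filter (fun m => 3 ≤ m), (1 : ℝ) / (m : ℝ) ^ 2 ≤
      1 / 2 - 1 / ((n : ℝ) - 1) := by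
    intro n hn
    induction n, hn using Nat.le_induction with
    | base =>
      have : (range 3).filter (fun m => 3 ≤ m) = ∅ := by
        ext m; simp
      rw [this]; norm_num
    | succ n hn ih =>
      have : (range (n + 1)).filter (fun m => 3 ≤ m) =
          insert n ((range n).filter (fun m => 3 ≤ m)) := by
        rw [Finset.range_add_one, Finset.filter_insert, if_pos hn]
      rw [this, Finset.sum_insert (by simp)]
      have hn' : (3 : ℝ) ≤ n := by exact_mod_cast hn
      have h1 : (1 : ℝ) / (n : ℝ) ^ 2 ≤ 1 / ((n : ℝ) - 1) - 1 / (n : ℝ) := by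
        have ha : (0 : ℝ) < n - 1 := by linarith
        have hb : (0 : ℝ) < n := by linarith
        rw [div_sub_div _ _ ha.ne' hb.ne', div_le_div_iff₀ (by positivity) (by positivity)]
        nlinarith
      push_cast
      have h2 : (n : ℝ) + 1 - 1 = n := by ring
      rw [h2]
      linarith
  rcases le_or_gt 3 n with h | h
  · have h1 := key n h
    have hn' : (3 : ℝ) ≤ n := by exact_mod_cast h
    have h2 : 0 ≤ 1 / ((n : ℝ) - 1) := by
      apply div_nonneg <;> linarith
    linarith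
  · have : (range n).filter (fun m => 3 ≤ m) = ∅ := by
      ext m
      simp
      omega
    rw [this]; norm_num

/-- the sum over the nonzero residues -/
theorem sum_res (c : ℕ) (hc : 1 ≤ c) (h3 : ∀ c', c' ∣ c → 1 < c' → 3 ≤ c') :
    ∑ h ∈ (range c).filter (fun h => h ≠ 0), (1 : ℝ) / ((c / Nat.gcd h c : ℕ) : ℝ) ^ 3 ≤ 1 / 2 := by
  classical
  have hmaps : ∀ h ∈ (range c).filter (fun h => h ≠ 0),
      c / Nat.gcd h c ∈ (range (c + 1)).filter (fun m => 3 ≤ m) := by
    intro h hh
    simp only [mem_filter, mem_range] at hh ⊢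
    have hg : 0 < Nat.gcd h c := Nat.gcd_pos_of_pos_right h hc
    have hdvd : c / Nat.gcd h c ∣ c := Nat.div_dvd_of_dvd (Nat.gcd_dvd_right h c)
    refine ⟨by have := Nat.div_le_self c (Nat.gcd h c); omega, h3 _ hdvd ?_⟩
    have h1 : Nat.gcd h c ≤ h := Nat.gcd_le_left _ (Nat.pos_of_ne_zero hh.2)
    have h2 : Nat.gcd h c < c := by omega
    obtain ⟨m, hm⟩ := Nat.gcd_dvd_right h c
    rw [Nat.div_eq_of_eq_mul_right hg hm]
    by_contra hcon
    have : m ≤ 1 := by omega
    have : Nat.gcd h c * m ≤ Nat.gcd h c := by nlinarith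
    omega
  rw [← Finset.sum_fiberwise_of_maps_to hmaps]
  refine le_trans (Finset.sum_le_sum (g := fun m : ℕ => (1 : ℝ) / (m : ℝ) ^ 2) ?_)
    (sum_inv_sq (c + 1))
  intro m hm
  simp only [mem_filter, mem_range] at hm
  have hm0 : (0 : ℝ) < m := by exact_mod_cast (by omega : 0 < m)
  -- the fibre has at most `m` elements
  have hcard : (((range c).filter (fun h => h ≠ 0)).filter
      (fun h => c / Nat.gcd h c = m)).card ≤ m := by
    have hsub : (((range c).filter (fun h => h ≠ 0)).filter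
        (fun h => c / Nat.gcd h c = m)) ⊆ (range m).image (fun x => (c / m) * x) := by
      intro h hh
      simp only [mem_filter, mem_range] at hh
      rw [mem_image]
      have hg : 0 < Nat.gcd h c := Nat.gcd_pos_of_pos_right h hc
      obtain ⟨m', hm'⟩ := Nat.gcd_dvd_right h c
      have e1 : c / Nat.gcd h c = m' := Nat.div_eq_of_eq_mul_right hg hm'
      have e2 : m' = m := e1.symm.trans hh.2
      have e3 : c / m = Nat.gcd h c := by
        have hmm : c = m * Nat.gcd h c := by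
          have := hm'
          rw [e2] at this
          rw [Nat.mul_comm]; exact this
        exact Nat.div_eq_of_eq_mul_right (by omega) hmm
      refine ⟨h / Nat.gcd h c, ?_, ?_⟩
      · rw [mem_range]
        have : h / Nat.gcd h c < c / Nat.gcd h c :=
          Nat.div_lt_div_of_lt_of_dvd (Nat.gcd_dvd_right h c) hh.1.1
        rw [hh.2] at this
        exact this
      · rw [e3]
        exact Nat.mul_div_cancel' (Nat.gcd_dvd_left h c)
    refine (Finset.card_le_card hsub).trans (Finset.card_image_le.trans ?_)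
    simp
  calc ∑ h ∈ ((range c).filter (fun h => h ≠ 0)).filter (fun h => c / Nat.gcd h c = m),
        (1 : ℝ) / ((c / Nat.gcd h c : ℕ) : ℝ) ^ 3
      = ∑ h ∈ ((range c).filter (fun h => h ≠ 0)).filter (fun h => c / Nat.gcd h c = m),
        (1 : ℝ) / (m : ℝ) ^ 3 := by
        refine Finset.sum_congr rfl (fun h hh => ?_)
        rw [(mem_filter.1 hh).2]
    _ = ((((range c).filter (fun h => h ≠ 0)).filter
          (fun h => c / Nat.gcd h c = m)).card : ℝ) * (1 / (m : ℝ) ^ 3) := by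
        rw [Finset.sum_const, nsmul_eq_mul]
    _ ≤ (m : ℝ) * (1 / (m : ℝ) ^ 3) := by
        apply mul_le_mul_of_nonneg_right
        · exact_mod_cast hcard
        · positivity
    _ = 1 / (m : ℝ) ^ 2 := by
        field_simp

end SolP

open SolP LSP in
theorem sol : SolStmt := by
  classical
  intro ι _ _ d K P c hK hc hP hF
  by_contra hcon
  push Not at hcon
  have hcard : (0 : ℝ) < Fintype.card ι := by exact_mod_cast Fintype.card_pos
  have hcardC : (Fintype.card ι : ℂ) ≠ 0 := by exact_mod_cast hcard.ne'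
  -- the orthogonality relation
  have h1 : ∑ h ∈ range c, ∏ i : Fin K, F d (((P ^ (i : ℕ) * h : ℕ) : ℝ) / c) = 0 := by
    have h2 : ∀ h ∈ range c, ∏ i : Fin K, F d (((P ^ (i : ℕ) * h : ℕ) : ℝ) / c) =
        (∑ v : Fin K → ι, e (((∑ i : Fin K, P ^ (i : ℕ) * d (v i) : ℕ) : ℝ) * ((h : ℝ) / c))) /
          (Fintype.card ι : ℂ) ^ K := by
      intro h _
      unfold F
      rw [Finset.prod_div_distrib, Finset.prod_const, Finset.card_univ, Fintype.card_fin]
      congr 1
      rw [Finset.prod_univ_sum]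
      rw [Fintype.piFinset_univ]
      refine Finset.sum_congr rfl (fun v _ => ?_)
      have : ∀ (s : Finset (Fin K)), ∏ i ∈ s, e ((d (v i) : ℝ) * (((P ^ (i : ℕ) * h : ℕ) : ℝ) / c)) =
          e (((∑ i ∈ s, P ^ (i : ℕ) * d (v i) : ℕ) : ℝ) * ((h : ℝ) / c)) := by
        intro s
        induction s using Finset.induction_on with
        | empty => simp [e_zero]
        | insert a s ha ih =>
          rw [Finset.prod_insert ha, ih, Finset.sum_insert ha, ← e_add]
          congr 1
          push_cast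
          ring
      exact this univ
    rw [Finset.sum_congr rfl h2, ← Finset.sum_div, Finset.sum_comm]
    rw [Finset.sum_eq_zero, zero_div]
    intro v _
    exact geom _ c hc (hcon v)
  -- the term `h = 0`
  have h0 : ∏ i : Fin K, F d (((P ^ (i : ℕ) * 0 : ℕ) : ℝ) / c) = 1 := by
    refine Finset.prod_eq_one (fun i _ => ?_)
    unfold F
    simp [e_zero]
  have hsplit : range c = insert 0 ((range c).filter (fun h => h ≠ 0)) := by
    ext h
    simp only [mem_insert, mem_filter, mem_range]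
    omega
  rw [hsplit, Finset.sum_insert (by simp), h0] at h1
  have h3 : (∑ h ∈ (range c).filter (fun h => h ≠ 0),
      ∏ i : Fin K, F d (((P ^ (i : ℕ) * h : ℕ) : ℝ) / c)) = -1 := by
    linear_combination h1
  have h4 : (1 : ℝ) ≤ ∑ h ∈ (range c).filter (fun h => h ≠ 0),
      ‖∏ i : Fin K, F d (((P ^ (i : ℕ) * h : ℕ) : ℝ) / c)‖ := by
    have := norm_sum_le ((range c).filter (fun h => h ≠ 0))
      (fun h => ∏ i : Fin K, F d (((P ^ (i : ℕ) * h : ℕ) : ℝ) / c))
    rw [h3] at this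
    simpa using this
  have h5 : ∀ h ∈ (range c).filter (fun h => h ≠ 0),
      ‖∏ i : Fin K, F d (((P ^ (i : ℕ) * h : ℕ) : ℝ) / c)‖ ≤
        (1 : ℝ) / ((c / Nat.gcd h c : ℕ) : ℝ) ^ 3 := by
    intro h hh
    simp only [mem_filter, mem_range] at hh
    set g := Nat.gcd h c with hg_def
    have hg : 0 < g := Nat.gcd_pos_of_pos_right h hc
    have hdvd : c / g ∣ c := Nat.div_dvd_of_dvd (Nat.gcd_dvd_right h c)
    have h1' : g ≤ h := Nat.gcd_le_left _ (Nat.pos_of_ne_zero hh.2)
    have hlt : 1 < c / g := by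
      obtain ⟨m, hm⟩ := Nat.gcd_dvd_right h c
      rw [← hg_def] at hm
      rw [Nat.div_eq_of_eq_mul_right hg hm]
      by_contra hcon2
      have : m ≤ 1 := by omega
      have : g * m ≤ g := by nlinarith
      omega
    obtain ⟨hc3, hFb⟩ := hF (c / g) hdvd hlt
    have hc'0 : (0 : ℝ) < ((c / g : ℕ) : ℝ) := by exact_mod_cast (by omega : 0 < c / g)
    have hi : ∀ i : Fin K, ‖F d (((P ^ (i : ℕ) * h : ℕ) : ℝ) / c)‖ ^ K ≤
        1 / ((c / g : ℕ) : ℝ) ^ 3 := by
      intro i
      rw [F_red d _ c hc]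
      have hgcd : Nat.gcd (P ^ (i : ℕ) * h) c = g := by
        have : Nat.Coprime (P ^ (i : ℕ)) c := Nat.Coprime.pow_left _ hP
        rw [hg_def]
        exact Nat.Coprime.gcd_mul_left_cancel h this
      rw [hgcd]
      refine hFb _ ?_
      have h6 : P ^ (i : ℕ) * h / g = P ^ (i : ℕ) * (h / g) :=
        Nat.mul_div_assoc _ (Nat.gcd_dvd_left h c)
      rw [h6]
      refine Nat.Coprime.mul_left ?_ ?_
      · exact (Nat.Coprime.pow_left _ hP).coprime_dvd_right hdvd
      · exact Nat.coprime_div_gcd_div_gcd hg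
    have h7 : (∏ i : Fin K, ‖F d (((P ^ (i : ℕ) * h : ℕ) : ℝ) / c)‖) ^ K ≤
        (1 / ((c / g : ℕ) : ℝ) ^ 3) ^ K := by
      rw [← Finset.prod_pow]
      calc ∏ i : Fin K, ‖F d (((P ^ (i : ℕ) * h : ℕ) : ℝ) / c)‖ ^ K
          ≤ ∏ i : Fin K, (1 / ((c / g : ℕ) : ℝ) ^ 3) :=
            Finset.prod_le_prod (fun i _ => by positivity) (fun i _ => hi i)
        _ = _ := by simp
    rw [norm_prod]
    exact (pow_le_pow_iff_left₀ (Finset.prod_nonneg (fun i _ => norm_nonneg _))
      (by positivity) (by omega : K ≠ 0)).1 h7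
  have h6 := sum_res c hc (fun c' h1 h2 => (hF c' h1 h2).1)
  have h7 := Finset.sum_le_sum h5
  linarith

end Crest.Agent.EG
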