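import Mathlib
import Crest.Agent.KKDefs

/-! M2b leaf lemmas (row 55). -/

set_option autoImplicit false
set_option linter.unusedSectionVars false

namespace Crest.Agent.KK

open Finset

variable {V : Type} [Fintype V] [DecidableEq V]

theorem sum_bw_powerset (ρ : ℝ) (U : Finset V) : ∑ w ∈ U.powerset, bw ρ U w = 1 := by
  have h := Finset.sum_pow_mul_eq_add_pow ρ (1 - ρ) U
  rw [show ρ + (1 - ρ) = 1 by ring, one_pow] at h
  rw [← h]
  refine Finset.sum_congr rfl fun w hw => ?_
  rw [bw, Finset.card_sdiff_of_subset (Finset.mem_powerset.1 hw)]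

theorem sum_ite_bw (ρ : ℝ) (U : Finset V) : (∑ w, if w ⊆ U then bw ρ U w else 0) = 1 := by
  rw [← sum_bw_powerset ρ U, ← Finset.sum_filter]
  refine Finset.sum_congr ?_ fun _ _ => rfl
  ext w
  simp

theorem bw_nonneg (ρ : ℝ) (hρ0 : 0 ≤ ρ) (hρ1 : ρ ≤ 1) (U w : Finset V) : 0 ≤ bw ρ U w :=
  mul_nonneg (pow_nonneg hρ0 _) (pow_nonneg (by linarith) _)

theorem bw_pos (ρ : ℝ) (hρ0 : 0 < ρ) (hρ1 : ρ < 1) (U w : Finset V) : 0 < bw ρ U w :=
  mul_pos (pow_pos hρ0 _) (pow_pos (by linarith) _)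

theorem bw_law (ρ : ℝ) (hρ0 : 0 ≤ ρ) (hρ1 : ρ ≤ 1) (U : Finset V) :
    IsLaw (fun w => if w ⊆ U then bw ρ U w else 0) := by
  refine ⟨fun w => ?_, sum_ite_bw ρ U⟩
  dsimp only
  split_ifs
  · exact bw_nonneg ρ hρ0 hρ1 U w
  · exact le_rfl

theorem sub_le_mul_log_div (x y : ℝ) (hx : 0 ≤ x) (hy : 0 < y) : x - y ≤ x * Real.log (x / y) := by
  rcases eq_or_lt_of_le hx with h | h
  · rw [← h]; simp [hy.le]
  · have h1 := Real.log_le_sub_one_of_pos (div_pos hy h)
    have h2 : Real.log (x / y) = -Real.log (y / x) := by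
      rw [← Real.log_inv, inv_div]
    rw [h2]
    have h3 : x * (y / x) = y := by field_simp
    nlinarith

/-- relative entropy is nonnegative -/
theorem ent_nonneg (ρ : ℝ) (hρ0 : 0 < ρ) (hρ1 : ρ < 1) (U : Finset V) (P : Finset V → ℝ)
    (hP : IsLaw P) (hPU : ∀ w, P w ≠ 0 → w ⊆ U) : 0 ≤ ent ρ U P := by
  have h : ∑ w : Finset V, (P w - if w ⊆ U then bw ρ U w else 0) ≤ ent ρ U P := by
    refine Finset.sum_le_sum fun w _ => ?_
    by_cases hw : w ⊆ U
    · rw [if_pos hw]
      exact sub_le_mul_log_div _ _ (hP.1 w) (bw_pos ρ hρ0 hρ1 U w)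
    · rw [if_neg hw]
      have : P w = 0 := by
        by_contra h
        exact hw (hPU w h)
      rw [this]; simp
  rw [Finset.sum_sub_distrib, hP.2, sum_ite_bw] at h
  linarith

theorem pot_nonneg (q : ℝ) : ∀ (d : ℕ) (U : Finset V) (L : LP V d), Spread q d U L → 0 ≤ Pot d U L
  | 0, _, _, _ => le_rfl
  | d + 1, U, L, hS => by
    have hS' : IsLaw L.1 ∧ QSpread q U L.1 ∧ ∀ σ, L.1 σ ≠ 0 → Spread q d (U \ σ) (L.2 σ) := hS
    have h1 : 0 ≤ ∑ σ, L.1 σ * ((σ ∩ U).card : ℝ) :=
      Finset.sum_nonneg fun σ _ => mul_nonneg (hS'.1.1 σ) (Nat.cast_nonneg _)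
    have h2 : 0 ≤ ∑ σ, L.1 σ * Pot d (U \ σ) (L.2 σ) := by
      refine Finset.sum_nonneg fun σ _ => ?_
      by_cases h : L.1 σ = 0
      · rw [h]; simp
      · exact mul_nonneg (hS'.1.1 σ) (pot_nonneg q d _ _ (hS'.2.2 σ h))
    show 0 ≤ 4 ^ d * ∑ σ, L.1 σ * ((σ ∩ U).card : ℝ) + ∑ σ, L.1 σ * Pot d (U \ σ) (L.2 σ)
    positivity

/-- small potential implies a trajectory with no uncovered element -/
theorem win_of_pot_lt_one (q : ℝ) : ∀ (d : ℕ) (U : Finset V) (L : LP V d), Spread q d U L →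
    Pot d U L < 1 → Win d (univ \ U) L
  | 0, _, _, _, _ => trivial
  | d + 1, U, L, hS, h => by
    have hS' : IsLaw L.1 ∧ QSpread q U L.1 ∧ ∀ σ, L.1 σ ≠ 0 → Spread q d (U \ σ) (L.2 σ) := hS
    have h' : 4 ^ d * ∑ σ, L.1 σ * ((σ ∩ U).card : ℝ) + ∑ σ, L.1 σ * Pot d (U \ σ) (L.2 σ) < 1 := h
    have h2 : ∑ σ, L.1 σ * (4 ^ d * ((σ ∩ U).card : ℝ) + Pot d (U \ σ) (L.2 σ)) < 1 := by
      have : ∑ σ, L.1 σ * (4 ^ d * ((σ ∩ U).card : ℝ) + Pot d (U \ σ) (L.2 σ)) =
          4 ^ d * ∑ σ, L.1 σ * ((σ ∩ U).card : ℝ) + ∑ σ, L.1 σ * Pot d (U \ σ) (L.2 σ) := by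
        rw [Finset.mul_sum, ← Finset.sum_add_distrib]
        exact Finset.sum_congr rfl fun σ _ => by ring
      rw [this]; exact h'
    have h3 : ∃ σ, L.1 σ ≠ 0 ∧ 4 ^ d * ((σ ∩ U).card : ℝ) + Pot d (U \ σ) (L.2 σ) < 1 := by
      by_contra hcon
      push Not at hcon
      have : (1 : ℝ) ≤ ∑ σ, L.1 σ * (4 ^ d * ((σ ∩ U).card : ℝ) + Pot d (U \ σ) (L.2 σ)) := by
        rw [← hS'.1.2]
        refine Finset.sum_le_sum fun σ _ => ?_
        by_cases h0 : L.1 σ = 0
        · rw [h0]; simp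
        · have := hcon σ h0
          have h1 := hS'.1.1 σ
          nlinarith
      linarith
    obtain ⟨σ, hσ, hlt⟩ := h3
    have hSσ := hS'.2.2 σ hσ
    have hp := pot_nonneg q d _ _ hSσ
    have hcard : (σ ∩ U).card = 0 := by
      by_contra hc
      have h1 : (1 : ℝ) ≤ ((σ ∩ U).card : ℝ) := by exact_mod_cast Nat.one_le_iff_ne_zero.2 hc
      have h4 : (1 : ℝ) ≤ 4 ^ d := one_le_pow₀ (by norm_num)
      nlinarith
    have hdis : σ ∩ U = ∅ := Finset.card_eq_zero.1 hcard
    have hU : U \ σ = U := by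
      rw [Finset.sdiff_eq_self_iff_disjoint, Finset.disjoint_iff_inter_eq_empty, Finset.inter_comm]
      exact hdis
    refine ⟨σ, hσ, ?_, ?_⟩
    · intro x hx
      rw [Finset.mem_sdiff]
      exact ⟨Finset.mem_univ _, fun hxU => by
        have : x ∈ σ ∩ U := Finset.mem_inter.2 ⟨hx, hxU⟩
        rw [hdis] at this; simp at this⟩
    · have hlt' : Pot d (U \ σ) (L.2 σ) < 1 := by
        rw [hcard] at hlt; simpa using hlt
      have := win_of_pot_lt_one q d (U \ σ) (L.2 σ) hSσ hlt'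
      rwa [hU] at this

/-- inner sum of `bw_union` -/
theorem bw_union_inner (τ : ℝ) (w₁ w : Finset V) :
    (∑ w₂ : Finset V, if w₁ ∪ w₂ = w then bw τ univ w₂ else 0) =
      if w₁ ⊆ w then τ ^ (w \ w₁).card * (1 - τ) ^ (univ \ w).card else 0 := by
  by_cases h : w₁ ⊆ w
  · rw [if_pos h, ← Finset.sum_filter]
    have hb : ∑ w₂ ∈ univ.filter (fun w₂ : Finset V => w₁ ∪ w₂ = w), bw τ univ w₂ =
        ∑ t ∈ w₁.powerset, bw τ univ ((w \ w₁) ∪ t) := by
      refine Finset.sum_bij' (fun w₂ _ => w₂ ∩ w₁) (fun t _ => (w \ w₁) ∪ t) ?_ ?_ ?_ ?_ ?_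
      · intro a _
        exact Finset.mem_powerset.2 Finset.inter_subset_right
      · intro t ht
        rw [Finset.mem_filter]
        refine ⟨Finset.mem_univ _, ?_⟩
        have ht := Finset.mem_powerset.1 ht
        ext x
        simp only [Finset.mem_union, Finset.mem_sdiff]
        constructor
        · rintro (hx | hx | hx)
          · exact h hx
          · exact hx.1
          · exact h (ht hx)
        · intro hx
          by_cases hx1 : x ∈ w₁
          · exact Or.inl hx1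
          · exact Or.inr (Or.inl ⟨hx, hx1⟩)
      · intro a ha
        have ha := (Finset.mem_filter.1 ha).2
        ext x
        rw [← ha]
        simp only [Finset.mem_union, Finset.mem_sdiff, Finset.mem_inter]
        tauto
      · intro t ht
        have ht := Finset.mem_powerset.1 ht
        ext x
        simp only [Finset.mem_union, Finset.mem_sdiff, Finset.mem_inter]
        constructor
        · rintro ⟨(hx | hx), hx2⟩
          · exact absurd hx2 hx.2
          · exact hx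
        · intro hx
          exact ⟨Or.inr hx, ht hx⟩
      · intro a ha
        have ha := (Finset.mem_filter.1 ha).2
        congr 1
        ext x
        rw [← ha]
        simp only [Finset.mem_union, Finset.mem_sdiff, Finset.mem_inter]
        tauto
    rw [hb]
    have hterm : ∀ t ∈ w₁.powerset, bw τ univ ((w \ w₁) ∪ t) =
        (τ ^ (w \ w₁).card * (1 - τ) ^ (univ \ w).card) * bw τ w₁ t := by
      intro t ht
      have ht := Finset.mem_powerset.1 ht
      have hd : Disjoint (w \ w₁) t :=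
        Finset.disjoint_of_subset_right ht Finset.sdiff_disjoint
      have hc : univ \ ((w \ w₁) ∪ t) = (univ \ w) ∪ (w₁ \ t) := by
        ext x
        simp only [Finset.mem_union, Finset.mem_sdiff, Finset.mem_univ, true_and]
        constructor
        · intro hx
          by_cases hxw : x ∈ w
          · right
            by_cases hx1 : x ∈ w₁
            · exact ⟨hx1, fun h => hx (Or.inr h)⟩
            · exact absurd (Or.inl ⟨hxw, hx1⟩) hx
          · exact Or.inl hxw
        · rintro (hx | hx) (hy | hy)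
          · exact hx hy.1
          · exact hx (h (ht hy))
          · exact hy.2 hx.1
          · exact hx.2 hy
      have hd2 : Disjoint (univ \ w) (w₁ \ t) :=
        Finset.disjoint_of_subset_right (Finset.sdiff_subset.trans h) Finset.sdiff_disjoint
      rw [bw, bw, Finset.card_union_of_disjoint hd, hc, Finset.card_union_of_disjoint hd2,
        pow_add, pow_add]
      ring
    rw [Finset.sum_congr rfl hterm, ← Finset.mul_sum, sum_bw_powerset, mul_one]
  · rw [if_neg h]
    refine Finset.sum_eq_zero fun w₂ _ => ?_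
    rw [if_neg]
    intro h'
    exact h (h' ▸ Finset.subset_union_left)

/-- union of two independent binomial random sets -/
theorem bw_union (ρ τ : ℝ) (f : Finset V → ℝ) :
    ∑ w₁, ∑ w₂, bw ρ univ w₁ * bw τ univ w₂ * f (w₁ ∪ w₂) =
      ∑ w, bw (1 - (1 - ρ) * (1 - τ)) univ w * f w := by
  have h1 : ∀ w₁ : Finset V, ∑ w₂, bw ρ univ w₁ * bw τ univ w₂ * f (w₁ ∪ w₂) =
      ∑ w, f w * (bw ρ univ w₁ * ∑ w₂ : Finset V, if w₁ ∪ w₂ = w then bw τ univ w₂ else 0) := by
    intro w₁
    simp only [Finset.mul_sum]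
    rw [Finset.sum_comm]
    refine Finset.sum_congr rfl fun w₂ _ => ?_
    rw [Finset.sum_eq_single (w₁ ∪ w₂)]
    · rw [if_pos rfl]; ring
    · intro b _ hb
      rw [if_neg (fun h => hb h.symm)]; ring
    · intro h; exact absurd (Finset.mem_univ _) h
  rw [Finset.sum_congr rfl fun w₁ _ => h1 w₁, Finset.sum_comm]
  refine Finset.sum_congr rfl fun w _ => ?_
  rw [← Finset.mul_sum, mul_comm]
  congr 1
  simp only [bw_union_inner]
  have h2 : ∑ w₁ : Finset V, bw ρ univ w₁ *
      (if w₁ ⊆ w then τ ^ (w \ w₁).card * (1 - τ) ^ (univ \ w).card else 0) =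
      ∑ w₁ ∈ w.powerset, ((1 - ρ) * (1 - τ)) ^ (univ \ w).card *
        (ρ ^ w₁.card * ((1 - ρ) * τ) ^ (w.card - w₁.card)) := by
    have : (w.powerset : Finset (Finset V)) = univ.filter (fun w₁ => w₁ ⊆ w) := by
      ext; simp
    rw [this, Finset.sum_filter]
    refine Finset.sum_congr rfl fun w₁ _ => ?_
    by_cases h : w₁ ⊆ w
    · rw [if_pos h, if_pos h, bw]
      have hc : (univ \ w₁).card = (univ \ w).card + (w \ w₁).card := by
        rw [← Finset.card_union_of_disjoint]
        · congr 1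
          ext x
          simp only [Finset.mem_union, Finset.mem_sdiff, Finset.mem_univ, true_and]
          constructor
          · intro hx
            by_cases hxw : x ∈ w
            · exact Or.inr ⟨hxw, hx⟩
            · exact Or.inl hxw
          · rintro (hx | hx) hy
            · exact hx (h hy)
            · exact hx.2 hy
        · exact Finset.disjoint_of_subset_right Finset.sdiff_subset Finset.sdiff_disjoint
      rw [hc, ← Finset.card_sdiff_of_subset h, pow_add, mul_pow, mul_pow]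
      ring
    · rw [if_neg h, if_neg h, mul_zero]
  rw [h2, ← Finset.mul_sum, Finset.sum_pow_mul_eq_add_pow, bw]
  have h3 : ρ + (1 - ρ) * τ = 1 - (1 - ρ) * (1 - τ) := by ring
  have h4 : 1 - (1 - (1 - ρ) * (1 - τ)) = (1 - ρ) * (1 - τ) := by ring
  rw [h3, h4]
  ring

end Crest.Agent.KK
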