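import Mathlib

namespace Crest.Agent.QComp

open Encodable Denumerable

/-- the code of a rational in Mathlib's `Encodable ℚ`. -/
def codeQ (q : ℚ) : ℕ := Nat.pair (encode q.num) q.den

theorem encode_rat (q : ℚ) : @Encodable.encode ℚ Rat.instEncodable q = codeQ q := rfl

theorem encode_int_nat (n : ℕ) : encode (n : ℤ) = 2 * n := by
  rfl

theorem encode_int_negSucc (n : ℕ) : encode (Int.negSucc n) = 2 * n + 1 := by
  rfl

theorem natAbs_eq (z : ℤ) : z.natAbs = (encode z + 1) / 2 := by
  cases z with
  | ofNat n => 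
    have := encode_int_nat n
    simp only [Int.ofNat_eq_natCast] at *
    rw [this]; simp; omega
  | negSucc n =>
    rw [encode_int_negSucc]; simp; omega

def isCode (m : ℕ) : Prop := 0 < m.unpair.2 ∧ ∀ k < m.unpair.2 + 1, k ∣ m.unpair.2 → k ∣ (m.unpair.1 + 1) / 2 → k = 1

abbrev S : Set ℕ := Set.range (@Encodable.encode ℚ Rat.instEncodable)

theorem mem_S (m : ℕ) : m ∈ S ↔ isCode m := by
  constructor
  · rintro ⟨q, rfl⟩
    rw [encode_rat, codeQ, isCode]
    simp only [Nat.unpair_pair]
    refine ⟨q.den_pos, fun k _ hk hk' => ?_⟩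
    rw [← natAbs_eq] at hk'
    exact Nat.eq_one_of_dvd_coprimes (Nat.Coprime.symm q.reduced) hk hk'
  · rintro ⟨h1, h2⟩
    let z : ℤ := ofNat ℤ m.unpair.1
    have hz : encode z = m.unpair.1 := encode_ofNat _
    have hco : z.natAbs.Coprime m.unpair.2 := by
      rw [natAbs_eq, hz]
      apply Nat.Coprime.symm
      have hd := Nat.gcd_dvd_left m.unpair.2 ((m.unpair.1 + 1) / 2)
      have := Nat.le_of_dvd h1 hd
      exact h2 _ (by omega) hd (Nat.gcd_dvd_right _ _)
    refine ⟨⟨z, m.unpair.2, h1.ne', hco⟩, ?_⟩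
    rw [encode_rat, codeQ, hz]
    simp

theorem primrec_isCode : PrimrecPred isCode := by
  have hm1 : Primrec (fun m : ℕ => (m.unpair.1 + 1) / 2) := 
    Primrec.nat_div.comp (Primrec.succ.comp (Primrec.fst.comp Primrec.unpair)) (Primrec.const 2)
  have hm2 : Primrec (fun m : ℕ => m.unpair.2) := Primrec.snd.comp Primrec.unpair
  have hdvd : PrimrecRel (fun a b : ℕ => a ∣ b) := by
    have : PrimrecRel (fun a b : ℕ => b % a = 0) := 
      Primrec.eq.comp (Primrec.nat_mod.comp Primrec.snd Primrec.fst) (Primrec.const 0)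
    refine this.of_eq fun a b => ?_
    exact (Nat.dvd_iff_mod_eq_zero).symm
  have hR : PrimrecRel (fun (k m : ℕ) => k ∣ m.unpair.2 → k ∣ (m.unpair.1 + 1) / 2 → k = 1) := by
    have h1 : PrimrecPred (fun p : ℕ × ℕ => ¬ (p.1 ∣ p.2.unpair.2) ∨ ¬ (p.1 ∣ (p.2.unpair.1 + 1) / 2) ∨ p.1 = 1) := by
      refine PrimrecPred.or (PrimrecPred.not ?_) (PrimrecPred.or (PrimrecPred.not ?_) ?_)
      · exact hdvd.comp Primrec.fst (hm2.comp Primrec.snd)
      · exact hdvd.comp Primrec.fst (hm1.comp Primrec.snd)
      · exact Primrec.eq.comp Primrec.fst (Primrec.const 1)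
    refine PrimrecPred.of_eq h1 fun p => ?_
    tauto
  have h2 := PrimrecRel.forall_lt hR
  have h3 : PrimrecPred (fun m : ℕ => 0 < m.unpair.2 ∧ ∀ k < m.unpair.2 + 1, k ∣ m.unpair.2 → k ∣ (m.unpair.1 + 1) / 2 → k = 1) := by
    refine PrimrecPred.and ?_ ?_
    · exact Primrec.nat_lt.comp (Primrec.const 0) hm2
    · exact PrimrecRel.comp h2 (Primrec.succ.comp hm2) Primrec.id
  exact h3

instance : Infinite S := Infinite.of_injective _ (Equiv.ofInjective _ encode_injective).injective

noncomputable instance : DecidablePred (· ∈ S) := Classical.decPred _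

/-- the code of the `n`-th rational -/
noncomputable def cd (n : ℕ) : ℕ := codeQ (ofNat ℚ n)

theorem cd_eq (n : ℕ) : cd n = (Nat.Subtype.ofNat S n).1 := by
  have h : ∀ (d1 d2 : DecidablePred (· ∈ S)), (@Nat.Subtype.ofNat S d1 _ n).1 = (@Nat.Subtype.ofNat S d2 _ n).1 := by
    intro d1 d2
    have : d1 = d2 := Subsingleton.elim _ _
    rw [this]
  rw [h _ (@decidableRangeEncode ℚ _)]
  have : ofNat ℚ n = (@equivRangeEncode ℚ Rat.instEncodable).symm (@Nat.Subtype.ofNat S (@decidableRangeEncode ℚ _) _ n) := rfl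
  rw [cd, this, ← encode_rat]
  exact congrArg Subtype.val ((@equivRangeEncode ℚ Rat.instEncodable).apply_symm_apply _)


theorem cd_succ (n : ℕ) : ∃ k, cd (n+1) = cd n + k + 1 ∧ isCode (cd n + k + 1) ∧ ∀ j < k, ¬ isCode (cd n + j + 1) := by
  classical
  have h := Nat.Subtype.exists_succ (Nat.Subtype.ofNat S n)
  refine ⟨Nat.find h, ?_, ?_, ?_⟩
  · rw [cd_eq, cd_eq, Nat.Subtype.ofNat]
    show _ + Nat.find _ + 1 = _ + Nat.find _ + 1
    congr 1
  · rw [cd_eq]
    exact (mem_S _).1 (Nat.find_spec h)
  · intro j hj hc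
    rw [cd_eq] at hc
    exact Nat.find_min h hj ((mem_S _).2 hc)

theorem computable_cd : Computable cd := by
  classical
  have hdec : Computable (fun m : ℕ => decide (isCode m)) := primrec_isCode.decide.to_comp
  have hstep : Partrec₂ (fun (_ : ℕ) (p : ℕ × ℕ) =>
      (Nat.rfind (fun k => (Part.some (decide (isCode (p.2 + k + 1))) : Part Bool))).map (fun k => p.2 + k + 1)) := by
    refine Partrec.map ?_ ?_
    · refine Partrec.rfind ?_
      refine Computable.partrec (f := fun q : (ℕ × (ℕ × ℕ)) × ℕ => decide (isCode (q.1.2.2 + q.2 + 1))) ?_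
      refine hdec.comp ?_
      refine Computable.succ.comp ?_
      refine (Primrec.nat_add.comp ?_ ?_).to_comp
      · exact Primrec.snd.comp (Primrec.snd.comp Primrec.fst)
      · exact Primrec.snd
    · refine Computable.to₂ (f := fun q : (ℕ × (ℕ × ℕ)) × ℕ => q.1.2.2 + q.2 + 1) ?_
      refine Computable.succ.comp ?_
      refine (Primrec.nat_add.comp ?_ ?_).to_comp
      · exact Primrec.snd.comp (Primrec.snd.comp Primrec.fst)
      · exact Primrec.snd
  have hrec := Partrec.nat_rec (f := fun n : ℕ => n) (g := fun _ : ℕ => Part.some (cd 0)) Computable.id (Computable.const (cd 0)).partrec hstep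
  refine Partrec.of_eq_tot hrec ?_
  intro n
  induction n with
  | zero => simp
  | succ n ih =>
    simp only at ih ⊢
    refine Part.mem_bind_iff.2 ⟨cd n, ih, ?_⟩
    obtain ⟨k, hk, hc, hmin⟩ := cd_succ n
    rw [hk]
    refine Part.mem_map _ ?_
    rw [Nat.mem_rfind]
    refine ⟨?_, ?_⟩
    · simp only [Part.mem_some_iff]; simpa using hc
    · intro m hm
      simp only [Part.mem_some_iff]
      have := hmin m hm
      simpa using this

theorem computable_codeQ : Computable codeQ := by
  have : Computable (fun q : ℚ => cd (@encode ℚ Primcodable.toEncodable q)) := computable_cd.comp Computable.encode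
  refine this.of_eq fun q => ?_
  show codeQ (ofNat ℚ (@encode ℚ Primcodable.toEncodable q)) = codeQ q
  congr 1
  exact Denumerable.ofNat_encode q

theorem computable_den : Computable Rat.den := by
  have : Computable (fun q : ℚ => (codeQ q).unpair.2) := Computable.snd.comp (Computable.unpair.comp computable_codeQ)
  refine this.of_eq fun q => ?_
  simp [codeQ]

/-- positive part of the numerator -/
def pn (q : ℚ) : ℕ := q.num.toNat
/-- negative part of the numerator -/
def nn (q : ℚ) : ℕ := (-q.num).toNat

theorem num_eq (q : ℚ) : q.num = (pn q : ℤ) - nn q := by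
  unfold pn nn; omega

theorem int_toNat_eq (z : ℤ) : z.toNat = if encode z % 2 = 0 then encode z / 2 else 0 := by
  cases z with
  | ofNat n => 
    have := encode_int_nat n
    simp only [Int.ofNat_eq_natCast] at *
    rw [this]; simp
  | negSucc n =>
    rw [encode_int_negSucc]; simp

theorem int_neg_toNat_eq (z : ℤ) : (-z).toNat = if encode z % 2 = 0 then 0 else encode z / 2 + 1 := by
  cases z with
  | ofNat n => 
    have := encode_int_nat n
    simp only [Int.ofNat_eq_natCast] at *
    rw [this]; simp
  | negSucc n =>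
    rw [encode_int_negSucc]
    have h1 : ¬ (2 * n + 1) % 2 = 0 := by omega
    rw [if_neg h1]
    simp [Int.neg_negSucc]; omega

theorem computable_pn : Computable pn := by
  have h1 : Computable (fun q : ℚ => (codeQ q).unpair.1) := Computable.fst.comp (Computable.unpair.comp computable_codeQ)
  have h2 : Primrec (fun m : ℕ => if m % 2 = 0 then m / 2 else 0) := by
    refine Primrec.ite ?_ ?_ ?_
    · exact Primrec.eq.comp (Primrec.nat_mod.comp Primrec.id (Primrec.const 2)) (Primrec.const 0)
    · exact Primrec.nat_div.comp Primrec.id (Primrec.const 2)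
    · exact Primrec.const 0
  refine (h2.to_comp.comp h1).of_eq fun q => ?_
  simp only [codeQ, Nat.unpair_pair]
  rw [pn, int_toNat_eq]

theorem computable_nn : Computable nn := by
  have h1 : Computable (fun q : ℚ => (codeQ q).unpair.1) := Computable.fst.comp (Computable.unpair.comp computable_codeQ)
  have h2 : Primrec (fun m : ℕ => if m % 2 = 0 then 0 else m / 2 + 1) := by
    refine Primrec.ite ?_ ?_ ?_
    · exact Primrec.eq.comp (Primrec.nat_mod.comp Primrec.id (Primrec.const 2)) (Primrec.const 0)
    · exact Primrec.const 0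
    · exact Primrec.succ.comp (Primrec.nat_div.comp Primrec.id (Primrec.const 2))
  refine (h2.to_comp.comp h1).of_eq fun q => ?_
  simp only [codeQ, Nat.unpair_pair]
  rw [nn, int_neg_toNat_eq]

theorem rat_eq (q : ℚ) : q = ((pn q : ℚ) - nn q) / q.den := by
  have h : ((pn q : ℚ) - nn q) = ((q.num : ℤ) : ℚ) := by
    rw [num_eq]; push_cast; ring
  rw [h]; exact (Rat.num_div_den q).symm

theorem den_pos' (q : ℚ) : (0:ℚ) < q.den := by exact_mod_cast q.den_pos

/-- rational number from three naturals: `(a - b) / d` -/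
def mk3 (a b d : ℕ) : ℚ := ((a : ℚ) - b) / d

theorem eq_mk3 (q : ℚ) (a b d : ℕ) : q = mk3 a b d ↔
    ((0 < d ∧ pn q * d + b * q.den = nn q * d + a * q.den) ∨ (d = 0 ∧ pn q = nn q)) := by
  have hD := den_pos' q
  rcases Nat.eq_zero_or_pos d with hd | hd
  · subst hd
    simp only [mk3, Nat.cast_zero, div_zero, mul_zero, zero_add, lt_irrefl, false_and, true_and, false_or]
    constructor
    · intro h
      rw [h]; simp [pn, nn]
    · intro h
      rw [rat_eq q, h]; simp
  · have hd' : (0:ℚ) < d := by exact_mod_cast hd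
    have e : q = mk3 a b d ↔ pn q * d + b * q.den = nn q * d + a * q.den := by
      rw [mk3]
      constructor
      · intro h
        have h2 := rat_eq q
        have h3 : ((pn q : ℚ) - nn q) / q.den = ((a : ℚ) - b) / d := h2.symm.trans h
        rw [div_eq_div_iff hD.ne' hd'.ne'] at h3
        have h4 : (pn q : ℚ) * d + b * q.den = nn q * d + a * q.den := by linarith
        exact_mod_cast h4
      · intro h
        have h4 : (pn q : ℚ) * d + b * q.den = nn q * d + a * q.den := by exact_mod_cast h
        conv_lhs => rw [rat_eq q]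
        rw [div_eq_div_iff hD.ne' hd'.ne']
        linarith
    rw [e]; simp [hd, hd.ne']

theorem computable_mk3 {α : Type*} [Primcodable α] {a b d : α → ℕ} (ha : Computable a) (hb : Computable b)
    (hd : Computable d) : Computable (fun x => mk3 (a x) (b x) (d x)) := by
  classical
  -- graph on naturals
  have hg : PrimrecPred (fun t : (ℕ × ℕ × ℕ) × (ℕ × ℕ × ℕ) => 
      ((0 < t.1.2.2 ∧ t.2.1 * t.1.2.2 + t.1.2.1 * t.2.2.2 = t.2.2.1 * t.1.2.2 + t.1.1 * t.2.2.2) ∨ (t.1.2.2 = 0 ∧ t.2.1 = t.2.2.1))) := by
    have f1 : Primrec (fun t : (ℕ × ℕ × ℕ) × (ℕ × ℕ × ℕ) => t.1.1) := Primrec.fst.comp Primrec.fst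
    have f2 : Primrec (fun t : (ℕ × ℕ × ℕ) × (ℕ × ℕ × ℕ) => t.1.2.1) := Primrec.fst.comp (Primrec.snd.comp Primrec.fst)
    have f3 : Primrec (fun t : (ℕ × ℕ × ℕ) × (ℕ × ℕ × ℕ) => t.1.2.2) := Primrec.snd.comp (Primrec.snd.comp Primrec.fst)
    have g1 : Primrec (fun t : (ℕ × ℕ × ℕ) × (ℕ × ℕ × ℕ) => t.2.1) := Primrec.fst.comp Primrec.snd
    have g2 : Primrec (fun t : (ℕ × ℕ × ℕ) × (ℕ × ℕ × ℕ) => t.2.2.1) := Primrec.fst.comp (Primrec.snd.comp Primrec.snd)
    have g3 : Primrec (fun t : (ℕ × ℕ × ℕ) × (ℕ × ℕ × ℕ) => t.2.2.2) := Primrec.snd.comp (Primrec.snd.comp Primrec.snd)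
    refine PrimrecPred.or (PrimrecPred.and ?_ ?_) (PrimrecPred.and ?_ ?_)
    · exact Primrec.nat_lt.comp (Primrec.const 0) f3
    · exact Primrec.eq.comp (Primrec.nat_add.comp (Primrec.nat_mul.comp g1 f3) (Primrec.nat_mul.comp f2 g3)) (Primrec.nat_add.comp (Primrec.nat_mul.comp g2 f3) (Primrec.nat_mul.comp f1 g3))
    · exact Primrec.eq.comp f3 (Primrec.const 0)
    · exact Primrec.eq.comp g1 g2
  have hof : Computable (fun n : ℕ => (pn (ofNat ℚ n), nn (ofNat ℚ n), (ofNat ℚ n).den)) :=
    (computable_pn.comp (Computable.ofNat ℚ)).pair ((computable_nn.comp (Computable.ofNat ℚ)).pair (computable_den.comp (Computable.ofNat ℚ)))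
  have hR : Computable₂ (fun (x : α) (n : ℕ) => decide ((0 < d x ∧ pn (ofNat ℚ n) * d x + b x * (ofNat ℚ n).den = nn (ofNat ℚ n) * d x + a x * (ofNat ℚ n).den) ∨ (d x = 0 ∧ pn (ofNat ℚ n) = nn (ofNat ℚ n)))) := by
    have := hg.decide.to_comp.comp (f := fun t => decide _) (g := fun y : α × ℕ => ((a y.1, b y.1, d y.1), (pn (ofNat ℚ y.2), nn (ofNat ℚ y.2), (ofNat ℚ y.2).den)))
      (((ha.comp Computable.fst).pair ((hb.comp Computable.fst).pair (hd.comp Computable.fst))).pair (hof.comp Computable.snd))
    exact this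
  have hfind : Partrec (fun x : α => (Nat.rfind (fun n => (Part.some (decide ((0 < d x ∧ pn (ofNat ℚ n) * d x + b x * (ofNat ℚ n).den = nn (ofNat ℚ n) * d x + a x * (ofNat ℚ n).den) ∨ (d x = 0 ∧ pn (ofNat ℚ n) = nn (ofNat ℚ n)))) : Part Bool))).map (fun n => ofNat ℚ n)) := by
    refine Partrec.map (Partrec.rfind hR.partrec₂) ?_
    exact ((Computable.ofNat ℚ).comp Computable.snd).to₂
  refine Partrec.of_eq_tot hfind fun x => ?_
  simp only [← eq_mk3]
  rw [Part.mem_map_iff]
  have hex : ∃ n : ℕ, ofNat ℚ n = mk3 (a x) (b x) (d x) := ⟨@encode ℚ Primcodable.toEncodable (mk3 (a x) (b x) (d x)), Denumerable.ofNat_encode _⟩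
  refine ⟨Nat.find hex, ?_, Nat.find_spec hex⟩
  rw [Nat.mem_rfind]
  refine ⟨?_, ?_⟩
  · simp only [Part.mem_some_iff]
    have := Nat.find_spec hex
    simpa using this
  · intro m hm
    simp only [Part.mem_some_iff]
    have := Nat.find_min hex hm
    simpa using this

section ops

variable {α : Type*} [Primcodable α]

theorem cnat_add {f g : α → ℕ} (hf : Computable f) (hg : Computable g) : Computable (fun x => f x + g x) :=
  Primrec.nat_add.to_comp.comp hf hg
theorem cnat_mul {f g : α → ℕ} (hf : Computable f) (hg : Computable g) : Computable (fun x => f x * g x) :=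
  Primrec.nat_mul.to_comp.comp hf hg
theorem cnat_sub {f g : α → ℕ} (hf : Computable f) (hg : Computable g) : Computable (fun x => f x - g x) :=
  Primrec.nat_sub.to_comp.comp hf hg
theorem cnat_max {f g : α → ℕ} (hf : Computable f) (hg : Computable g) : Computable (fun x => max (f x) (g x)) :=
  Primrec.nat_max.to_comp.comp hf hg
theorem cnat_div {f g : α → ℕ} (hf : Computable f) (hg : Computable g) : Computable (fun x => f x / g x) :=
  Primrec.nat_div.to_comp.comp hf hg
theorem cnat_mod {f g : α → ℕ} (hf : Computable f) (hg : Computable g) : Computable (fun x => f x % g x) :=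
  Primrec.nat_mod.to_comp.comp hf hg

theorem cq_add {f g : α → ℚ} (hf : Computable f) (hg : Computable g) : Computable (fun x => f x + g x) := by
  have hp := computable_pn.comp hf
  have hn := computable_nn.comp hf
  have hd := computable_den.comp hf
  have hp' := computable_pn.comp hg
  have hn' := computable_nn.comp hg
  have hd' := computable_den.comp hg
  refine (computable_mk3 (cnat_add (cnat_mul hp hd') (cnat_mul hp' hd)) (cnat_add (cnat_mul hn hd') (cnat_mul hn' hd)) (cnat_mul hd hd')).of_eq fun x => ?_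
  have h1 := den_pos' (f x)
  have h2 := den_pos' (g x)
  rw [mk3]
  conv_rhs => rw [rat_eq (f x), rat_eq (g x)]
  push_cast
  field_simp
  ring

theorem cq_mul {f g : α → ℚ} (hf : Computable f) (hg : Computable g) : Computable (fun x => f x * g x) := by
  have hp := computable_pn.comp hf
  have hn := computable_nn.comp hf
  have hd := computable_den.comp hf
  have hp' := computable_pn.comp hg
  have hn' := computable_nn.comp hg
  have hd' := computable_den.comp hg
  refine (computable_mk3 (cnat_add (cnat_mul hp hp') (cnat_mul hn hn')) (cnat_add (cnat_mul hp hn') (cnat_mul hn hp')) (cnat_mul hd hd')).of_eq fun x => ?_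
  have h1 := den_pos' (f x)
  have h2 := den_pos' (g x)
  rw [mk3]
  conv_rhs => rw [rat_eq (f x), rat_eq (g x)]
  push_cast
  field_simp
  ring

theorem cq_neg {f : α → ℚ} (hf : Computable f) : Computable (fun x => - f x) := by
  refine (computable_mk3 (computable_nn.comp hf) (computable_pn.comp hf) (computable_den.comp hf)).of_eq fun x => ?_
  have h1 := den_pos' (f x)
  rw [mk3]
  conv_rhs => rw [rat_eq (f x)]
  field_simp
  ring

theorem cq_sub {f g : α → ℚ} (hf : Computable f) (hg : Computable g) : Computable (fun x => f x - g x) := by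
  refine (cq_add hf (cq_neg hg)).of_eq fun x => ?_
  ring

theorem cq_natCast {f : α → ℕ} (hf : Computable f) : Computable (fun x => (f x : ℚ)) := by
  refine (computable_mk3 hf (Computable.const 0) (Computable.const 1)).of_eq fun x => ?_
  simp [mk3]

theorem pn_mul_nn (q : ℚ) : pn q * nn q = 0 := by
  unfold pn nn
  rcases le_total 0 q.num with h | h
  · have : (-q.num).toNat = 0 := by omega
    rw [this]; simp
  · have : (q.num).toNat = 0 := by omega
    rw [this]; simp

theorem cq_inv {f : α → ℚ} (hf : Computable f) : Computable (fun x => (f x)⁻¹) := by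
  have hp := computable_pn.comp hf
  have hn := computable_nn.comp hf
  have hd := computable_den.comp hf
  refine (computable_mk3 (cnat_mul hp hd) (cnat_mul hn hd) (cnat_add (cnat_mul hp hp) (cnat_mul hn hn))).of_eq fun x => ?_
  have h1 := den_pos' (f x)
  have h2 : (pn (f x) : ℚ) * nn (f x) = 0 := by exact_mod_cast pn_mul_nn (f x)
  rw [mk3]
  conv_rhs => rw [rat_eq (f x)]
  push_cast
  rw [inv_div]
  rcases mul_eq_zero.1 h2 with h | h
  · rw [h]
    rcases eq_or_ne (nn (f x) : ℚ) 0 with h3 | h3
    · rw [h3]; simp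
    · have : (0 : ℚ) - nn (f x) ≠ 0 := by simpa using h3
      rw [div_eq_div_iff (by simpa using h3) this]; ring
  · rw [h]
    rcases eq_or_ne (pn (f x) : ℚ) 0 with h3 | h3
    · rw [h3]; simp
    · have : (pn (f x) : ℚ) - 0 ≠ 0 := by simpa using h3
      rw [div_eq_div_iff (by simpa using h3) this]; ring

theorem cq_div {f g : α → ℚ} (hf : Computable f) (hg : Computable g) : Computable (fun x => f x / g x) := by
  refine (cq_mul hf (cq_inv hg)).of_eq fun x => ?_
  rw [div_eq_mul_inv]

theorem cq_le {f g : α → ℚ} (hf : Computable f) (hg : Computable g) : Computable (fun x => decide (f x ≤ g x)) := by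
  have hp := computable_pn.comp hf
  have hn := computable_nn.comp hf
  have hd := computable_den.comp hf
  have hp' := computable_pn.comp hg
  have hn' := computable_nn.comp hg
  have hd' := computable_den.comp hg
  have hle : Computable₂ (fun a b : ℕ => decide (a ≤ b)) := Primrec.nat_le.decide.to_comp
  refine (hle.comp (cnat_add (cnat_mul hp hd') (cnat_mul hn' hd)) (cnat_add (cnat_mul hp' hd) (cnat_mul hn hd'))).of_eq fun x => ?_
  have h1 := den_pos' (f x)
  have h2 := den_pos' (g x)
  rw [decide_eq_decide]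
  have e : f x ≤ g x ↔ (pn (f x) : ℚ) * (g x).den + nn (g x) * (f x).den ≤ pn (g x) * (f x).den + nn (f x) * (g x).den := by
    conv_lhs => rw [rat_eq (f x), rat_eq (g x)]
    rw [div_le_div_iff₀ h1 h2]
    constructor <;> intro h <;> linarith
  rw [e]
  exact_mod_cast Iff.rfl

theorem cq_lt {f g : α → ℚ} (hf : Computable f) (hg : Computable g) : Computable (fun x => decide (f x < g x)) := by
  have h := cq_le hg hf
  refine ((Primrec.not.to_comp).comp h).of_eq fun x => ?_
  simp [← not_le]

theorem c_ite {β : Type*} [Primcodable β] {p : α → Prop} [DecidablePred p] (hp : Computable (fun x => decide (p x))) {f g : α → β}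
    (hf : Computable f) (hg : Computable g) : Computable (fun x => if p x then f x else g x) := by
  refine (Computable.cond hp hf hg).of_eq fun x => ?_
  by_cases h : p x <;> simp [h]

theorem cq_max {f g : α → ℚ} (hf : Computable f) (hg : Computable g) : Computable (fun x => max (f x) (g x)) := by
  refine (c_ite (cq_le hf hg) hg hf).of_eq fun x => ?_
  by_cases h : f x ≤ g x
  · simp [h]
  · simp [h, le_of_lt (not_le.1 h)]

theorem cq_min {f g : α → ℚ} (hf : Computable f) (hg : Computable g) : Computable (fun x => min (f x) (g x)) := by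
  refine (c_ite (cq_le hf hg) hf hg).of_eq fun x => ?_
  by_cases h : f x ≤ g x
  · simp [h]
  · simp [h, le_of_lt (not_le.1 h)]

theorem cq_abs {f : α → ℚ} (hf : Computable f) : Computable (fun x => |f x|) := by
  refine (cq_max hf (cq_neg hf)).of_eq fun x => ?_
  rw [abs]

theorem cq_pow {f : α → ℚ} {k : α → ℕ} (hf : Computable f) (hk : Computable k) : Computable (fun x => f x ^ k x) := by
  have := Computable.nat_rec (f := k) (g := fun _ : α => (1 : ℚ)) (h := fun (x : α) (p : ℕ × ℚ) => p.2 * f x) hk (Computable.const 1)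
    (cq_mul (Computable.snd.comp Computable.snd) (hf.comp Computable.fst)).to₂
  refine this.of_eq fun x => ?_
  induction k x with
  | zero => simp
  | succ n ih => simp only [ih]; rw [pow_succ]

theorem cnat_pow {f : α → ℕ} {k : α → ℕ} (hf : Computable f) (hk : Computable k) : Computable (fun x => f x ^ k x) := by
  have := Computable.nat_rec (f := k) (g := fun _ : α => (1 : ℕ)) (h := fun (x : α) (p : ℕ × ℕ) => p.2 * f x) hk (Computable.const 1)
    (cnat_mul (Computable.snd.comp Computable.snd) (hf.comp Computable.fst)).to₂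
  refine this.of_eq fun x => ?_
  induction k x with
  | zero => simp
  | succ n ih => simp only [ih]; rw [pow_succ]

/-- bounded sums -/
theorem cq_sum {k : α → ℕ} {f : α → ℕ → ℚ} (hk : Computable k) (hf : Computable₂ f) :
    Computable (fun x => ∑ i ∈ Finset.range (k x), f x i) := by
  have := Computable.nat_rec (f := k) (g := fun _ : α => (0 : ℚ)) (h := fun (x : α) (p : ℕ × ℚ) => p.2 + f x p.1) hk (Computable.const 0)
    (cq_add (Computable.snd.comp Computable.snd) (hf.comp Computable.fst (Computable.fst.comp Computable.snd))).to₂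
  refine this.of_eq fun x => ?_
  induction k x with
  | zero => simp
  | succ n ih => simp only [ih]; rw [Finset.sum_range_succ]

theorem cq_prod {k : α → ℕ} {f : α → ℕ → ℚ} (hk : Computable k) (hf : Computable₂ f) :
    Computable (fun x => ∏ i ∈ Finset.range (k x), f x i) := by
  have := Computable.nat_rec (f := k) (g := fun _ : α => (1 : ℚ)) (h := fun (x : α) (p : ℕ × ℚ) => p.2 * f x p.1) hk (Computable.const 1)
    (cq_mul (Computable.snd.comp Computable.snd) (hf.comp Computable.fst (Computable.fst.comp Computable.snd))).to₂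
  refine this.of_eq fun x => ?_
  induction k x with
  | zero => simp
  | succ n ih => simp only [ih]; rw [Finset.prod_range_succ]

theorem cnat_sum {k : α → ℕ} {f : α → ℕ → ℕ} (hk : Computable k) (hf : Computable₂ f) :
    Computable (fun x => ∑ i ∈ Finset.range (k x), f x i) := by
  have := Computable.nat_rec (f := k) (g := fun _ : α => (0 : ℕ)) (h := fun (x : α) (p : ℕ × ℕ) => p.2 + f x p.1) hk (Computable.const 0)
    (cnat_add (Computable.snd.comp Computable.snd) (hf.comp Computable.fst (Computable.fst.comp Computable.snd))).to₂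
  refine this.of_eq fun x => ?_
  induction k x with
  | zero => simp
  | succ n ih => simp only [ih]; rw [Finset.sum_range_succ]

theorem cnat_factorial {k : α → ℕ} (hk : Computable k) : Computable (fun x => (k x).factorial) := by
  have := Computable.nat_rec (f := k) (g := fun _ : α => (1 : ℕ)) (h := fun (x : α) (p : ℕ × ℕ) => (p.1 + 1) * p.2) hk (Computable.const 1)
    (cnat_mul (Computable.succ.comp (Computable.fst.comp Computable.snd)) (Computable.snd.comp Computable.snd)).to₂
  refine this.of_eq fun x => ?_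
  induction k x with
  | zero => simp
  | succ n ih => simp only [ih]; rw [Nat.factorial_succ]

/-- upper bound by a natural number: `⌈|q|⌉ ≤ pn q + nn q` -/
theorem abs_le_pn_nn (q : ℚ) : |q| ≤ (pn q + nn q : ℕ) := by
  conv_lhs => rw [rat_eq q]
  rw [abs_div]
  have h1 := den_pos' q
  have h2 : (1:ℚ) ≤ q.den := by exact_mod_cast q.den_pos
  rw [abs_of_pos h1]
  rw [div_le_iff₀ h1]
  have h3 : |(pn q : ℚ) - nn q| ≤ pn q + nn q := by
    have := abs_sub (pn q : ℚ) (nn q)
    simpa using this
  push_cast
  nlinarith [h3, Nat.cast_nonneg (α := ℚ) (pn q), Nat.cast_nonneg (α := ℚ) (nn q)]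

/-- vectors -/
theorem c_vec {β : Type*} [Primcodable β] {n : ℕ} {f : α → Fin n → β} (hf : ∀ i, Computable (fun a => f a i)) : Computable f := by
  have h1 : Computable (fun a => List.Vector.ofFn (fun i => f a i)) := Computable.vector_ofFn hf
  have h2 : Computable (@List.Vector.get β n) := Primrec.vector_get'.to_comp
  refine (h2.comp h1).of_eq fun a => ?_
  funext i
  simp

theorem c_app {β : Type*} [Primcodable β] {n : ℕ} {f : α → Fin n → β} (hf : Computable f) {i : α → Fin n} (hi : Computable i) : Computable (fun a => f a (i a)) :=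
  (Computable.fin_app (σ := β) (n := n)).comp hf hi

end ops

end Crest.Agent.QComp
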