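import Crest.Agent.QTDefs
import Crest.Agent.QTOpt
import Crest.Agent.QTAsm

/-! Row 82: (A2), (A3). -/

set_option autoImplicit false

namespace Crest.Agent.QT

open MeasureTheory Set Filter Topology
open scoped ENNReal NNReal

namespace Lim

lemma tendsto_of_inner {d : ℕ} {v : ℕ → Eu d} {w : Eu d}
    (h : ∀ z : Eu d, Tendsto (fun n => inner ℝ (v n) z) atTop (𝓝 (inner ℝ w z))) :
    Tendsto v atTop (𝓝 w) := by
  have h1 : Tendsto (fun n => EuclideanSpace.equiv (Fin d) ℝ (v n)) atTop
      (𝓝 (EuclideanSpace.equiv (Fin d) ℝ w)) := by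
    rw [tendsto_pi_nhds]
    intro i
    have h2 := h (EuclideanSpace.single i (1 : ℝ))
    simpa [EuclideanSpace.inner_single_right] using h2
  have h2 := ((EuclideanSpace.equiv (Fin d) ℝ).symm.continuous.tendsto _).comp h1
  simpa [Function.comp_def] using h2

lemma slope_tendsto {d : ℕ} {f : Eu d → ℝ} {g x : Eu d} (hg : HasGradientAt f g x) (h : Eu d) :
    Tendsto (fun t : ℝ => (f (x + t • h) - f x) / t) (𝓝[>] 0) (𝓝 (inner ℝ g h)) := by
  have h1 : HasDerivAt (fun t : ℝ => f (x + t • h)) (inner ℝ g h) 0 := by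
    have h2 : HasDerivAt (fun t : ℝ => x + t • h) h 0 := by
      have := ((hasDerivAt_id (0 : ℝ)).smul_const h).const_add x
      simpa using this
    have h3 : HasFDerivAt f ((InnerProductSpace.toDual ℝ (Eu d)) g) (x + (0 : ℝ) • h) := by
      simpa using hg.hasFDerivAt
    have h4 := h3.comp_hasDerivAt (0 : ℝ) h2
    simpa [Function.comp_def] using h4
  have h2 := (hasDerivAt_iff_tendsto_slope.1 h1).mono_left
    (nhdsWithin_mono (0 : ℝ) (s := Ioi 0) (t := {0}ᶜ) (fun t ht => (ne_of_gt ht)))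
  refine h2.congr fun t => ?_
  simp [slope_def_field]

lemma inner_le_slope {d : ℕ} {f : Eu d → ℝ} (hf : ConvexOn ℝ univ f) {g x : Eu d}
    (hg : HasGradientAt f g x) (h : Eu d) {t : ℝ} (ht : 0 < t) :
    inner ℝ g h ≤ (f (x + t • h) - f x) / t := by
  have h1 := gradient_ineq hf hg (x + t • h)
  rw [add_sub_cancel_left, inner_smul_right] at h1
  rw [le_div_iff₀ ht]
  linarith

theorem gradTendsto : Asm.GradTendsto := by
  intro d F f hF hf hlim x hd hdf
  have key : ∀ (h : Eu d) (b : ℝ), inner ℝ (gradient f x) h < b →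
      ∀ᶠ n in atTop, inner ℝ (gradient (F n) x) h < b := by
    intro h b hb
    have h1 := slope_tendsto hdf.hasGradientAt h
    have h2 : ∀ᶠ t in 𝓝[>] (0 : ℝ), (f (x + t • h) - f x) / t < b := h1.eventually_lt_const hb
    obtain ⟨t, ht1, ht2⟩ := (h2.and self_mem_nhdsWithin).exists
    have ht2' : 0 < t := ht2
    have h3 : Tendsto (fun n => (F n (x + t • h) - F n x) / t) atTop
        (𝓝 ((f (x + t • h) - f x) / t)) := ((hlim _).sub (hlim _)).div_const t
    filter_upwards [h3.eventually_lt_const ht1] with n hn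
    exact (inner_le_slope (hF n) (hd n).hasGradientAt h ht2').trans_lt hn
  refine tendsto_of_inner fun z => ?_
  rw [tendsto_order]
  constructor
  · intro b hb
    have h1 := key (-z) (-b) (by rw [inner_neg_right]; linarith)
    filter_upwards [h1] with n hn
    rw [inner_neg_right] at hn
    linarith
  · intro b hb
    exact key z b hb

lemma cauchy_of_dense {d : ℕ} {L : ℝ≥0} {F : ℕ → Eu d → ℝ} (hF : ∀ n, LipschitzWith L (F n))
    {u : ℕ → Eu d} (hu : DenseRange u)
    (hc : ∀ q, CauchySeq (fun n => F n (u q))) (x : Eu d) : CauchySeq (fun n => F n x) := by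
  rw [Metric.cauchySeq_iff']
  intro ε hε
  have hL : (0 : ℝ) < 3 * (L + 1) := by positivity
  obtain ⟨q, hq⟩ := hu.exists_dist_lt x (ε := ε / (3 * (L + 1))) (by positivity)
  obtain ⟨N, hN⟩ := Metric.cauchySeq_iff'.1 (hc q) (ε / 3) (by positivity)
  refine ⟨N, fun n hn => ?_⟩
  have h1 := (hF n).dist_le_mul x (u q)
  have h2 := (hF N).dist_le_mul (u q) x
  have h3 := hN n hn
  have h4 : (L : ℝ) * dist x (u q) ≤ ε / 3 := by
    have h5 : (L : ℝ) * dist x (u q) ≤ (L + 1) * (ε / (3 * (L + 1))) :=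
      mul_le_mul (by linarith) hq.le dist_nonneg (by positivity)
    refine h5.trans (le_of_eq ?_)
    field_simp
  rw [dist_comm (u q) x] at h2
  calc dist (F n x) (F N x) ≤ dist (F n x) (F n (u q)) + dist (F n (u q)) (F N (u q)) +
        dist (F N (u q)) (F N x) := dist_triangle4 _ _ _ _
    _ < ε := by linarith

theorem subseqLimit : Asm.SubseqLimit := by
  intro d L B F G hF hG hF0 hG0
  set u := TopologicalSpace.denseSeq (Eu d) with hu
  have hud : DenseRange u := TopologicalSpace.denseRange_denseSeq (Eu d)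
  have hbd : ∀ (H : ℕ → Eu d → ℝ), (∀ n, LipschitzWith L (H n)) → (∀ n, |H n 0| ≤ B) →
      ∀ n q, H n (u q) ∈ Icc (-(B + L * ‖u q‖)) (B + L * ‖u q‖) := by
    intro H hH hH0 n q
    have h1 := (hH n).dist_le_mul (u q) 0
    rw [Real.dist_eq, dist_zero_right] at h1
    have h2 := abs_le.1 h1
    have h3 := abs_le.1 (hH0 n)
    exact ⟨by linarith, by linarith⟩
  set X : ℕ → ℕ → ℝ × ℝ := fun n q => (F n (u q), G n (u q)) with hX
  have hcomp : IsCompact (Set.pi univ (fun q : ℕ =>
      (Icc (-(B + L * ‖u q‖)) (B + L * ‖u q‖) ×ˢ Icc (-(B + L * ‖u q‖)) (B + L * ‖u q‖) :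
        Set (ℝ × ℝ)))) :=
    isCompact_univ_pi fun q => isCompact_Icc.prod isCompact_Icc
  obtain ⟨a, _, s, hs, hlim⟩ := hcomp.tendsto_subseq (x := X) (fun n q _ =>
    ⟨hbd F hF hF0 n q, hbd G hG hG0 n q⟩)
  rw [tendsto_pi_nhds] at hlim
  have h1 : ∀ q, CauchySeq (fun n => F (s n) (u q)) := fun q =>
    (((continuous_fst.tendsto _).comp (hlim q)).cauchySeq)
  have h2 : ∀ q, CauchySeq (fun n => G (s n) (u q)) := fun q =>
    (((continuous_snd.tendsto _).comp (hlim q)).cauchySeq)
  have h3 := cauchy_of_dense (fun n => hF (s n)) hud h1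
  have h4 := cauchy_of_dense (fun n => hG (s n)) hud h2
  choose f hf using fun x => cauchySeq_tendsto_of_complete (h3 x)
  choose g hg using fun x => cauchySeq_tendsto_of_complete (h4 x)
  exact ⟨s, f, g, hs, hf, hg⟩

end Lim

end Crest.Agent.QT
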