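import Crest.Agent.STPoly

/-!
Row 173, GEOM, part A: polynomial maps `k² × k² → D`, the space `Γ`.
-/

set_option autoImplicit false
open Crest.AlgebraR.SL2Tilting
open Matrix

namespace Crest.Agent.ST

section Alg

variable {k : Type} [Field k] {A : Type} [CommRing A] [Algebra k A]

theorem IsPoly.mul' {g g' : k → A} (hg : IsPoly g) (hg' : IsPoly g') :
    IsPoly (fun t => g t * g' t) := by
  obtain ⟨B, c, h⟩ := hg
  have : (fun t => g t * g' t) = fun t => ∑ i ∈ Finset.range B, (t ^ i) • (LinearMap.mulLeft k (c i)) (g' t) := by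
    funext t
    rw [h t, Finset.sum_mul]
    refine Finset.sum_congr rfl fun i _ => ?_
    rw [LinearMap.mulLeft_apply, smul_mul_assoc]
  rw [this]
  refine IsPoly.sum _ fun i _ => ?_
  exact (isPoly_id.pow i).smul (hg'.map _)

end Alg

section PolyOp

variable {k : Type} [Field k] {X : Type} [AddCommGroup X] [Module k X]

/-- pointwise polynomial families of endomorphisms of a finite-dimensional space are polynomial -/
theorem polyOp [FiniteDimensional k X] (T : k → Module.End k X)
    (hT : ∀ x, IsPoly (fun t => T t x)) :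
    ∃ (B : ℕ) (E : ℕ → Module.End k X), (∀ i, B ≤ i → E i = 0) ∧
      ∀ B', B ≤ B' → ∀ t, T t = ∑ i ∈ Finset.range B', t ^ i • E i := by
  classical
  let b := Module.finBasis k X
  choose B c hc0 hc using fun j => isPoly_pad (hT (b j))
  let Bm := Finset.univ.sup B
  refine ⟨Bm, fun i => b.constr k (fun j => c j i), ?_, ?_⟩
  · intro i hi
    apply b.ext
    intro j
    rw [Module.Basis.constr_basis]
    exact hc0 j i (le_trans (Finset.le_sup (Finset.mem_univ j)) hi)
  · intro B' hB t
    apply b.ext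
    intro j
    rw [hc j B' (le_trans (Finset.le_sup (Finset.mem_univ j)) hB) t]
    simp [LinearMap.sum_apply]

end PolyOp

namespace Geom

variable {k : Type} [Field k]

/-- points -/
abbrev VV (k : Type) : Type := (Fin 2 → k) × (Fin 2 → k)

/-- action of a matrix on points -/
def act (g : SL2 k) (x : VV k) : VV k := (g.1 *ᵥ x.1, g.1 *ᵥ x.2)

theorem act_mul (g h : SL2 k) (x : VV k) : act (g * h) x = act g (act h x) := by
  unfold act
  rw [Matrix.SpecialLinearGroup.coe_mul]
  simp only [Matrix.mulVec_mulVec]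

theorem act_one (x : VV k) : act (1 : SL2 k) x = x := by
  simp [act]

/-- determinant -/
def dl (x : VV k) : k := x.1 0 * x.2 1 - x.1 1 * x.2 0

theorem dl_act (g : SL2 k) (x : VV k) : dl (act g x) = dl x := by
  have h := g.2
  rw [Matrix.det_fin_two] at h
  simp only [dl, act, Matrix.mulVec, dotProduct, Fin.sum_univ_two]
  linear_combination (x.1 0 * x.2 1 - x.1 1 * x.2 0) * h

/-- the algebra of polynomial functions on `k² × k²` -/
def O (k : Type) [Field k] : Subalgebra k (VV k → k) :=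
  Algebra.adjoin k {(fun x => x.1 0), (fun x => x.1 1), (fun x => x.2 0), (fun x => x.2 1)}

theorem O1 (j : Fin 2) : (fun x : VV k => x.1 j) ∈ O k := by
  fin_cases j
  · exact Algebra.subset_adjoin (by simp)
  · exact Algebra.subset_adjoin (by simp)

theorem O2 (j : Fin 2) : (fun x : VV k => x.2 j) ∈ O k := by
  fin_cases j
  · exact Algebra.subset_adjoin (by simp)
  · exact Algebra.subset_adjoin (by simp)

/-- induction principle for polynomial functions -/
theorem O_ind {P : (VV k → k) → Prop} (h1 : ∀ j : Fin 2, P fun x => x.1 j)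
    (h2 : ∀ j : Fin 2, P fun x => x.2 j) (hc : ∀ a : k, P fun _ => a)
    (hadd : ∀ f g, P f → P g → P (f + g)) (hmul : ∀ f g, P f → P g → P (f * g))
    (f : VV k → k) (hf : f ∈ O k) : P f := by
  refine Algebra.adjoin_induction (p := fun f _ => P f) ?_ ?_ ?_ ?_ hf
  · intro f hf
    simp only [Set.mem_insert_iff, Set.mem_singleton_iff] at hf
    rcases hf with rfl | rfl | rfl | rfl
    · exact h1 0
    · exact h1 1
    · exact h2 0
    · exact h2 1
  · intro a
    exact hc a
  · intro f g _ _ hf hg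
    exact hadd f g hf hg
  · intro f g _ _ hf hg
    exact hmul f g hf hg

theorem dl_mem : (fun x : VV k => dl x) ∈ O k := by
  have : (fun x : VV k => dl x) = (fun x => x.1 0) * (fun x => x.2 1) -
      (fun x => x.1 1) * (fun x => x.2 0) := by
    funext x; rfl
  rw [this]
  exact sub_mem (mul_mem (O1 0) (O2 1)) (mul_mem (O1 1) (O2 0))

/-- polynomial functions are polynomial along polynomial curves -/
theorem O_curve {f : VV k → k} (hf : f ∈ O k) (γ : k → VV k)
    (h1 : ∀ j, IsPoly (fun t => (γ t).1 j)) (h2 : ∀ j, IsPoly (fun t => (γ t).2 j)) :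
    IsPoly (fun t => f (γ t)) := by
  refine O_ind (P := fun f => IsPoly (fun t => f (γ t))) h1 h2 (fun a => IsPoly.const a) ?_ ?_ f hf
  · intro f g hf hg
    exact hf.add hg
  · intro f g hf hg
    exact hf.mul hg

/-- polynomial functions composed with a polynomial family of maps -/
theorem O_fam {f : VV k → k} (hf : f ∈ O k) (γ : k → VV k → VV k)
    (h1 : ∀ j, IsPoly (fun t => fun x => (γ t x).1 j))
    (h2 : ∀ j, IsPoly (fun t => fun x => (γ t x).2 j)) :
    IsPoly (fun t => fun x => f (γ t x)) := by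
  refine O_ind (P := fun f => IsPoly (fun t => fun x => f (γ t x))) h1 h2
    (fun a => IsPoly.const _) ?_ ?_ f hf
  · intro f g hf hg
    exact hf.add hg
  · intro f g hf hg
    exact hf.mul' hg

variable {D : Type} [AddCommGroup D] [Module k D]

/-- polynomial maps to `D` -/
def OD (k D : Type) [Field k] [AddCommGroup D] [Module k D] : Submodule k (VV k → D) :=
  Submodule.span k {f | ∃ φ ∈ O k, ∃ d : D, f = fun x => φ x • d}

theorem OD_gen {φ : VV k → k} (hφ : φ ∈ O k) (d : D) : (fun x => φ x • d) ∈ OD k D :=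
  Submodule.subset_span ⟨φ, hφ, d, rfl⟩

theorem OD_ind {P : (VV k → D) → Prop} (hg : ∀ φ ∈ O k, ∀ d : D, P fun x => φ x • d)
    (h0 : P 0) (hadd : ∀ f g, P f → P g → P (f + g)) (hs : ∀ (a : k) f, P f → P (a • f))
    (f : VV k → D) (hf : f ∈ OD k D) : P f := by
  refine Submodule.span_induction (p := fun f _ => P f) ?_ h0 ?_ ?_ hf
  · rintro f ⟨φ, hφ, d, rfl⟩
    exact hg φ hφ d
  · intro f g _ _ hf hg
    exact hadd f g hf hg
  · intro a f _ hf
    exact hs a f hf

theorem OD_smul {φ : VV k → k} (hφ : φ ∈ O k) {f : VV k → D} (hf : f ∈ OD k D) :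
    (fun x => φ x • f x) ∈ OD k D := by
  refine OD_ind (P := fun f => (fun x => φ x • f x) ∈ OD k D) ?_ ?_ ?_ ?_ f hf
  · intro ψ hψ d
    have : (fun x => φ x • ψ x • d) = fun x => (φ * ψ) x • d := by
      funext x
      simp only [Pi.mul_apply, smul_smul]
    rw [this]
    exact OD_gen (mul_mem hφ hψ) d
  · have : (fun x => φ x • (0 : VV k → D) x) = 0 := by funext x; simp
    rw [this]
    exact zero_mem _
  · intro f g hf hg
    have : (fun x => φ x • (f + g) x) = (fun x => φ x • f x) + fun x => φ x • g x := by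
      funext x; simp
    rw [this]
    exact add_mem hf hg
  · intro a f hf
    have : (fun x => φ x • (a • f) x) = a • fun x => φ x • f x := by
      funext x
      exact smul_comm _ _ _
    rw [this]
    exact Submodule.smul_mem _ _ hf

theorem O_act (g : SL2 k) {φ : VV k → k} (hφ : φ ∈ O k) : (fun x => φ (act g x)) ∈ O k := by
  refine O_ind (P := fun φ => (fun x => φ (act g x)) ∈ O k) ?_ ?_ ?_ ?_ ?_ φ hφ
  · intro j
    have : (fun x : VV k => (act g x).1 j) = (algebraMap k (VV k → k) (g.1 j 0)) * (fun x => x.1 0) +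
        (algebraMap k (VV k → k) (g.1 j 1)) * (fun x => x.1 1) := by
      funext x
      show (g.1 *ᵥ x.1) j = g.1 j 0 * x.1 0 + g.1 j 1 * x.1 1
      rw [Matrix.mulVec, dotProduct, Fin.sum_univ_two]
    rw [this]
    exact add_mem (mul_mem (Subalgebra.algebraMap_mem _ _) (O1 0))
      (mul_mem (Subalgebra.algebraMap_mem _ _) (O1 1))
  · intro j
    have : (fun x : VV k => (act g x).2 j) = (algebraMap k (VV k → k) (g.1 j 0)) * (fun x => x.2 0) +
        (algebraMap k (VV k → k) (g.1 j 1)) * (fun x => x.2 1) := by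
      funext x
      show (g.1 *ᵥ x.2) j = g.1 j 0 * x.2 0 + g.1 j 1 * x.2 1
      rw [Matrix.mulVec, dotProduct, Fin.sum_univ_two]
    rw [this]
    exact add_mem (mul_mem (Subalgebra.algebraMap_mem _ _) (O2 0))
      (mul_mem (Subalgebra.algebraMap_mem _ _) (O2 1))
  · intro a
    exact Subalgebra.algebraMap_mem (O k) a
  · intro f g hf hg
    exact add_mem hf hg
  · intro f g hf hg
    exact mul_mem hf hg

theorem OD_act (g : SL2 k) {f : VV k → D} (hf : f ∈ OD k D) :
    (fun x => f (act g x)) ∈ OD k D := by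
  refine OD_ind (P := fun f => (fun x => f (act g x)) ∈ OD k D) ?_ ?_ ?_ ?_ f hf
  · intro φ hφ d
    exact OD_gen (O_act g hφ) d
  · exact zero_mem _
  · intro f g hf hg
    exact add_mem hf hg
  · intro a f hf
    exact Submodule.smul_mem _ a hf

theorem OD_curve {f : VV k → D} (hf : f ∈ OD k D) (γ : k → VV k)
    (h1 : ∀ j, IsPoly (fun t => (γ t).1 j)) (h2 : ∀ j, IsPoly (fun t => (γ t).2 j)) :
    IsPoly (fun t => f (γ t)) := by
  refine OD_ind (P := fun f => IsPoly (fun t => f (γ t))) ?_ ?_ ?_ ?_ f hf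
  · intro φ hφ d
    exact (O_curve hφ γ h1 h2).smul (IsPoly.const d)
  · exact IsPoly.const 0
  · intro f g hf hg
    exact hf.add hg
  · intro a f hf
    exact hf.const_smul a

theorem OD_fam {f : VV k → D} (hf : f ∈ OD k D) (γ : k → VV k → VV k)
    (h1 : ∀ j, IsPoly (fun t => fun x => (γ t x).1 j))
    (h2 : ∀ j, IsPoly (fun t => fun x => (γ t x).2 j)) :
    IsPoly (fun t => fun x => f (γ t x)) := by
  refine OD_ind (P := fun f => IsPoly (fun t => fun x => f (γ t x))) ?_ ?_ ?_ ?_ f hf
  · intro φ hφ d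
    let L : (VV k → k) →ₗ[k] (VV k → D) :=
      { toFun := fun ψ x => ψ x • d
        map_add' := fun a b => by funext x; simp [add_smul]
        map_smul' := fun a b => by funext x; simp [mul_smul] }
    exact (O_fam hφ γ h1 h2).map L
  · exact IsPoly.const 0
  · intro f g hf hg
    exact hf.add hg
  · intro a f hf
    exact hf.const_smul a

/-- division by `v₂` -/
theorem O_div {φ : VV k → k} (hφ : φ ∈ O k) :
    ∃ ψ ∈ O k, ∀ x : VV k, φ x = φ (![x.1 0, 0], x.2) + x.1 1 * ψ x := by
  have key : φ ∈ O k ∧ ∃ ψ ∈ O k, ∀ x : VV k, φ x = φ (![x.1 0, 0], x.2) + x.1 1 * ψ x := by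
    refine O_ind
      (P := fun φ => φ ∈ O k ∧ ∃ ψ ∈ O k, ∀ x : VV k, φ x = φ (![x.1 0, 0], x.2) + x.1 1 * ψ x)
      ?_ ?_ ?_ ?_ ?_ φ hφ
    · intro j
      refine ⟨O1 j, ?_⟩
      fin_cases j
      · exact ⟨0, zero_mem _, fun x => by simp⟩
      · exact ⟨1, one_mem _, fun x => by simp⟩
    · intro j
      exact ⟨O2 j, 0, zero_mem _, fun x => by simp⟩
    · intro a
      exact ⟨Subalgebra.algebraMap_mem (O k) a, 0, zero_mem _, fun x => by simp⟩
    · rintro f g ⟨hf0, f', hf', hf⟩ ⟨hg0, g', hg', hg⟩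
      refine ⟨add_mem hf0 hg0, f' + g', add_mem hf' hg', fun x => ?_⟩
      simp only [Pi.add_apply]
      rw [hf x, hg x]
      ring
    · rintro f g ⟨hf0, f', hf', hf⟩ ⟨hg0, g', hg', hg⟩
      refine ⟨mul_mem hf0 hg0, f' * g + (f - (fun x => x.1 1) * f') * g', ?_, fun x => ?_⟩
      · exact add_mem (mul_mem hf' hg0) (mul_mem (sub_mem hf0 (mul_mem (O1 1) hf')) hg')
      · simp only [Pi.add_apply, Pi.mul_apply, Pi.sub_apply]
        have h1 := hf x
        have h2 := hg x
        linear_combination (g x) * h1 + (f (![x.1 0, 0], x.2)) * h2 - (x.1 1) * (g' x) * h1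
  exact key.2

theorem OD_div {f : VV k → D} (hf : f ∈ OD k D) :
    ∃ g ∈ OD k D, ∀ x : VV k, f x = f (![x.1 0, 0], x.2) + x.1 1 • g x := by
  refine OD_ind (P := fun f => ∃ g ∈ OD k D, ∀ x : VV k,
    f x = f (![x.1 0, 0], x.2) + x.1 1 • g x) ?_ ?_ ?_ ?_ f hf
  · intro φ hφ d
    obtain ⟨ψ, hψ, h⟩ := O_div hφ
    refine ⟨fun x => ψ x • d, OD_gen hψ d, fun x => ?_⟩
    show φ x • d = φ (![x.1 0, 0], x.2) • d + x.1 1 • ψ x • d
    rw [h x, add_smul, mul_smul]
  · exact ⟨0, zero_mem _, fun x => by simp⟩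
  · rintro f g ⟨f', hf', h⟩ ⟨g', hg', h'⟩
    refine ⟨f' + g', add_mem hf' hg', fun x => ?_⟩
    simp only [Pi.add_apply]
    rw [h x, h' x, smul_add]
    abel
  · rintro a f ⟨f', hf', h⟩
    refine ⟨a • f', Submodule.smul_mem _ _ hf', fun x => ?_⟩
    simp only [Pi.smul_apply]
    rw [h x, smul_add, smul_comm a]

end Geom

end Crest.Agent.ST
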