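import Crest.Agent.STGeomA

/-!
Row 173, GEOM, part B: the space `Γ`, its `SL₂(k)`-action, weights, the evaluation map.
-/

set_option autoImplicit false
open Crest.AlgebraR.SL2Tilting
open Matrix

namespace Crest.Agent.ST.Geom

variable {k : Type} [Field k] {D : Type} [AddCommGroup D] [Module k D]

/-- the operator `u_D(t) = ∑_{i ≤ N} t^i E_i` -/
noncomputable def uD (N : ℕ) (E : ℕ → Module.End k D) (t : k) : Module.End k D :=
  ∑ i ∈ Finset.range (N + 1), t ^ i • E i

theorem uD_zero {N : ℕ} {E : ℕ → Module.End k D} (h0 : E 0 = 1) : uD N E 0 = 1 := by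
  unfold uD
  rw [Finset.sum_eq_single 0]
  · simp [h0]
  · intro i _ hi
    simp [hi]
  · intro h
    exact absurd (Finset.mem_range.mpr (Nat.succ_pos N)) h

theorem uD_add {N : ℕ} {E : ℕ → Module.End k D} (hN : ∀ i, N < i → E i = 0)
    (hadd : ∀ a b, E a * E b = ((Nat.choose (a + b) a : ℕ) : k) • E (a + b)) (s t : k) :
    uD N E (s + t) = uD N E s * uD N E t := by
  -- extend the ranges
  have ext : ∀ (M : ℕ) (r : k), N + 1 ≤ M → uD N E r = ∑ i ∈ Finset.range M, r ^ i • E i := by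
    intro M r hM
    unfold uD
    refine Finset.sum_subset (Finset.range_mono hM) ?_
    intro i _ hi
    have : N < i := by
      by_contra h
      exact hi (Finset.mem_range.mpr (by omega))
    rw [hN i this, smul_zero]
  rw [ext (2 * N + 1) (s + t) (by omega)]
  unfold uD
  rw [Finset.sum_mul_sum]
  have h1 : ∀ n : ℕ, (s + t) ^ n • E n = ∑ ab ∈ Finset.HasAntidiagonal.antidiagonal n,
      (s ^ ab.1 * t ^ ab.2) • (((Nat.choose n ab.1 : ℕ) : k) • E n) := by
    intro n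
    rw [Commute.add_pow' (Commute.all s t) n, Finset.sum_smul]
    refine Finset.sum_congr rfl fun ab hab => ?_
    rw [← smul_assoc, smul_eq_mul, nsmul_eq_mul, mul_comm]
  have h2 : ∑ n ∈ Finset.range (2 * N + 1), (s + t) ^ n • E n =
      ∑ n ∈ Finset.range (2 * N + 1), ∑ ab ∈ Finset.HasAntidiagonal.antidiagonal n,
        (s ^ ab.1 * t ^ ab.2) • (E ab.1 * E ab.2) := by
    refine Finset.sum_congr rfl fun n _ => ?_
    rw [h1 n]
    refine Finset.sum_congr rfl fun ab hab => ?_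
    rw [hadd, Finset.HasAntidiagonal.mem_antidiagonal.mp hab]
  rw [h2, Finset.sum_sigma']
  rw [← Finset.sum_product']
  -- both are sums over pairs
  symm
  refine Finset.sum_bij_ne_zero (fun (ab : ℕ × ℕ) _ _ => (⟨ab.1 + ab.2, ab⟩ : Σ _ : ℕ, ℕ × ℕ))
    ?_ ?_ ?_ ?_
  · intro ab hab _
    simp only [Finset.mem_product, Finset.mem_range] at hab
    simp only [Finset.mem_sigma, Finset.mem_range, Finset.HasAntidiagonal.mem_antidiagonal, and_true]
    omega
  · intro ab _ _ ab' _ _ h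
    simp only [Sigma.mk.injEq, heq_eq_eq] at h
    exact h.2
  · rintro ⟨n, ab⟩ hn hne
    simp only [Finset.mem_sigma, Finset.mem_range, Finset.HasAntidiagonal.mem_antidiagonal] at hn
    have ha : ab.1 ≤ N := by
      by_contra h
      apply hne
      simp only
      rw [hN ab.1 (by omega), zero_mul, smul_zero]
    have hb : ab.2 ≤ N := by
      by_contra h
      apply hne
      simp only
      rw [hN ab.2 (by omega), mul_zero, smul_zero]
    refine ⟨ab, ?_, ?_, ?_⟩
    · simp only [Finset.mem_product, Finset.mem_range]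
      omega
    · rw [smul_mul_smul_comm]
      exact hne
    · simp only [Sigma.mk.injEq, heq_eq_eq, and_true]
      exact hn.2
  · intro ab _ _
    rw [smul_mul_smul_comm]

/-- the space `Γ` -/
def Gam (N : ℕ) (E : ℕ → Module.End k D) : Submodule k (VV k → D) where
  carrier := {f | f ∈ OD k D ∧ (∀ (z : k) (x : VV k), f (x.1, z • x.2) = z ^ N • f x) ∧
    ∀ (t : k) (x : VV k), f (x.1, x.2 + (t * dl x) • x.1) = uD N E (-t) (f x)}
  add_mem' := by
    rintro f g ⟨h1, h2, h3⟩ ⟨h1', h2', h3'⟩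
    refine ⟨add_mem h1 h1', fun z x => ?_, fun t x => ?_⟩
    · simp only [Pi.add_apply, h2, h2', smul_add]
    · simp only [Pi.add_apply, h3, h3', map_add]
  zero_mem' := by
    refine ⟨zero_mem _, fun z x => ?_, fun t x => ?_⟩
    · simp
    · simp
  smul_mem' := by
    rintro c f ⟨h1, h2, h3⟩
    refine ⟨Submodule.smul_mem _ _ h1, fun z x => ?_, fun t x => ?_⟩
    · simp only [Pi.smul_apply, h2]
      rw [smul_comm]
    · simp only [Pi.smul_apply, h3, map_smul]

theorem mem_Gam {N : ℕ} {E : ℕ → Module.End k D} {f : VV k → D} :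
    f ∈ Gam N E ↔ f ∈ OD k D ∧ (∀ (z : k) (x : VV k), f (x.1, z • x.2) = z ^ N • f x) ∧
    ∀ (t : k) (x : VV k), f (x.1, x.2 + (t * dl x) • x.1) = uD N E (-t) (f x) := Iff.rfl

/-- the action of `g` on functions -/
def rY (D : Type) [AddCommGroup D] [Module k D] (g : SL2 k) : (VV k → D) →ₗ[k] (VV k → D) where
  toFun f := fun x => f (act g⁻¹ x)
  map_add' f g := rfl
  map_smul' c f := rfl

theorem rY_apply (g : SL2 k) (f : VV k → D) (x : VV k) : rY D g f x = f (act g⁻¹ x) := rfl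

theorem rY_mul (g h : SL2 k) (f : VV k → D) : rY D (g * h) f = rY D g (rY D h f) := by
  funext x
  rw [rY_apply, rY_apply, rY_apply, _root_.mul_inv_rev, act_mul]

theorem rY_one (f : VV k → D) : rY D (1 : SL2 k) f = f := by
  funext x
  rw [rY_apply, inv_one, act_one]

theorem rY_Gam {N : ℕ} {E : ℕ → Module.End k D} (g : SL2 k) {f : VV k → D} (hf : f ∈ Gam N E) :
    rY D g f ∈ Gam N E := by
  obtain ⟨h1, h2, h3⟩ := hf
  refine ⟨OD_act g⁻¹ h1, fun z x => ?_, fun t x => ?_⟩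
  · rw [rY_apply, rY_apply, ← h2]
    congr 1
    simp [act, Matrix.mulVec_smul]
  · rw [rY_apply, rY_apply, ← h3, dl_act]
    congr 1
    simp [act, Matrix.mulVec_smul, Matrix.mulVec_add]

/-- multiplication by `v_j` -/
def mulc (D : Type) [AddCommGroup D] [Module k D] (j : Fin 2) : (VV k → D) →ₗ[k] (VV k → D) where
  toFun f := fun x => x.1 j • f x
  map_add' f g := by funext x; simp
  map_smul' c f := by
    funext x
    show x.1 j • c • f x = c • x.1 j • f x
    rw [smul_comm]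

theorem mulc_apply (j : Fin 2) (f : VV k → D) (x : VV k) : mulc D j f x = x.1 j • f x := rfl

theorem mulc_Gam {N : ℕ} {E : ℕ → Module.End k D} (j : Fin 2) {f : VV k → D} (hf : f ∈ Gam N E) :
    mulc D j f ∈ Gam N E := by
  obtain ⟨h1, h2, h3⟩ := hf
  refine ⟨OD_smul (O1 j) h1, fun z x => ?_, fun t x => ?_⟩
  · rw [mulc_apply, mulc_apply, h2, smul_comm]
  · rw [mulc_apply, mulc_apply, h3, map_smul]

/-- `v₁Γ + v₂Γ` -/
def mG (N : ℕ) (E : ℕ → Module.End k D) : Submodule k (VV k → D) :=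
  (Gam N E).map (mulc D 0) ⊔ (Gam N E).map (mulc D 1)

theorem mem_mG {N : ℕ} {E : ℕ → Module.End k D} {f : VV k → D} :
    f ∈ mG N E ↔ ∃ a ∈ Gam N E, ∃ b ∈ Gam N E, f = mulc D 0 a + mulc D 1 b := by
  unfold mG
  rw [Submodule.mem_sup]
  constructor
  · rintro ⟨y, ⟨a, ha, rfl⟩, z, ⟨b, hb, rfl⟩, rfl⟩
    exact ⟨a, ha, b, hb, rfl⟩
  · rintro ⟨a, ha, b, hb, rfl⟩
    exact ⟨_, ⟨a, ha, rfl⟩, _, ⟨b, hb, rfl⟩, rfl⟩

theorem mG_le {N : ℕ} {E : ℕ → Module.End k D} : mG N E ≤ Gam N E := by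
  intro f hf
  obtain ⟨a, ha, b, hb, rfl⟩ := mem_mG.mp hf
  exact add_mem (mulc_Gam 0 ha) (mulc_Gam 1 hb)

theorem rY_mulc (g : SL2 k) (j : Fin 2) (f : VV k → D) :
    rY D g (mulc D j f) = mulc D 0 ((g⁻¹).1 j 0 • rY D g f) + mulc D 1 ((g⁻¹).1 j 1 • rY D g f) := by
  funext x
  rw [rY_apply, mulc_apply, Pi.add_apply, mulc_apply, mulc_apply, Pi.smul_apply, Pi.smul_apply,
    rY_apply, smul_smul, smul_smul, ← add_smul]
  congr 1
  show ((g⁻¹).1 *ᵥ x.1) j = _
  rw [Matrix.mulVec, dotProduct, Fin.sum_univ_two]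
  ring

theorem rY_mG {N : ℕ} {E : ℕ → Module.End k D} (g : SL2 k) {f : VV k → D} (hf : f ∈ mG N E) :
    rY D g f ∈ mG N E := by
  obtain ⟨a, ha, b, hb, rfl⟩ := mem_mG.mp hf
  rw [map_add, rY_mulc, rY_mulc]
  have h1 := rY_Gam g ha
  have h2 := rY_Gam g hb
  refine mem_mG.mpr ⟨(g⁻¹).1 0 0 • rY D g a + (g⁻¹).1 1 0 • rY D g b,
    add_mem (Submodule.smul_mem _ _ h1) (Submodule.smul_mem _ _ h2),
    (g⁻¹).1 0 1 • rY D g a + (g⁻¹).1 1 1 • rY D g b,
    add_mem (Submodule.smul_mem _ _ h1) (Submodule.smul_mem _ _ h2), ?_⟩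
  rw [map_add, map_add]
  abel

/-- the base point -/
def x0 (k : Type) [Field k] : VV k := (![1, 0], ![0, 1])

/-- evaluation at the base point -/
def ev (k D : Type) [Field k] [AddCommGroup D] [Module k D] : (VV k → D) →ₗ[k] D where
  toFun f := f (x0 k)
  map_add' _ _ := rfl
  map_smul' _ _ := rfl

theorem ev_apply (f : VV k → D) : ev k D f = f (x0 k) := rfl

theorem ev_mulc0 (f : VV k → D) : ev k D (mulc D 0 f) = ev k D f := by
  rw [ev_apply, mulc_apply]
  simp [x0, ev_apply]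

theorem ev_mulc1 (f : VV k → D) : ev k D (mulc D 1 f) = 0 := by
  rw [ev_apply, mulc_apply]
  simp [x0]

theorem unip_inv (t : k) : (unip t)⁻¹ = unip (-t) := by
  ext i j
  rw [Matrix.SpecialLinearGroup.coe_inv]
  fin_cases i <;> fin_cases j <;> simp [unip, Matrix.adjugate_fin_two]

theorem lnip_inv (t : k) : (lnip t)⁻¹ = lnip (-t) := by
  ext i j
  rw [Matrix.SpecialLinearGroup.coe_inv]
  fin_cases i <;> fin_cases j <;> simp [lnip, Matrix.adjugate_fin_two]

theorem tor_inv (z : k) (hz : z ≠ 0) : (tor z hz)⁻¹ = tor z⁻¹ (inv_ne_zero hz) := by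
  ext i j
  rw [Matrix.SpecialLinearGroup.coe_inv]
  fin_cases i <;> fin_cases j <;> simp [tor, Matrix.adjugate_fin_two]

theorem tor_mul (y z : k) (hy : y ≠ 0) (hz : z ≠ 0) :
    tor y hy * tor z hz = tor (y * z) (mul_ne_zero hy hz) := by
  ext i j
  rw [Matrix.SpecialLinearGroup.coe_mul]
  fin_cases i <;> fin_cases j <;> simp [tor, Matrix.mul_apply, Fin.sum_univ_two, mul_comm]

theorem tor_unip (z t : k) (hz : z ≠ 0) :
    tor z hz * unip t = unip (z ^ 2 * t) * tor z hz := by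
  ext i j
  rw [Matrix.SpecialLinearGroup.coe_mul, Matrix.SpecialLinearGroup.coe_mul]
  fin_cases i <;> fin_cases j <;> simp [tor, unip, Matrix.mul_apply, Fin.sum_univ_two]
  field_simp

theorem ev_unip {N : ℕ} {E : ℕ → Module.End k D} (t : k) {f : VV k → D} (hf : f ∈ Gam N E) :
    ev k D (rY D (unip t) f) = uD N E t (ev k D f) := by
  rw [ev_apply, rY_apply, unip_inv, ev_apply]
  have h := hf.2.2 (-t) (x0 k)
  rw [neg_neg] at h
  rw [← h]
  congr 1
  have hd : dl (x0 k) = 1 := by simp [dl, x0]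
  rw [hd]
  ext i
  · fin_cases i <;> simp [act, x0, unip, Matrix.mulVec, dotProduct, Fin.sum_univ_two]
  · fin_cases i <;> simp [act, x0, unip, Matrix.mulVec, dotProduct, Fin.sum_univ_two]

end Crest.Agent.ST.Geom
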