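import Crest.Agent.STGeomB

/-!
Row 173, GEOM, part C: weights in `Γ`, kernel of the evaluation.
-/

set_option autoImplicit false
open Crest.AlgebraR.SL2Tilting
open scoped Matrix

namespace Crest.Agent.ST.Geom

variable {k : Type} [Field k] {D : Type} [AddCommGroup D] [Module k D]

/-- weight spaces of `Γ` -/
def GW (N : ℕ) (E : ℕ → Module.End k D) (w : ℤ) : Submodule k (VV k → D) where
  carrier := {f | f ∈ Gam N E ∧ ∀ (z : k) (hz : z ≠ 0), rY D (tor z hz) f = z ^ w • f}
  add_mem' := by
    rintro f g ⟨h1, h2⟩ ⟨h1', h2'⟩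
    exact ⟨add_mem h1 h1', fun z hz => by rw [map_add, h2, h2', smul_add]⟩
  zero_mem' := ⟨zero_mem _, fun z hz => by simp⟩
  smul_mem' := by
    rintro c f ⟨h1, h2⟩
    exact ⟨Submodule.smul_mem _ _ h1, fun z hz => by rw [map_smul, h2, smul_comm]⟩

theorem mem_GW {N : ℕ} {E : ℕ → Module.End k D} {w : ℤ} {f : VV k → D} :
    f ∈ GW N E w ↔ f ∈ Gam N E ∧ ∀ (z : k) (hz : z ≠ 0), rY D (tor z hz) f = z ^ w • f := Iff.rfl

theorem GW_le {N : ℕ} {E : ℕ → Module.End k D} {w : ℤ} : GW N E w ≤ Gam N E := fun _ h => h.1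

/-- Laurent polynomial families -/
def Lau {W : Type} [AddCommGroup W] [Module k W] (g : ∀ z : k, z ≠ 0 → W) : Prop :=
  ∃ (B : ℕ) (G : k → W), IsPoly G ∧ ∀ z hz, z ^ B • g z hz = G z

theorem Lau.add {W : Type} [AddCommGroup W] [Module k W] {g g' : ∀ z : k, z ≠ 0 → W}
    (h : Lau g) (h' : Lau g') : Lau (fun z hz => g z hz + g' z hz) := by
  obtain ⟨B, G, hG, h⟩ := h
  obtain ⟨B', G', hG', h'⟩ := h'
  refine ⟨B + B', fun z => z ^ B' • G z + z ^ B • G' z, ?_, fun z hz => ?_⟩
  · exact ((isPoly_id.pow B').smul hG).add ((isPoly_id.pow B).smul hG')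
  · show z ^ (B + B') • (g z hz + g' z hz) = z ^ B' • G z + z ^ B • G' z
    rw [← h z hz, ← h' z hz, smul_add, smul_smul, smul_smul]
    congr 2 <;> ring

theorem Lau.mul {g g' : ∀ z : k, z ≠ 0 → (VV k → k)}
    (h : Lau g) (h' : Lau g') : Lau (fun z hz => g z hz * g' z hz) := by
  obtain ⟨B, G, hG, h⟩ := h
  obtain ⟨B', G', hG', h'⟩ := h'
  refine ⟨B + B', fun z => G z * G' z, hG.mul' hG', fun z hz => ?_⟩
  show z ^ (B + B') • (g z hz * g' z hz) = G z * G' z
  rw [← h z hz, ← h' z hz, pow_add, ← smul_mul_smul_comm]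

theorem Lau.map {W W' : Type} [AddCommGroup W] [Module k W] [AddCommGroup W'] [Module k W']
    {g : ∀ z : k, z ≠ 0 → W} (h : Lau g) (L : W →ₗ[k] W') : Lau (fun z hz => L (g z hz)) := by
  obtain ⟨B, G, hG, h⟩ := h
  refine ⟨B, fun z => L (G z), hG.map L, fun z hz => ?_⟩
  show z ^ B • L (g z hz) = L (G z)
  rw [← h z hz, map_smul]

theorem Lau.const {W : Type} [AddCommGroup W] [Module k W] (w : W) :
    Lau (k := k) (fun _ _ => w) :=
  ⟨0, fun _ => w, IsPoly.const w, fun z hz => by simp⟩

theorem O_lau {φ : VV k → k} (hφ : φ ∈ O k) :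
    Lau (fun z hz => fun x => φ (act (tor z hz)⁻¹ x)) := by
  refine O_ind (P := fun φ => Lau (fun z hz => fun x => φ (act (tor z hz)⁻¹ x)))
    ?_ ?_ ?_ ?_ ?_ φ hφ
  · intro j
    fin_cases j
    · refine ⟨1, fun z => fun x => x.1 0, IsPoly.const _, fun z hz => ?_⟩
      funext x
      show z ^ 1 * (act (tor z hz)⁻¹ x).1 0 = x.1 0
      rw [tor_inv]
      simp [act, tor, Matrix.mulVec, dotProduct, Fin.sum_univ_two, hz]
    · refine ⟨0, fun z => z • fun x => x.1 1, isPoly_id.smul (IsPoly.const _), fun z hz => ?_⟩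
      funext x
      show z ^ 0 * (act (tor z hz)⁻¹ x).1 1 = z * x.1 1
      rw [tor_inv]
      simp [act, tor, Matrix.mulVec, dotProduct, Fin.sum_univ_two]
  · intro j
    fin_cases j
    · refine ⟨1, fun z => fun x => x.2 0, IsPoly.const _, fun z hz => ?_⟩
      funext x
      show z ^ 1 * (act (tor z hz)⁻¹ x).2 0 = x.2 0
      rw [tor_inv]
      simp [act, tor, Matrix.mulVec, dotProduct, Fin.sum_univ_two, hz]
    · refine ⟨0, fun z => z • fun x => x.2 1, isPoly_id.smul (IsPoly.const _), fun z hz => ?_⟩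
      funext x
      show z ^ 0 * (act (tor z hz)⁻¹ x).2 1 = z * x.2 1
      rw [tor_inv]
      simp [act, tor, Matrix.mulVec, dotProduct, Fin.sum_univ_two]
  · intro a
    exact Lau.const _
  · intro f g hf hg
    exact hf.add hg
  · intro f g hf hg
    exact hf.mul hg

theorem OD_lau {f : VV k → D} (hf : f ∈ OD k D) : Lau (fun z hz => rY D (tor z hz) f) := by
  refine OD_ind (P := fun f => Lau (fun z hz => rY D (tor z hz) f)) ?_ ?_ ?_ ?_ f hf
  · intro φ hφ d
    let L : (VV k → k) →ₗ[k] (VV k → D) :=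
      { toFun := fun ψ x => ψ x • d
        map_add' := fun a b => by funext x; simp [add_smul]
        map_smul' := fun a b => by funext x; simp [mul_smul] }
    exact (O_lau hφ).map L
  · simpa using Lau.const (k := k) (0 : VV k → D)
  · intro f g hf hg
    have := hf.add hg
    simpa only [map_add] using this
  · intro a f hf
    have := hf.map (a • LinearMap.id)
    simpa only [map_smul, LinearMap.smul_apply, LinearMap.id_apply] using this

/-- torus decomposition, with an arbitrarily large shift -/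
theorem tor_decomp [Infinite k] {N : ℕ} {E : ℕ → Module.End k D} {a : VV k → D}
    (ha : a ∈ Gam N E) (B₀ : ℕ) : ∃ (B : ℕ) (M : ℕ) (c : ℕ → (VV k → D)), B₀ ≤ B ∧ B₀ ≤ M ∧
      (∀ i : ℕ, c i ∈ GW N E ((i : ℤ) - (B : ℤ))) ∧ (∀ i, M ≤ i → c i = 0) ∧
      ∀ (z : k) (hz : z ≠ 0), z ^ B • rY D (tor z hz) a = ∑ i ∈ Finset.range M, z ^ i • c i := by
  obtain ⟨B₁, G, hG, h⟩ := OD_lau ha.1
  -- enlarge B
  have hG' : IsPoly (fun z => z ^ B₀ • G z) := (isPoly_id.pow B₀).smul hG
  obtain ⟨M₁, c, hc0, hc⟩ := isPoly_pad hG'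
  have hmain : ∀ (z : k) (hz : z ≠ 0), z ^ (B₀ + B₁) • rY D (tor z hz) a =
      ∑ i ∈ Finset.range (max M₁ B₀), z ^ i • c i := by
    intro z hz
    rw [← hc _ (le_max_left _ _) z, ← h z hz, smul_smul, ← pow_add]
  have hcG : ∀ i, c i ∈ Gam N E := by
    intro i
    by_cases hi : i < max M₁ B₀
    · refine coeff_mem (infinite_ne_zero (k := k)) (Gam N E) (c := c) (B := max M₁ B₀) ?_ i hi
      intro t ht
      rw [← hmain t ht]
      exact Submodule.smul_mem _ _ (rY_Gam _ ha)
    · rw [hc0 i (le_trans (le_max_left _ _) (not_lt.mp hi))]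
      exact zero_mem _
  refine ⟨B₀ + B₁, max M₁ B₀, c, Nat.le_add_right _ _, le_max_right _ _, ?_, ?_, hmain⟩
  · intro i
    refine ⟨hcG i, fun y hy => ?_⟩
    by_cases hi : i < max M₁ B₀
    · have := coeff_eq (infinite_ne_zero (k := k)) (c := fun i => rY D (tor y hy) (c i))
        (c' := fun i => (y ^ ((i : ℤ) - ((B₀ + B₁ : ℕ) : ℤ))) • c i) (B := max M₁ B₀) ?_ i hi
      · exact this
      · intro z hz
        have hz' : z ≠ 0 := hz
        have e1 := congrArg (rY D (tor y hy)) (hmain z hz')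
        rw [map_smul, map_sum, ← rY_mul, tor_mul] at e1
        have e2 := hmain (y * z) (mul_ne_zero hy hz')
        simp only [map_smul] at e1
        rw [← e1]
        have e3 : z ^ (B₀ + B₁) • rY D (tor (y * z) (mul_ne_zero hy hz')) a =
            (y ^ (B₀ + B₁))⁻¹ • ∑ i ∈ Finset.range (max M₁ B₀), (y * z) ^ i • c i := by
          rw [← e2, smul_smul, mul_pow]
          congr 1
          field_simp
        rw [e3, Finset.smul_sum]
        refine Finset.sum_congr rfl fun j _ => ?_
        rw [smul_smul, smul_smul]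
        congr 1
        rw [zpow_sub₀ hy, zpow_natCast, zpow_natCast, mul_pow]
        field_simp
    · rw [hc0 i (le_trans (le_max_left _ _) (not_lt.mp hi)), map_zero, smul_zero]
  · intro i hi
    exact hc0 i (le_trans (le_max_left _ _) hi)

/-- the values of a weight vector at `((s,0),(0,1))` -/
theorem GW_val {N : ℕ} {E : ℕ → Module.End k D} {w : ℤ} {f : VV k → D} (hf : f ∈ GW N E w)
    (s : k) (hs : s ≠ 0) : f (![s, 0], ![0, 1]) = s ^ ((N : ℤ) - w) • ev k D f := by
  have h1 := congrFun (hf.2 s⁻¹ (inv_ne_zero hs)) (x0 k)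
  rw [rY_apply, tor_inv, Pi.smul_apply] at h1
  have h2 : act (tor s⁻¹⁻¹ (inv_ne_zero (inv_ne_zero hs))) (x0 k) =
      ((![s, 0] : Fin 2 → k), s⁻¹ • (![0, 1] : Fin 2 → k)) := by
    ext i
    · fin_cases i <;> simp [act, x0, tor, Matrix.mulVec, dotProduct, Fin.sum_univ_two]
    · fin_cases i <;> simp [act, x0, tor, Matrix.mulVec, dotProduct, Fin.sum_univ_two]
  rw [h2] at h1
  have h3 := hf.1.2.1 s⁻¹ ((![s, 0] : Fin 2 → k), (![0, 1] : Fin 2 → k))
  simp only at h3
  rw [h3] at h1
  rw [ev_apply]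
  have h4 : f (![s, 0], ![0, 1]) = (s ^ N) • ((s⁻¹ ^ N) • f (![s, 0], ![0, 1])) := by
    rw [smul_smul, ← mul_pow, mul_inv_cancel₀ hs, one_pow, one_smul]
  rw [h4, h1, smul_smul]
  congr 1
  rw [sub_eq_add_neg, zpow_add₀ hs, zpow_natCast, inv_zpow, zpow_neg]

theorem ev_high [Infinite k] {N : ℕ} {E : ℕ → Module.End k D} {w : ℤ} {f : VV k → D}
    (hf : f ∈ GW N E w) (hw : (N : ℤ) < w) : ev k D f = 0 := by
  obtain ⟨n, hn⟩ : ∃ n : ℕ, w - (N : ℤ) = (n : ℤ) + 1 := ⟨(w - N - 1).toNat, by omega⟩
  have hp : IsPoly (fun s : k => s ^ (n + 1) • f (![s, 0], ![0, 1]) - ev k D f) := by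
    have h1 : IsPoly (fun s : k => s ^ (n + 1) • f (![s, 0], ![0, 1])) := by
      refine (isPoly_id.pow (n + 1)).smul ?_
      refine OD_curve hf.1.1 (fun s => (![s, 0], ![0, 1])) ?_ ?_
      · intro j
        fin_cases j
        · exact isPoly_id
        · exact IsPoly.const 0
      · intro j
        exact IsPoly.const _
    have h2 := h1.add (IsPoly.const (k := k) (-(ev k D f)))
    simpa only [sub_eq_add_neg] using h2
  have h0 := hp.eq_zero (infinite_ne_zero (k := k)) (by
    intro s hs
    have hs' : s ≠ 0 := hs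
    show s ^ (n + 1) • f (![s, 0], ![0, 1]) - ev k D f = 0
    rw [GW_val hf s hs', smul_smul]
    have : s ^ (n + 1) * s ^ ((N : ℤ) - w) = 1 := by
      have e : (N : ℤ) - w = -((n + 1 : ℕ) : ℤ) := by push_cast; omega
      rw [e, zpow_neg, zpow_natCast]
      exact mul_inv_cancel₀ (pow_ne_zero _ hs')
    rw [this, one_smul, sub_self]) 0
  simpa using h0

/-- a weight vector with `ev f = 0` vanishes on `v₂ = 0` -/
theorem vanish [Infinite k] {N : ℕ} {E : ℕ → Module.End k D} {w : ℤ}
    {f : VV k → D} (hf : f ∈ GW N E w) (h0 : ev k D f = 0) (s : k) (y : Fin 2 → k) :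
    f (![s, 0], y) = 0 := by
  have step : ∀ (s : k) (y : Fin 2 → k), s ≠ 0 → y 1 ≠ 0 → f (![s, 0], y) = 0 := by
    intro s y hs hy
    have h1 : f (![s, 0], ![0, 1]) = 0 := by rw [GW_val hf s hs, h0, smul_zero]
    have h2 : f (![s, 0], ![0, y 1]) = 0 := by
      have := hf.1.2.1 (y 1) ((![s, 0] : Fin 2 → k), (![0, 1] : Fin 2 → k))
      simp only [h1, smul_zero] at this
      rw [← this]
      congr 2
      ext i
      fin_cases i <;> simp
    have h3 := hf.1.2.2 (y 0 / (s ^ 2 * y 1)) ((![s, 0] : Fin 2 → k), (![0, y 1] : Fin 2 → k))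
    rw [h2, map_zero] at h3
    rw [← h3]
    congr 2
    ext i
    fin_cases i
    · simp [dl]
      field_simp
    · simp [dl]
  have hp : IsPoly (fun t : k => f (![s + t, 0], ![y 0, y 1 + t])) := by
    refine OD_curve hf.1.1 (fun t => (![s + t, 0], ![y 0, y 1 + t])) ?_ ?_
    · intro j
      fin_cases j
      · exact (IsPoly.const s).add isPoly_id
      · exact IsPoly.const 0
    · intro j
      fin_cases j
      · exact IsPoly.const _
      · exact (IsPoly.const (y 1)).add isPoly_id
  have hinf : ({-s, -(y 1)}ᶜ : Set k).Infinite := (Set.toFinite _).infinite_compl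
  have := hp.eq_zero hinf (by
    intro t ht
    simp only [Set.mem_compl_iff, Set.mem_insert_iff, Set.mem_singleton_iff, not_or] at ht
    refine step _ _ ?_ ?_
    · intro h
      exact ht.1 (by linear_combination h)
    · intro h
      simp only [Matrix.cons_val_one, Matrix.cons_val_zero] at h
      exact ht.2 (by linear_combination h)) 0
  simp only [add_zero] at this
  rw [← this]
  congr 2
  ext i
  fin_cases i <;> rfl

/-- division by `v₂` in `Γ` -/
theorem div_v2 [Infinite k] {N : ℕ} {E : ℕ → Module.End k D} {f : VV k → D} (hf : f ∈ Gam N E)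
    (h0 : ∀ (s : k) (y : Fin 2 → k), f (![s, 0], y) = 0) : ∃ g ∈ Gam N E, f = mulc D 1 g := by
  obtain ⟨g, hg, hfg⟩ := OD_div hf.1
  have hfg' : ∀ x : VV k, f x = x.1 1 • g x := by
    intro x
    rw [hfg x, h0, zero_add]
  refine ⟨g, ⟨hg, ?_, ?_⟩, funext hfg'⟩
  · intro z x
    have hp : IsPoly (fun t : k => g (![x.1 0, x.1 1 + t], z • x.2) -
        z ^ N • g (![x.1 0, x.1 1 + t], x.2)) := by
      have h1 : IsPoly (fun t : k => g (![x.1 0, x.1 1 + t], z • x.2)) := by
        refine OD_curve hg (fun t => (![x.1 0, x.1 1 + t], z • x.2)) ?_ ?_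
        · intro j
          fin_cases j
          · exact IsPoly.const _
          · exact (IsPoly.const (x.1 1)).add isPoly_id
        · intro j
          exact IsPoly.const _
      have h2 : IsPoly (fun t : k => g (![x.1 0, x.1 1 + t], x.2)) := by
        refine OD_curve hg (fun t => (![x.1 0, x.1 1 + t], x.2)) ?_ ?_
        · intro j
          fin_cases j
          · exact IsPoly.const _
          · exact (IsPoly.const (x.1 1)).add isPoly_id
        · intro j
          exact IsPoly.const _
      have := h1.add (h2.const_smul (-(z ^ N)))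
      simpa only [neg_smul, sub_eq_add_neg] using this
    have hinf : ({-(x.1 1)}ᶜ : Set k).Infinite := (Set.toFinite _).infinite_compl
    have := hp.eq_zero hinf (by
      intro t ht
      have ht' : x.1 1 + t ≠ 0 := by
        intro h
        apply ht
        simp only [Set.mem_singleton_iff]
        linear_combination h
      show g (![x.1 0, x.1 1 + t], z • x.2) - z ^ N • g (![x.1 0, x.1 1 + t], x.2) = 0
      have e1 := hfg' (![x.1 0, x.1 1 + t], z • x.2)
      have e2 := hfg' (![x.1 0, x.1 1 + t], x.2)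
      have e3 := hf.2.1 z (![x.1 0, x.1 1 + t], x.2)
      simp only at e1 e2 e3
      rw [e3, e2] at e1
      simp only [Matrix.cons_val_one, Matrix.cons_val_zero] at e1
      rw [smul_comm] at e1
      have := smul_right_injective D ht' e1
      rw [← this, sub_self]) 0
    simp only [add_zero] at this
    have hx : (![x.1 0, x.1 1] : Fin 2 → k) = x.1 := by
      ext i
      fin_cases i <;> rfl
    rw [hx] at this
    exact sub_eq_zero.mp this
  · intro s x
    have hp : IsPoly (fun t : k => g (![x.1 0, x.1 1 + t],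
        x.2 + (s * dl (![x.1 0, x.1 1 + t], x.2)) • ![x.1 0, x.1 1 + t]) -
        uD N E (-s) (g (![x.1 0, x.1 1 + t], x.2))) := by
      have hl : IsPoly (fun t : k => x.1 1 + t) := (IsPoly.const (x.1 1)).add isPoly_id
      have hd : IsPoly (fun t : k => s * dl ((![x.1 0, x.1 1 + t] : Fin 2 → k), x.2)) := by
        have : (fun t : k => s * dl ((![x.1 0, x.1 1 + t] : Fin 2 → k), x.2)) =
            fun t => s * (x.1 0 * x.2 1) + (-(s * x.2 0)) * (x.1 1 + t) := by
          funext t
          simp [dl]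
          ring
        rw [this]
        exact (IsPoly.const _).add ((IsPoly.const _).mul hl)
      have h1 : IsPoly (fun t : k => g (![x.1 0, x.1 1 + t],
          x.2 + (s * dl (![x.1 0, x.1 1 + t], x.2)) • ![x.1 0, x.1 1 + t])) := by
        refine OD_curve hg (fun t => (![x.1 0, x.1 1 + t],
          x.2 + (s * dl (![x.1 0, x.1 1 + t], x.2)) • ![x.1 0, x.1 1 + t])) ?_ ?_
        · intro j
          fin_cases j
          · exact IsPoly.const _
          · exact hl
        · intro j
          fin_cases j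
          · exact (IsPoly.const (x.2 0)).add (hd.mul (IsPoly.const (x.1 0)))
          · exact (IsPoly.const (x.2 1)).add (hd.mul hl)
      have h2 : IsPoly (fun t : k => g (![x.1 0, x.1 1 + t], x.2)) := by
        refine OD_curve hg (fun t => (![x.1 0, x.1 1 + t], x.2)) ?_ ?_
        · intro j
          fin_cases j
          · exact IsPoly.const _
          · exact (IsPoly.const (x.1 1)).add isPoly_id
        · intro j
          exact IsPoly.const _
      have := h1.add (h2.map (-(uD N E (-s))))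
      simpa only [LinearMap.neg_apply, sub_eq_add_neg] using this
    have hinf : ({-(x.1 1)}ᶜ : Set k).Infinite := (Set.toFinite _).infinite_compl
    have := hp.eq_zero hinf (by
      intro t ht
      have ht' : x.1 1 + t ≠ 0 := by
        intro h
        apply ht
        simp only [Set.mem_singleton_iff]
        linear_combination h
      show g (![x.1 0, x.1 1 + t],
        x.2 + (s * dl (![x.1 0, x.1 1 + t], x.2)) • ![x.1 0, x.1 1 + t]) -
        uD N E (-s) (g (![x.1 0, x.1 1 + t], x.2)) = 0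
      have e1 := hfg' (![x.1 0, x.1 1 + t],
        x.2 + (s * dl (![x.1 0, x.1 1 + t], x.2)) • ![x.1 0, x.1 1 + t])
      have e2 := hfg' (![x.1 0, x.1 1 + t], x.2)
      have e3 := hf.2.2 s (![x.1 0, x.1 1 + t], x.2)
      simp only at e1 e2 e3
      rw [e3, e2, map_smul] at e1
      simp only [Matrix.cons_val_one, Matrix.cons_val_zero] at e1
      have := smul_right_injective D ht' e1
      rw [← this, sub_self]) 0
    simp only [add_zero] at this
    have hx : (![x.1 0, x.1 1] : Fin 2 → k) = x.1 := by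
      ext i
      fin_cases i <;> rfl
    rw [hx] at this
    exact sub_eq_zero.mp this

end Crest.Agent.ST.Geom
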