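import Crest.Agent.TSCatDefs
set_option autoImplicit false

/-!
Row 303 (S0463), part of (CAT): interpolation over `ZMod p`.
-/

namespace Crest.Agent.TS

open Finset Function Polynomial

theorem sum_eval_univ {p : ℕ} [Fact p.Prime] (Q : (ZMod p)[X]) (hQ : Q.natDegree < p - 1) :
    ∑ x : ZMod p, Q.eval x = 0 := by
  simp only [eval_eq_sum_range]
  rw [Finset.sum_comm]
  refine Finset.sum_eq_zero (fun i hi => ?_)
  rw [← Finset.mul_sum]
  have h := FiniteField.sum_pow_lt_card_sub_one (ZMod p) i (by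
    rw [ZMod.card]
    have := mem_range.1 hi
    omega)
  rw [h, mul_zero]

theorem sum_range_cast {p : ℕ} [Fact p.Prime] (f : ZMod p → ZMod p) :
    ∑ r ∈ range (p - 1), f ((r + 1 : ℕ) : ZMod p) = ∑ x ∈ (univ : Finset (ZMod p)).erase 0, f x := by
  have hp : 0 < p := (Fact.out : p.Prime).pos
  haveI : NeZero p := ⟨hp.ne'⟩
  refine Finset.sum_nbij (fun r => ((r + 1 : ℕ) : ZMod p)) ?_ ?_ ?_ ?_
  · intro r hr
    have hr := mem_range.1 hr
    simp only [mem_erase, ne_eq, mem_univ, and_true]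
    rw [ZMod.natCast_eq_zero_iff]
    exact Nat.not_dvd_of_pos_of_lt (by omega) (by omega)
  · intro a ha b hb hab
    have ha := mem_range.1 (mem_coe.1 ha)
    have hb := mem_range.1 (mem_coe.1 hb)
    simp only at hab
    rw [ZMod.natCast_eq_natCast_iff'] at hab
    rw [Nat.mod_eq_of_lt (by omega), Nat.mod_eq_of_lt (by omega)] at hab
    omega
  · intro x hx
    have hx := (mem_erase.1 (mem_coe.1 hx)).1
    have hv : x.val ≠ 0 := fun h => hx ((ZMod.val_eq_zero x).1 h)
    refine ⟨x.val - 1, ?_, ?_⟩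
    · rw [mem_coe, mem_range]
      have := ZMod.val_lt x
      omega
    · simp only
      rw [Nat.sub_add_cancel (by omega), ZMod.natCast_zmod_val]
  · intro r _
    rfl

/-- the interpolation identity -/
theorem interp {p : ℕ} [Fact p.Prime] (Q : (ZMod p)[X]) (hQ : Q.natDegree < p - 1) :
    ∑ r ∈ range (p - 1), Q.eval (((r + 1 : ℕ) : ZMod p)⁻¹) = - Q.eval 0 := by
  rw [sum_range_cast (fun x => Q.eval x⁻¹)]
  have h1 : ∑ x ∈ (univ : Finset (ZMod p)).erase 0, Q.eval x⁻¹ =
      ∑ x ∈ (univ : Finset (ZMod p)).erase 0, Q.eval x := by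
    refine Finset.sum_nbij' (fun x => x⁻¹) (fun x => x⁻¹) ?_ ?_ ?_ ?_ ?_
    · intro x hx
      simpa using hx
    · intro x hx
      simpa using hx
    · intro x _
      simp
    · intro x _
      simp
    · intro x _
      rfl
  rw [h1]
  have h2 := sum_eval_univ Q hQ
  rw [← Finset.add_sum_erase univ _ (mem_univ (0 : ZMod p))] at h2
  linear_combination h2

namespace Par
variable (P : Par)

/-- being a polynomial of degree `≤ d` along a line -/
def PolyLe (d : ℕ) (f : ZMod P.p → ZMod P.p) : Prop :=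
  ∃ Q : (ZMod P.p)[X], Q.natDegree ≤ d ∧ ∀ x, f x = Q.eval x

variable {P}

theorem PolyLe.const (c : ZMod P.p) (d : ℕ) : P.PolyLe d (fun _ => c) :=
  ⟨C c, by simp, fun x => by simp⟩

theorem PolyLe.mono {d d' : ℕ} {f : ZMod P.p → ZMod P.p} (h : P.PolyLe d f) (hd : d ≤ d') :
    P.PolyLe d' f := by
  obtain ⟨Q, h1, h2⟩ := h
  exact ⟨Q, h1.trans hd, h2⟩

theorem PolyLe.add {d : ℕ} {f g : ZMod P.p → ZMod P.p} (hf : P.PolyLe d f) (hg : P.PolyLe d g) :
    P.PolyLe d (fun x => f x + g x) := by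
  obtain ⟨Q, h1, h2⟩ := hf
  obtain ⟨R, h3, h4⟩ := hg
  exact ⟨Q + R, (natDegree_add_le _ _).trans (max_le h1 h3), fun x => by simp [h2, h4]⟩

theorem PolyLe.mul [Fact P.p.Prime] {d d' : ℕ} {f g : ZMod P.p → ZMod P.p} (hf : P.PolyLe d f)
    (hg : P.PolyLe d' g) : P.PolyLe (d + d') (fun x => f x * g x) := by
  obtain ⟨Q, h1, h2⟩ := hf
  obtain ⟨R, h3, h4⟩ := hg
  exact ⟨Q * R, natDegree_mul_le.trans (add_le_add h1 h3), fun x => by simp [h2, h4]⟩

theorem PolyLe.smul {d : ℕ} {f : ZMod P.p → ZMod P.p} (c : ZMod P.p) (hf : P.PolyLe d f) :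
    P.PolyLe d (fun x => c * f x) := by
  obtain ⟨Q, h1, h2⟩ := hf
  exact ⟨C c * Q, (natDegree_C_mul_le _ _).trans h1, fun x => by simp [h2]⟩

theorem PolyLe.neg {d : ℕ} {f : ZMod P.p → ZMod P.p} (hf : P.PolyLe d f) :
    P.PolyLe d (fun x => - f x) := by
  have := hf.smul (-1)
  simpa using this

theorem PolyLe.sum {ι : Type*} {d : ℕ} (s : Finset ι) {f : ι → ZMod P.p → ZMod P.p}
    (hf : ∀ i ∈ s, P.PolyLe d (f i)) : P.PolyLe d (fun x => ∑ i ∈ s, f i x) := by
  classical
  induction s using Finset.induction_on with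
  | empty => simpa using PolyLe.const (P := P) 0 d
  | insert a s ha ih =>
    simp only [Finset.sum_insert ha]
    exact (hf a (mem_insert_self _ _)).add (ih (fun i hi => hf i (mem_insert_of_mem hi)))

theorem PolyLe.prod [Fact P.p.Prime] {ι : Type*} {d : ℕ} (s : Finset ι)
    {f : ι → ZMod P.p → ZMod P.p}
    (hf : ∀ i ∈ s, P.PolyLe d (f i)) : P.PolyLe (s.card * d) (fun x => ∏ i ∈ s, f i x) := by
  classical
  induction s using Finset.induction_on with
  | empty => simpa using PolyLe.const (P := P) 1 0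
  | insert a s ha ih =>
    simp only [Finset.prod_insert ha, Finset.card_insert_of_notMem ha]
    refine ((hf a (mem_insert_self _ _)).mul (ih (fun i hi => hf i (mem_insert_of_mem hi)))).mono
      (le_of_eq (by ring))

theorem PolyLe.affine (a b : ZMod P.p) : P.PolyLe 1 (fun x => a + x * b) := by
  refine ⟨C a + X * C b, ?_, fun x => by
    simp only [eval_add, eval_C, eval_mul, eval_X]⟩
  refine (natDegree_add_le _ _).trans (max_le (by simp) ?_)
  refine natDegree_mul_le.trans ?_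
  have := natDegree_X_le (R := ZMod P.p)
  simp only [natDegree_C, add_zero]
  exact this

theorem PolyLe.interp [Fact P.p.Prime] {d : ℕ} {f : ZMod P.p → ZMod P.p} (hf : P.PolyLe d f)
    (hd : d < P.p - 1) :
    ∑ r ∈ range (P.p - 1), f (((r + 1 : ℕ) : ZMod P.p)⁻¹) = - f 0 := by
  obtain ⟨Q, h1, h2⟩ := hf
  simp only [h2]
  exact TS.interp Q (lt_of_le_of_lt h1 hd)

/-! ### polynomials along lines for the extensions -/

theorem chi_poly [Fact P.p.Prime] {n : ℕ} (a : ℕ) (x v : Fin n → ZMod P.p) :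
    P.PolyLe n (fun ρ => P.chi a (fun l => x l + ρ * v l)) := by
  have h : P.PolyLe ((univ : Finset (Fin n)).card * 1)
      (fun ρ => ∏ l : Fin n, if a.testBit l then x l + ρ * v l else 1 - (x l + ρ * v l)) := by
    apply PolyLe.prod
    intro l _
    by_cases h : a.testBit l = true
    · simp only [h, if_true]
      exact PolyLe.affine _ _
    · simp only [h]
      have := PolyLe.affine (P := P) (1 - x l) (-(v l))
      refine (this : _) |> fun h => ?_
      obtain ⟨Q, h1, h2⟩ := h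
      exact ⟨Q, h1, fun x => by rw [← h2]; simp; ring⟩
  simpa [chi] using h

theorem ext1_poly [Fact P.p.Prime] {n : ℕ} (f : ℕ → ZMod P.p) (x v : Fin n → ZMod P.p) :
    P.PolyLe n (fun ρ => P.ext1 f (fun l => x l + ρ * v l)) := by
  unfold ext1
  exact PolyLe.sum _ (fun a _ => (chi_poly a x v).smul _)

theorem ext2_poly [Fact P.p.Prime] {n m : ℕ} (f : ℕ → ℕ → ZMod P.p) (x v : Fin n → ZMod P.p)
    (y w : Fin m → ZMod P.p) :
    P.PolyLe (n + m) (fun ρ => P.ext2 f (fun l => x l + ρ * v l) (fun l => y l + ρ * w l)) := by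
  unfold ext2
  exact PolyLe.sum _ (fun a _ => PolyLe.sum _ (fun h _ =>
    ((chi_poly a x v).smul _).mul (chi_poly h y w)))

theorem ext2_polyX [Fact P.p.Prime] {n m : ℕ} (f : ℕ → ℕ → ZMod P.p) (x v : Fin n → ZMod P.p)
    (y : Fin m → ZMod P.p) :
    P.PolyLe n (fun ρ => P.ext2 f (fun l => x l + ρ * v l) y) := by
  unfold ext2
  exact PolyLe.sum _ (fun a _ => PolyLe.sum _ (fun h _ => by
    have := ((chi_poly a x v).smul (f a h)).mul (PolyLe.const (P := P) (P.chi h y) 0)
    simpa using this))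

theorem del_poly [Fact P.p.Prime] {d : ℕ} {f : ZMod P.p → ZMod P.p} (hf : P.PolyLe d f) :
    P.PolyLe (P.z * d) (fun ρ => P.del (f ρ)) := by
  unfold del
  have := PolyLe.prod (P := P) (d := d) (range P.z)
    (f := fun v ρ => (f ρ + v) * ((v : ZMod P.p) - P.z)⁻¹) (fun v _ => by
      have h1 := hf.add (PolyLe.const (P := P) (v : ZMod P.p) d)
      have h2 := h1.mul (PolyLe.const (P := P) (((v : ZMod P.p) - P.z)⁻¹) 0)
      simpa using h2)
  simpa using this

/-! ### values at Boolean points -/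

theorem chi_bv {n : ℕ} {a b : ℕ} (ha : a < 2 ^ n) (hb : b < 2 ^ n) :
    P.chi a (P.bv n b) = if a = b then 1 else 0 := by
  unfold chi bv
  split_ifs with h
  · subst h
    refine Finset.prod_eq_one (fun l _ => ?_)
    split_ifs <;> simp
  · -- some bit differs
    have : ∃ l : Fin n, a.testBit l ≠ b.testBit l := by
      by_contra hc
      apply h
      apply Nat.eq_of_testBit_eq
      intro i
      by_cases hi : i < n
      · by_contra h2
        exact hc ⟨⟨i, hi⟩, h2⟩
      · have h1 : a < 2 ^ i := lt_of_lt_of_le ha (Nat.pow_le_pow_right (by norm_num) (by omega))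
        have h2 : b < 2 ^ i := lt_of_lt_of_le hb (Nat.pow_le_pow_right (by norm_num) (by omega))
        rw [Nat.testBit_lt_two_pow h1, Nat.testBit_lt_two_pow h2]
    obtain ⟨l, hl⟩ := this
    apply Finset.prod_eq_zero (mem_univ l)
    cases h1 : a.testBit l <;> cases h2 : b.testBit l <;> simp_all

theorem ext1_bv {n : ℕ} (f : ℕ → ZMod P.p) {b : ℕ} (hb : b < 2 ^ n) :
    P.ext1 f (P.bv n b) = f b := by
  unfold ext1
  rw [Finset.sum_eq_single b]
  · rw [chi_bv hb hb, if_pos rfl, mul_one]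
  · intro a ha hab
    rw [chi_bv (mem_range.1 ha) hb, if_neg hab, mul_zero]
  · intro h
    exact absurd (mem_range.2 hb) h

theorem ext2_bvX {n m : ℕ} (f : ℕ → ℕ → ZMod P.p) {b : ℕ} (hb : b < 2 ^ n)
    (y : Fin m → ZMod P.p) :
    P.ext2 f (P.bv n b) y = P.ext1 (f b) y := by
  unfold ext2 ext1
  rw [Finset.sum_eq_single b]
  · refine Finset.sum_congr rfl (fun h _ => ?_)
    rw [chi_bv hb hb, if_pos rfl, mul_one]
  · intro a ha hab
    refine Finset.sum_eq_zero (fun h _ => ?_)
    rw [chi_bv (mem_range.1 ha) hb, if_neg hab, mul_zero, zero_mul]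
  · intro h
    exact absurd (mem_range.2 hb) h

theorem del_eq_one [Fact P.p.Prime] (hp : P.z < P.p) : P.del (-(P.z : ZMod P.p)) = 1 := by
  unfold del
  refine Finset.prod_eq_one (fun v hv => ?_)
  have hv := mem_range.1 hv
  rw [neg_add_eq_sub]
  apply mul_inv_cancel₀
  intro h
  rw [sub_eq_zero] at h
  have h2 := (ZMod.natCast_eq_natCast_iff' v P.z P.p).1 h
  rw [Nat.mod_eq_of_lt (by omega), Nat.mod_eq_of_lt hp] at h2
  omega

theorem del_eq_zero {m : ℕ} (hm : m < P.z) : P.del (-(m : ZMod P.p)) = 0 := by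
  unfold del
  exact Finset.prod_eq_zero (mem_range.2 hm) (by simp)

end Par

end Crest.Agent.TS
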